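import Vale.Agent.P251.H.StabInput
import Vale.Agent.P257.C.Cells

/-!
# P257, part W: powers of an Euler class up to isomorphism

* `am a W : W ⟶ W ⊗ R`, the multiplication by `a : 𝟙 ⟶ R`;
* `Eu a k f` : `f` is the multiplication by `a ^ k` followed by an isomorphism.
-/

open CategoryTheory MonoidalCategory Functor.LaxMonoidal Functor.OplaxMonoidal

universe v u v' u'

namespace Vale.Agent.P257.W

open Vale.Agent.P251.H

variable {H : Type u} [Category.{v} H] [MonoidalCategory H] {R : H} (a : 𝟙_ H ⟶ R)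
  {V W W' W'' Z : H} {k l : ℕ}

/-- multiplication by `a` -/
def am (W : H) : W ⟶ W ⊗ R := (ρ_ W).inv ≫ W ◁ a

@[reassoc]
theorem am_nat (f : W ⟶ W') : f ≫ am a W' = am a W ≫ f ▷ R := by
  rw [am, am, Category.assoc, whisker_exchange, rightUnitor_inv_naturality_assoc]

theorem whiskerLeft_am (V W : H) : V ◁ am a W = am a (V ⊗ W) ≫ (α_ V W R).hom := by
  simp [am]

/-- `(W ⊗ V) ⊗ R ≅ (W ⊗ R) ⊗ V` -/
def sw [SymmetricCategory H] (W V R : H) : (W ⊗ V) ⊗ R ≅ (W ⊗ R) ⊗ V :=
  α_ _ _ _ ≪≫ whiskerLeftIso W (β_ V R) ≪≫ (α_ _ _ _).symm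

theorem am_whiskerRight [SymmetricCategory H] (W V : H) :
    am a W ▷ V = am a (W ⊗ V) ≫ (sw W V R).hom := by
  have : V ◁ a ≫ (β_ V R).hom = (ρ_ V).hom ≫ (λ_ V).inv ≫ a ▷ V := by
    rw [BraidedCategory.braiding_naturality_right, braiding_tensorUnit_right, Category.assoc]
  rw [am, am, sw, Iso.trans_hom, Iso.trans_hom, whiskerLeftIso_hom, Category.assoc,
    associator_naturality_right_assoc, ← MonoidalCategory.whiskerLeft_comp_assoc, this]
  simp

/-- the powers of `a` -/
def apow : ∀ k : ℕ, 𝟙_ H ⟶ tpow R k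
  | 0 => 𝟙 _
  | k + 1 => (λ_ _).inv ≫ (a ⊗ₘ apow k)

/-- multiplication by `a ^ k`, up to isomorphism -/
inductive Eu : ℕ → ∀ {W W' : H}, (W ⟶ W') → Prop
  | iso {W W' : H} (e : W ⟶ W') [IsIso e] : Eu 0 e
  | step {k : ℕ} {W W' W'' : H} {f : W ⟶ W'} (h : Eu k f) (e : W' ⊗ R ⟶ W'') [IsIso e] :
      Eu (k + 1) (f ≫ am a W' ≫ e)

namespace Eu

variable {a} {f : W ⟶ W'} {g : W' ⟶ W''}

theorem isIso (h : Eu a 0 f) : IsIso f := by
  cases h
  assumption

theorem exists_step (h : Eu a (k + 1) f) : ∃ (V : H) (f' : W ⟶ V) (e : V ⊗ R ≅ W'),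
    Eu a k f' ∧ f' ≫ am a V ≫ e.hom = f := by
  cases h with
  | step h e => exact ⟨_, _, asIso e, h, rfl⟩

theorem cast (h : Eu a k f) (e : k = l) : Eu a l f := e ▸ h

theorem comp_iso (h : Eu a k f) (g : W' ⟶ W'') [IsIso g] : Eu a k (f ≫ g) := by
  cases h with
  | iso => exact .iso _
  | step h e => simpa only [Category.assoc] using h.step (e ≫ g)

theorem comp (h : Eu a k f) (h' : Eu a l g) : Eu a (k + l) (f ≫ g) := by
  induction h' with
  | iso => exact h.comp_iso _
  | step _ e ih => simpa only [Category.assoc, Nat.add_assoc] using (ih h).step e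

theorem iso_comp (f : W ⟶ W') [IsIso f] (h : Eu a k g) : Eu a k (f ≫ g) :=
  ((Eu.iso f).comp h).cast (Nat.zero_add k)

variable (a) in
theorem one (W : H) : Eu a 1 (am a W) := by
  simpa using (Eu.iso (a := a) (𝟙 W)).step (𝟙 _)

theorem succ (h : Eu a k f) : Eu a (k + 1) (f ≫ am a W') := h.comp (one a _)

theorem whiskerLeft (V : H) (h : Eu a k f) : Eu a k (V ◁ f) := by
  induction h with
  | iso => exact .iso _
  | step _ e ih =>
    rw [MonoidalCategory.whiskerLeft_comp, MonoidalCategory.whiskerLeft_comp, whiskerLeft_am,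
      Category.assoc]
    exact ih.step _

theorem whiskerRight [SymmetricCategory H] (h : Eu a k f) (V : H) : Eu a k (f ▷ V) := by
  induction h with
  | iso => exact .iso _
  | step _ e ih =>
    rw [comp_whiskerRight, comp_whiskerRight, am_whiskerRight, Category.assoc]
    exact ih.step _

theorem tensorHom [SymmetricCategory H] {f' : V ⟶ Z} (h : Eu a k f) (h' : Eu a l f') :
    Eu a (k + l) (f ⊗ₘ f') := by
  rw [tensorHom_def]
  exact (h.whiskerRight _).comp (h'.whiskerLeft _)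

variable (a) in
theorem of_apow [SymmetricCategory H] : ∀ k, Eu a k (apow a k)
  | 0 => .iso (𝟙 _)
  | k + 1 => by
    have : a = am a _ ≫ (λ_ R).hom := by simp [am, ← unitors_inv_equal]
    refine iso_comp _ ((tensorHom ?_ (of_apow k)).cast (Nat.add_comm 1 k))
    rw [this]
    nth_rewrite 1 [← this]
    exact (one a _).comp_iso _

variable (a) in
theorem of_tpow [SymmetricCategory H] (W : H) (k : ℕ) : Eu a k ((ρ_ W).inv ≫ W ◁ apow a k) :=
  iso_comp _ ((of_apow a k).whiskerLeft W)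

/-- The target is unique up to isomorphism. -/
theorem uniq {f' : W ⟶ W''} (h : Eu a k f) (h' : Eu a k f') :
    ∃ e : W' ≅ W'', f ≫ e.hom = f' := by
  induction k generalizing W' W'' with
  | zero =>
    have := h.isIso
    have := h'.isIso
    exact ⟨(asIso f).symm ≪≫ asIso f', by simp⟩
  | succ k ih =>
    obtain ⟨V, f, e, k, rfl⟩ := h.exists_step
    obtain ⟨V', f', e', k', rfl⟩ := h'.exists_step
    obtain ⟨j, rfl⟩ := ih k k'
    exact ⟨e.symm ≪≫ whiskerRightIso j R ≪≫ e', by simp [am_nat_assoc]⟩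

/-- Splitting off the last factors. -/
theorem split (h : Eu a (k + l) f) :
    ∃ (V : H) (f₁ : W ⟶ V) (f₂ : V ⟶ W'), Eu a k f₁ ∧ Eu a l f₂ ∧ f₁ ≫ f₂ = f := by
  induction l generalizing W' with
  | zero => exact ⟨_, f, 𝟙 _, h, .iso _, Category.comp_id _⟩
  | succ l ih =>
    obtain ⟨V, f, e, h0, rfl⟩ := exists_step (k := k + l) h
    obtain ⟨V', f₁, f₂, h1, h2, rfl⟩ := ih h0
    exact ⟨V', f₁, _, h1, h2.step e.hom, (Category.assoc _ _ _).symm⟩

/-- Cancelling the first factors. -/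
theorem cancel {f' : W ⟶ W''} (h : Eu a k f) (h' : Eu a (k + l) f') :
    ∃ g : W' ⟶ W'', Eu a l g ∧ f ≫ g = f' := by
  obtain ⟨V, f₁, f₂, h1, h2, rfl⟩ := h'.split
  obtain ⟨e, rfl⟩ := h.uniq h1
  exact ⟨e.hom ≫ f₂, h2.iso_comp _, (Category.assoc _ _ _).symm⟩

theorem map {H' : Type u'} [Category.{v'} H'] [MonoidalCategory H'] (F : H ⥤ H') [F.Monoidal]
    (h : Eu a k f) : Eu (ε F ≫ F.map a) k (F.map f) := by
  induction h with
  | iso => exact .iso _
  | @step k W W' W'' f _ e _ ih =>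
    have : F.map (am a W') = am (ε F ≫ F.map a) (F.obj W') ≫ μ F _ _ := by
      simp [am]
    rw [F.map_comp, F.map_comp, this, Category.assoc]
    exact ih.step _

/-- change of `a` along an isomorphism -/
theorem congr {R' : H} (j : R ⟶ R') [IsIso j] (h : Eu a k f) : Eu (a ≫ j) k f := by
  induction h with
  | iso => exact .iso _
  | @step k W W' W'' f _ e _ ih =>
    have : am a W' ≫ e = am (a ≫ j) W' ≫ W' ◁ inv j ≫ e := by
      simp [am, ← MonoidalCategory.whiskerLeft_comp_assoc]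
    rw [this]
    exact ih.step _

section inv

variable {P : ℕ → H → Prop} (hi : ∀ i {V V' : H}, (V ≅ V') → P i V → P i V')
  (hs : ∀ i {V : H}, P i V → P (i + 1) (V ⊗ R)) {i : ℕ}
include hi hs

/-- propagation of invariants -/
theorem prop (h : Eu a k f) (hW : P i W) : P (i + k) W' := by
  induction h with
  | iso e => exact hi _ (asIso e) hW
  | step _ e ih => exact hi _ (asIso e) (hs _ (ih hW))

/-- uniqueness of division -/
theorem inj (h : Eu a k f) (hW : P i W) (H : ∀ j, i ≤ j → j < i + k → ∀ V, P j V →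
    Function.Injective fun x : V ⊗ R ⟶ Z => am a V ≫ x) :
    Function.Injective fun x : W' ⟶ Z => f ≫ x := by
  induction h with
  | iso e => exact fun x y h => (cancel_epi e).1 h
  | step h e ih =>
    intro x y w
    simp only [Category.assoc] at w
    exact (cancel_epi e).1 (H _ (Nat.le_add_right _ _) (by omega) _ (h.prop hi hs hW)
      (ih hW (fun j h1 h2 => H j h1 (by omega)) w))

/-- existence of division -/
theorem surj (h : Eu a k f) (hW : P i W) (H : ∀ j, i ≤ j → j < i + k → ∀ V, P j V →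
    Function.Surjective fun x : V ⊗ R ⟶ Z => am a V ≫ x) :
    Function.Surjective fun x : W' ⟶ Z => f ≫ x := by
  induction h with
  | iso e => exact fun x => ⟨inv e ≫ x, by simp⟩
  | step h e ih =>
    intro x
    obtain ⟨y, rfl⟩ := ih hW (fun j h1 h2 => H j h1 (by omega)) x
    obtain ⟨z, rfl⟩ := H _ (Nat.le_add_right _ _) (by omega) _ (h.prop hi hs hW) y
    exact ⟨inv e ≫ z, by simp⟩

end inv

variable (a) in
theorem _root_.Vale.Agent.P257.W.Eu.exists (W : H) (k : ℕ) :
    ∃ (W' : H) (f : W ⟶ W'), Eu a k f := by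
  induction k with
  | zero => exact ⟨W, 𝟙 W, .iso _⟩
  | succ k ih =>
    obtain ⟨W', f, h⟩ := ih
    exact ⟨_, _, h.succ⟩

end Eu

end Vale.Agent.P257.W
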