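import Vale.Agent.P257.W.DetM1
import Vale.Agent.P257.Det.Pz
import Vale.Agent.P257.Z.Base

/-!
# P257, part W: the graded detection property follows from the ungraded one
-/

open CategoryTheory MonoidalCategory Functor.LaxMonoidal Functor.OplaxMonoidal

namespace Vale.Agent.P257.W

open Vale.Agent.P251.H.StabInput (S J)
open Vale.Agent.P251.Q (ThomTheory)
open K M D D.EF C
open Vale.Agent.P257.P (Cel MUo MUc)
open Vale.Agent.P257.Det (EvC HasCls)
open Vale.Agent.P257.D.O (V)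

universe v

theorem exists_evC {X : MM} {n : ℕ} (h : NF X 0 (2 * (n : ℤ))) : ∃ (X₀ : EF O) (P : EvC X₀),
    Fintype.card P.c.El + n = Fintype.card P.c'.El ∧ Nonempty (X ≅ lG.obj X₀) := by
  obtain ⟨c, k, -, hk, ⟨i⟩⟩ := h
  have hf : ∀ m, Fintype.card (O.fin m).El = m := Fintype.card_fin
  let c' := O.fin (Fintype.card c.El + n)
  have hc : Fintype.card (c' ⊗ c').El = Fintype.card (O.fin k ⊗ c).El := by
    rw [card_tensor, card_tensor, hf, hf]
    omega
  exact ⟨Cel c (V (O.fin k)), ⟨c, c', V (O.fin k), O.vecIso c' c' ≪≫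
    E.VF.mapIso (O.isoOfEquiv (Fintype.equivOfCardEq hc)) ≪≫ (O.vecIso _ c).symm, Iso.refl _⟩,
    (hf _).symm, ⟨i ≪≫ ((lanRep iG c).symm ⊗ᵢ ((Z.sphFin (J MM) k).symm ≪≫ (lGJ _).symm)) ≪≫
      Functor.Monoidal.μIso lG _ _⟩⟩

variable (p : ℕ)

theorem nonempty_sph_iso (k : ℤ) :
    Nonempty ((SC.sph (De p)).obj k ≅ (lE p).obj ((SC.sph (E.De O p)).obj k)) :=
  nonempty_cells_iso _ ((SC.sph (E.De O p)).map (lE p))
    (sGOne p ≪≫ ((lE p).mapIso (SC.sphOne _)).symm) k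

variable [Fact p.Prime] (E' : ThomTheory.{v}) (G : L.RegSeq p E'.A)

/-- the ungraded detection property -/
def DetO : Prop :=
  ∀ [MonObj ((st (E.De O p)).obj MUo)]
    (Q : L.Coef (SC.sph (E.De O p)) ((st (E.De O p)).obj MUo) G), HasCls E' (st (E.De O p)) Q →
    ∀ (m : ℕ) (X : EF O) (P : EvC X), Fintype.card P.c.El + (p ^ m - 1) = Fintype.card P.c'.El →
      DetAt (𝟭 O) p (Fin p) MUc (Q.IsV m) (Q.IsV (m + 1)) X

variable {p E' G}

/-- **DETM** from the ungraded statement -/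
theorem detM_of (h : DetO p E' G) [I : MonObj ((sE p).obj MG.X)]
    (Q : L.Coef (SC.sph (De p)) ((sE p).obj MG.X) G)
    (hQ : @HasCls E' _ _ _ _ (sG p) _ I _ _ Q) : DetM p fun m => Q.IsV m := by
  intro m X hX
  have hp : 1 ≤ p ^ m := Nat.one_le_pow _ _ (Fact.out : p.Prime).pos
  obtain ⟨X₀, P, hP, ⟨i⟩⟩ := exists_evC (n := p ^ m - 1) (by rwa [Nat.cast_sub hp, Nat.cast_pow])
  let I' : MonObj ((lE p).obj ((st (E.De O p)).obj MUo)) := I
  let I'' : MonObj ((st (E.De O p)).obj MUo) :=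
    (Functor.FullyFaithful.ofFullyFaithful (lE p)).monObj _
  let Q' := comapCoef (lE p) (nonempty_sph_iso p) (R := (st (E.De O p)).obj MUo)
    (R' := (sE p).obj MG.X) (Iso.refl _) (by
      refine (congrArg (_ ≫ ·) ((Category.comp_id _).trans (Functor.map_preimage _ _))).trans ?_
      exact (Functor.Monoidal.μ_δ_assoc _ _ _ _).trans
        ((Category.id_comp _).symm.trans (congrArg (· ≫ _) (id_tensorHom_id _ _).symm))) Q
  have k : ∀ (n : ℕ) {Y : SC (E.De O p)} (x : Y ⟶ _), Q'.IsV n x ↔ Q.IsV n ((lE p).map x) :=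
    fun n _ x => iff_of_eq (congrArg (Q.IsV n) (Category.comp_id _))
  have h1 := h Q' (fun c c' K e Y φ x y a n h1 h2 h3 => hQ c c' K e _ ((lE p).mapIso φ) _ y a n h1
    ((congrArg (_ ≫ ·) (Category.comp_id _)).trans (((lE p).map_comp _ _).symm.trans
      ((congrArg (lE p).map h2).trans (lE_st p y)))) h3) m X₀ P hP
  refine DetAt.of_lG (B := MUc) i (fun e _ h => h.iso e) (fun e _ h => h.iso e) ?_
  obtain ⟨u, hu, h1⟩ := h1
  exact ⟨u, hu, fun x l hx e => (k _ _).1 (h1 x l ((k _ _).2 hx) e)⟩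

end Vale.Agent.P257.W
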