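import Vale.Agent.P257.W.DetT
import Vale.Agent.P257.M.LDefs
import Vale.Agent.P257.F.Cop

/-!
# P257, part W: detection after base change along `𝟙 ⟶ C`

* `IsVP` : classes of the form `v_m · un a`;
* `onto_tc` : the maps of the chain `C ⊗ T` are onto in the window;
* `isVP_of_detS`, `detV_of_isVP` : passing between the bottom and the top of the chain;
* `hasV_okT`.
-/

open CategoryTheory MonoidalCategory Limits MonObj

universe v u w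

set_option linter.unusedSectionVars false

namespace Vale.Agent.P257.W

open Vale.Agent.P251 Vale.Agent.P251.H Vale.Agent.P251.H.StabInput Vale.Agent.P251.M
open K M D D.EF C A T L

section gen

variable {E : Type u} [Category.{v} E] [MonoidalCategory E] [SymmetricCategory E]
  {P P' O R V Y K : E}

theorem exists_iso_whiskerRight [IsInv O] (e : P ⊗ O ≅ P' ⊗ O) :
    ∃ δ : P ≅ P', e.hom = δ.hom ▷ O := by
  obtain ⟨a, ha⟩ := whiskerRight_surj O e.hom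
  obtain ⟨b, hb⟩ := whiskerRight_surj O e.inv
  exact ⟨⟨a, b, whiskerRight_inj O (by rw [comp_whiskerRight, ha, hb, e.hom_inv_id, id_whiskerRight]),
    whiskerRight_inj O (by rw [comp_whiskerRight, ha, hb, e.inv_hom_id, id_whiskerRight])⟩, ha.symm⟩

theorem mul_tensor (t : K ⟶ 𝟙_ E) (e : Y ⟶ P ⊗ O) (z : P ⟶ R) (u : O ⟶ V) :
    Y ◁ t ≫ (ρ_ Y).hom ≫ e ≫ (z ⊗ₘ u) =
      e ▷ K ≫ (α_ _ _ _).hom ≫ (z ⊗ₘ (O ◁ t ≫ (ρ_ O).hom ≫ u)) := by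
  rw [← rightUnitor_naturality_assoc, whisker_exchange_assoc, ← whiskerLeft_comp_tensorHom,
    ← whiskerLeft_comp_tensorHom, ← associator_naturality_right_assoc]
  simp

theorem one_tensor [MonObj R] (v : Y ⟶ V) :
    (λ_ _).inv ≫ (η[R] ⊗ₘ v) = v ≫ (λ_ _).inv ≫ η[R] ▷ V := by
  rw [tensorHom_def', leftUnitor_inv_naturality_assoc]

end gen

theorem oddCells_okT {p lam : ℕ} (hl : 1 ≤ lam) : V.OddCells (okT p lam) (lam ^ ·) :=
  fun i _ h => ⟨Nat.one_le_pow _ _ hl, _, _, h, even_dd p i⟩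

variable {p : ℕ} {T T' : CommMon MM} {a : Lam} {r m : ℕ} {φ : T0 ⟶ T} {X Y : EE p}

/-- the source of `t ^ r · x` -/
noncomputable def tIso {P : EE p} (e : X ≅ P ⊗ (sE p).obj (rp (a, 0))) (r : ℕ) :
    X ⊗ (sE p).obj (rp (0, (r : ℤ))) ≅ P ⊗ (sE p).obj (rp (a, (r : ℤ))) :=
  whiskerRightIso e _ ≪≫ α_ _ _ _ ≪≫ whiskerLeftIso P ((sE p).mapIso (rpT a r))

theorem t_un {P R : EE p} (e : X ≅ P ⊗ (sE p).obj (rp (a, 0))) (y : P ⟶ R) (r : ℕ) :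
    X ◁ (sE p).map (t1 r) ≫ (ρ_ X).hom ≫ e.hom ≫ (y ⊗ₘ (sE p).map (un a)) =
      (tIso e r).hom ≫ (y ⊗ₘ (sE p).map (ut a r)) := by
  have h : (sE p).map (rpT a r).hom ≫ (sE p).map (ut a r) =
      (sE p).obj (rp (a, 0)) ◁ (sE p).map (t1 r) ≫ (ρ_ _).hom ≫ (sE p).map (un a) := by
    rw [← Functor.map_comp, ut_eq, Iso.hom_inv_id_assoc, tX, Functor.map_comp, Functor.map_comp,
      Category.assoc, SC.st_whiskerLeft]
    rfl
  rw [mul_tensor, ← h, ← whiskerLeft_comp_tensorHom]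
  simp [tIso]

theorem sE_tX (Z : MM) (r : ℕ) :
    (sE p).map (tX Z r) = (sE p).obj Z ◁ (sE p).map (t1 r) ≫ (ρ_ ((sE p).obj Z)).hom := by
  rw [tX, Functor.map_comp, SC.st_whiskerLeft]
  rfl

theorem Det0.iso {v : X ⟶ (sE p).obj T.X} (h : Det0 φ a r v) (e : Y ≅ X) :
    Det0 φ a r (e.hom ≫ v) := by
  obtain ⟨e', rfl⟩ := h
  exact ⟨e ≪≫ e', by rw [Preadditive.comp_zsmul, Iso.trans_hom, Category.assoc]⟩

section R

variable {R : EE p} [MonObj R] {A₀ : Type w} [CommRing A₀] {G : RegSeq p A₀}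
  (Q : Coef (SC.sph (De p)) R G)

/-- `x` is `v_m · un a` -/
def IsVP (m : ℕ) (a : Lam) {X : EE p} (x : X ⟶ R ⊗ (sE p).obj T0.X) : Prop :=
  ∃ (P : EE p) (e : X ≅ P ⊗ (sE p).obj (rp (a, 0))) (y : P ⟶ R), Q.IsV m y ∧
    x = e.hom ≫ (y ⊗ₘ (sE p).map (un a))

variable {Q}

theorem IsVP.iso {x : X ⟶ R ⊗ (sE p).obj T0.X} (h : IsVP Q m a x) (e : Y ≅ X) :
    IsVP Q m a (e.hom ≫ x) := by
  obtain ⟨P, e', y, hy, rfl⟩ := h
  exact ⟨P, e ≪≫ e', y, hy, by rw [Iso.trans_hom, Category.assoc]⟩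

theorem DetV.iso {v : X ⟶ (sE p).obj T.X} (h : DetV Q m φ a r v) (e : Y ≅ X) :
    DetV Q m φ a r (e.hom ≫ v) := by
  obtain ⟨e', x, hx, k⟩ := h
  exact ⟨e ≪≫ e', x, hx, by
    rw [one_tensor, Category.assoc, ← one_tensor, k, Iso.trans_hom, Category.assoc]⟩

theorem DetV.of_tensor {v : X ⟶ (sE p).obj T.X} (c : X ≅ (cE p).obj (dd p m - 1, (a, (r : ℤ))))
    {P : EE p} (e : X ≅ P ⊗ (sE p).obj (rp (a, (r : ℤ)))) {y : P ⟶ R} (hy : Q.IsV m y)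
    (h : (λ_ _).inv ≫ (η[R] ⊗ₘ v) = e.hom ≫ (y ⊗ₘ (sE p).map (ut a r ≫ ah φ))) :
    DetV Q m φ a r v := by
  let c' : X ≅ (SC.sph (De p)).obj (2 * ((p : ℤ) ^ m - 1)) ⊗ (sE p).obj (rp (a, (r : ℤ))) :=
    c ≪≫ whiskerRightIso (eqToIso (congrArg (SC.sph (De p)).obj (by rw [dd]; ring))) _
  obtain ⟨δ, hδ⟩ := exists_iso_whiskerRight (c'.symm ≪≫ e)
  refine ⟨c', δ.hom ≫ y, hy.iso δ, ?_⟩
  rw [h, ← whiskerRight_comp_tensorHom, ← hδ, Iso.trans_hom, Iso.symm_hom, Category.assoc,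
    Iso.hom_inv_id_assoc]

/-- from the bottom of the chain to the top -/
theorem DetV.of_isVP {v : Y ⟶ (sE p).obj T.X} (c : Y ≅ (cE p).obj (dd p m - 1, (a, (r : ℤ))))
    {x : X ⟶ R ⊗ (sE p).obj T0.X} (hx : IsVP Q m a x) (ε : Y ≅ X ⊗ (sE p).obj (rp (0, (r : ℤ))))
    (h : (λ_ _).inv ≫ (η[R] ⊗ₘ v) =
      ε.hom ≫ X ◁ (sE p).map (t1 r) ≫ (ρ_ X).hom ≫ x ≫ R ◁ (sE p).map (ah φ)) :
    DetV Q m φ a r v := by
  obtain ⟨P, e, y, hy, rfl⟩ := hx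
  refine DetV.of_tensor c (ε ≪≫ tIso e r) hy ?_
  rw [h, Category.assoc, reassoc_of% t_un e y r, tensorHom_comp_whiskerLeft, Functor.map_comp,
    Iso.trans_hom, Category.assoc]

variable {ok : ℕ → MM → Prop} {a : ℕ → Lam} {w : ℕ → ℕ} (hp : p.Prime) (h0 : Le0 R.obj)
  (h1 : Supp R.obj {g : Gam | g.1 = 0}) (h2 : PosT R.obj 0) (h : V.OddCells ok w)
include hp h0 h1 h2 h

/-- from the top of the chain to the bottom -/
theorem isVP_of_detS' (hV : Q.IsV 0 ((p : ℤ) • η[R])) (tc : TC ok T0 m T)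
    (hd : tc.All (DetS Q a w)) {s : TStep T T'} (hs : DetS Q a w m T T' tc.i0 s)
    (hr : ∑ j ∈ Finset.range m, w j ≤ w m) (hr' : w m < p) {J : ℤ}
    (c : X ≅ (SC.sph (De p)).obj J ⊗ (sE p).obj (rp (a m, 0))) (x : X ⟶ R ⊗ (sE p).obj T0.X)
    (ε : X ⊗ (sE p).obj (rp (0, (w m : ℤ))) ≅ (sE p).obj s.X)
    (e : X ◁ (sE p).map (t1 (w m)) ≫ (ρ_ X).hom ≫ x ≫ R ◁ (sE p).map (ah tc.i0) =
      ε.hom ≫ (λ_ _).inv ≫ (η[R] ⊗ₘ (sE p).map s.v)) : IsVP Q m (a m) x := by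
  have b := fun (r : ℕ) (k : ℤ) => bij_tensor (c := SC.sph (De p)) (SC.sphOne _) (wTests_sm _)
    (we₂_ut h0 h1 (a m) r).2 k
  obtain ⟨z, hz⟩ := (b 0 J).2 (c.inv ≫ x)
  have hz : x = c.hom ≫ (z ⊗ₘ (sE p).map (un (a m))) := (Iso.inv_comp_eq c).1 hz.symm
  refine ⟨_, c, z, ?_, hz⟩
  rw [hz, Category.assoc, reassoc_of% t_un c z (w m), tensorHom_comp_whiskerLeft,
    ← Functor.map_comp] at e
  cases m with
  | zero =>
    obtain ⟨e', he⟩ := hs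
    cases tc
    obtain ⟨δ, hδ⟩ := exists_iso_whiskerRight ((tIso c (w 0)).symm ≪≫ ε ≪≫ e' ≪≫ (λ_ _).symm)
    have : z = δ.hom ≫ ((p : ℤ) • η[R]) := (b (w 0) J).1 (by
      rw [he, ← Iso.eq_inv_comp] at e
      simp only [TC.i0, ah_id, Category.comp_id] at e
      beta_reduce
      rw [e, ← whiskerRight_comp_tensorHom, ← hδ, zsmul_tensor, tensor_zsmul,
        ← whiskerLeft_comp_tensorHom, ← Preadditive.comp_zsmul, ← leftUnitor_inv_naturality_assoc]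
      simp only [Iso.trans_hom, Iso.symm_hom, Category.assoc])
    exact this ▸ hV.iso δ
  | succ m =>
    obtain ⟨e', y, hy, he⟩ := hs
    obtain ⟨δ, hδ⟩ := exists_iso_whiskerRight ((tIso c (w (m + 1))).symm ≪≫ ε ≪≫ e')
    refine (cy_tc hp h0 h1 h2 h tc hd (a (m + 1)) hr hr').isV hp m.succ_pos δ (hy.iso δ) ?_
    rw [he, ← Iso.eq_inv_comp] at e
    rw [e, ← whiskerRight_comp_tensorHom, ← hδ]
    simp only [Iso.trans_hom, Iso.symm_hom, Category.assoc]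

end R

variable {C : CommMon MM} [MonObj ((sE p).obj C.X)] {A₀ : Type w} [CommRing A₀] {G : RegSeq p A₀}
  {Q : Coef (SC.sph (De p)) ((sE p).obj C.X) G}

theorem sE_cwl (φ : T ⟶ T') :
    (sE p).map (ah (cwl C φ)) = (sE p).obj C.X ◁ (sE p).map (ah φ) := SC.st_whiskerLeft _ _

theorem comp_cinr (hη : η[(sE p).obj C.X] = (sE p).map η[C.X]) (v : X ⟶ (sE p).obj T.X) :
    v ≫ (sE p).map (ah (cinr C T)) = (λ_ _).inv ≫ (η[(sE p).obj C.X] ⊗ₘ v) := by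
  rw [one_tensor, hη, ah_cinr, Functor.map_comp, SC.st_whiskerRight]
  rfl

/-- **(e) ⟹ DetV** -/
theorem detV_of_isVP (hη : η[(sE p).obj C.X] = (sE p).map η[C.X]) {v : Y ⟶ (sE p).obj T.X}
    (c : Y ≅ (cE p).obj (dd p m - 1, (a, (r : ℤ)))) {x : X ⟶ (sE p).obj (cten C T0).X}
    (hx : IsVP Q m a x) (ε : Y ≅ X ⊗ (sE p).obj (rp (0, (r : ℤ))))
    (h : v ≫ (sE p).map (ah (cinr C T)) =
      ε.hom ≫ X ◁ (sE p).map (t1 r) ≫ (ρ_ X).hom ≫ x ≫ (sE p).map (ah (cwl C φ))) :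
    DetV Q m φ a r v :=
  DetV.of_isVP c hx ε (by rw [← comp_cinr hη, h, sE_cwl])

variable {ok : ℕ → MM → Prop} {a : ℕ → Lam} {w : ℕ → ℕ} (hp : p.Prime) (h0 : Le0 C.X)
  (h1 : Supp C.X {g : Gam | g.1 = 0}) (h2 : PosT C.X 0) (h : V.OddCells ok w)
include hp h0 h1 h2 h

/-- **ONTO** -/
theorem onto_tc {i : ℕ} (tc : TC ok T0 i T) (hd : tc.All (DetS Q a w)) (b : Lam)
    (hr : ∑ j ∈ Finset.range i, w j ≤ r) (hr' : r < p) (J : ℤ) :
    (tc.tensor C).All fun _ T T' _ s => ∀ y : (cE p).obj (J, (b, (r : ℤ))) ⟶ (sE p).obj T'.X,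
      ∃ y' : (cE p).obj (J, (b, (r : ℤ))) ⟶ (sE p).obj T.X, y' ≫ (sE p).map (ah s.i) = y := by
  induction tc with
  | nil => trivial
  | cons tc s k ih =>
    refine ⟨ih hd.1 (by rw [Finset.sum_range_succ] at hr; omega), fun y => ?_⟩
    have H := cy_tc hp h0 h1 h2 h (.cons tc s k) hd b hr hr'
    obtain ⟨n, rfl | rfl⟩ := Int.even_or_odd' J
    · obtain ⟨z, hz⟩ := H.surj n y
      have e : (z ⊗ₘ (sE p).map (ut b r ≫ ah tc.i0)) ≫ (sE p).obj C.X ◁ (sE p).map (ah s.i) =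
          z ⊗ₘ (sE p).map (ut b r ≫ ah (tc.i0 ≫ s.i)) := by
        rw [tensorHom_comp_whiskerLeft, ← Functor.map_comp, Category.assoc, ah_comp]
      rw [← sE_cwl] at e
      exact ⟨_, e.trans hz.symm⟩
    · exact ⟨0, zero_comp.trans (H.odd n y).symm⟩

/-- **KER** -/
theorem isVP_of_detS (hη : η[(sE p).obj C.X] = (sE p).map η[C.X])
    (hV : Q.IsV 0 ((p : ℤ) • η[(sE p).obj C.X])) (tc : TC ok T0 m T) (hd : tc.All (DetS Q a w))
    {s : TStep T T'} (hs : DetS Q a w m T T' tc.i0 s) (hr : ∑ j ∈ Finset.range m, w j ≤ w m)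
    (hr' : w m < p) {Z : MM} {J : ℤ} (hZ : NF Z (a m, 0) J) (x : Z ⟶ (cten C T0).X)
    (ε : (sE p).obj (Z ⊗ rp (0, (w m : ℤ))) ≅ (sE p).obj s.X)
    (e : (sE p).map (tX Z (w m) ≫ x ≫ ah (cwl C tc.i0)) =
      ε.hom ≫ (sE p).map (s.v ≫ ah (cinr C T))) : IsVP Q m (a m) ((sE p).map x) := by
  obtain ⟨c⟩ := hZ.iso p
  refine isVP_of_detS' hp h0 h1 h2 h hV tc hd hs hr hr' c _ ε ?_
  rw [← comp_cinr hη, ← Functor.map_comp, ← e, Functor.map_comp, Functor.map_comp, sE_tX, sE_cwl,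
    Category.assoc]

/-- **KER**, applied to the output of `PULL` -/
theorem isVP_of_pull (hη : η[(sE p).obj C.X] = (sE p).map η[C.X])
    (hV : Q.IsV 0 ((p : ℤ) • η[(sE p).obj C.X])) (tc : TC ok T0 m T) (hd : tc.All (DetS Q a w))
    {s : TStep T T'} (hs : DetS Q a w m T T' tc.i0 s) (hr : ∑ j ∈ Finset.range m, w j ≤ w m)
    (hr' : w m < p) {A R : CommMon MM} {sp0 : A ⟶ cten C T0} {sp : R ⟶ cten C T}
    {c : RC A sp0 (tc.tensor C) R sp} (b : Bc c) {x : s.X ⟶ R.X}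
    (hx : x ≫ ah sp = s.v ≫ ah (cinr C T)) {Z : MM} {J : ℤ} (hZ : NF Z (a m, 0) J)
    (ξ : Z ⟶ b.A'.X) (ε : (sE p).obj (Z ⊗ rp (0, (w m : ℤ))) ≅ (sE p).obj s.X)
    (e : (sE p).map (tX Z (w m) ≫ ξ ≫ ah b.c'.i0) = ε.hom ≫ (sE p).map x ≫ (sE p).map (ah b.g)) :
    IsVP Q m (a m) ((sE p).map (ξ ≫ ah b.sp0')) := by
  refine isVP_of_detS hp h0 h1 h2 h hη hV tc hd hs hr hr' hZ _ ε ?_
  have k : ah b.sp0' ≫ ah (cwl C tc.i0) = ah b.c'.i0 ≫ ah b.sp' := by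
    rw [← ah_comp, ← ah_comp, b.c'.i0_sp, TC.i0_tensor]
  have l : ah sp = ah b.g ≫ ah b.sp' := by rw [← ah_comp, b.hg]
  rw [Category.assoc, k, ← hx, l, ← Category.assoc ξ, ← Category.assoc, Functor.map_comp, e,
    Functor.map_comp, Functor.map_comp, Category.assoc, Category.assoc]

omit h in
/-- **OUT** -/
theorem hasV_okT {lam n : ℕ} (hl : 2 ≤ lam) (hn : lam ^ (n + 1) ≤ p)
    (tc : TC (okT p lam) T0 (n + 1) T) (hd : tc.All (DetS Q a (lam ^ ·))) (hp2 : p ≠ 2)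
    (hK : Thom ((sE p).obj C.X) (scMod (De p))) {U : St.SHCat} (σ : St.Susp U) :
    P257.St.HasV σ p n :=
  hasV_of_tc hp h0 h1 h2 (oddCells_okT (by omega)) tc hd le_rfl ((Wt_lt hl _).trans_le hn) hp2 hK σ

end Vale.Agent.P257.W
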