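import Vale.Agent.P257.M.Defs
import Vale.Agent.P257.E.Res
import Vale.Agent.P257.C.PiLoc
import Vale.Agent.P257.C.TConn

/-!
# P257, part W: the non-equivariant stable category of `MM` and its cells

* `De p`, `EE p`, `sE p`, `cE p`;
* framed cells `NF`: existence, closure properties, comparison with the cells `cE p`;
* representation of classes by maps out of framed cells;
* locality in the degree.
-/

open CategoryTheory MonoidalCategory Limits

universe v u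

namespace Vale.Agent.P257

open Vale.Agent.P251.G Vale.Agent.P251.H Vale.Agent.P251.H.StabInput

namespace W

open K M D D.EF C
open E (n0 dvd_n0 coprime_n0 DE)

section gen

variable {C : Type u} [Category.{v} C] [Preadditive C]

theorem isIso_zsmul_left {A B : C} {x : A ⟶ B} {c : ℤ} (h : IsIso (c • x)) :
    IsIso (c • 𝟙 B) ∧ IsIso x := by
  have h1 : (c • inv (c • x)) ≫ x = 𝟙 B := by
    rw [Preadditive.zsmul_comp, ← Preadditive.comp_zsmul, IsIso.inv_hom_id]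
  have h2 : x ≫ (c • inv (c • x)) = 𝟙 A := by
    rw [Preadditive.comp_zsmul, ← Preadditive.zsmul_comp, IsIso.hom_inv_id]
  refine ⟨⟨inv (c • x) ≫ x, ?_, ?_⟩, ⟨_, h2, h1⟩⟩
  · rw [Preadditive.zsmul_comp, Category.id_comp, ← Preadditive.zsmul_comp, h1]
  · rw [Preadditive.comp_zsmul, Category.comp_id, ← Preadditive.zsmul_comp, h1]

theorem isIso_zsmul_mul {A : C} {a b : ℤ} (ha : IsIso (a • 𝟙 A)) (hb : IsIso (b • 𝟙 A)) :
    IsIso ((a * b) • 𝟙 A) := by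
  have : (a * b) • 𝟙 A = (a • 𝟙 A) ≫ (b • 𝟙 A) := by
    rw [Preadditive.zsmul_comp, Category.id_comp, mul_smul]
  rw [this]
  infer_instance

theorem isIso_zsmul_of_dvd {A : C} {a b : ℤ} (hb : IsIso (b • 𝟙 A)) (h : a ∣ b) :
    IsIso (a • 𝟙 A) := by
  obtain ⟨c, rfl⟩ := h
  rw [mul_smul] at hb
  exact (isIso_zsmul_left hb).1

theorem isIso_zsmul_comp {A B : C} {a : ℤ} (ha : IsIso (a • 𝟙 B)) (x : A ⟶ B) [IsIso x] :
    IsIso (a • x) := by
  have : a • x = x ≫ (a • 𝟙 B) := by rw [Preadditive.comp_zsmul, Category.comp_id]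
  rw [this]
  infer_instance

variable [MonoidalCategory C] [MonoidalPreadditive C]

theorem isIso_zsmul_obj {a : ℤ} (ha : IsIso (a • 𝟙 (𝟙_ C))) (A : C) : IsIso (a • 𝟙 A) := by
  have : a • 𝟙 A = (ρ_ A).inv ≫ A ◁ (a • 𝟙 (𝟙_ C)) ≫ (ρ_ A).hom := by
    rw [show A ◁ (a • 𝟙 (𝟙_ C)) = a • A ◁ 𝟙 (𝟙_ C) from (tensorLeft A).map_zsmul]
    simp
  rw [this]
  infer_instance

end gen

section tp

variable {C : Type u} [Category.{v} C] [MonoidalCategory C]

/-- additivity of tensor powers -/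
def tpowAdd (X : C) : ∀ m n : ℕ, tpow X m ⊗ tpow X n ≅ tpow X (n + m)
  | 0, _ => λ_ _
  | m + 1, n => α_ _ _ _ ≪≫ whiskerLeftIso X (tpowAdd X m n)

/-- monoidal functors preserve tensor powers -/
def tpowMap {D : Type*} [Category D] [MonoidalCategory D] (F : C ⥤ D) [F.Monoidal] (X : C) :
    ∀ n : ℕ, F.obj (tpow X n) ≅ tpow (F.obj X) n
  | 0 => (Functor.Monoidal.εIso F).symm
  | n + 1 => (Functor.Monoidal.μIso F _ _).symm ≪≫ whiskerLeftIso _ (tpowMap F X n)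

/-- the powers of a cell -/
def tpowCell {Δ : Type} [AddCommGroup Δ] (c : Cells C Δ) {X : C} {d : Δ} (e : X ≅ c.obj d) :
    ∀ n : ℕ, tpow X n ≅ c.obj (n • d)
  | 0 => c.zero ≪≫ eqToIso (by rw [zero_smul])
  | n + 1 => (e ⊗ᵢ tpowCell c e n) ≪≫ c.add _ _ ≪≫ eqToIso (by rw [succ_nsmul'])

end tp

theorem not_dvd_n0 {p : ℕ} (hp : p.Prime) : ¬ p ∣ n0 p :=
  (Nat.Prime.coprime_iff_not_dvd hp).1 (coprime_n0 hp)

/-- integers all of whose prime factors divide `n0 p` -/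
def Smooth (p m : ℕ) : Prop := m ≠ 0 ∧ ∀ q : ℕ, q.Prime → q ∣ m → q < p ^ 2 ∧ q ≠ p

theorem Smooth.of_lt {p m : ℕ} (h0 : 0 < m) (h : m < p) : Smooth p m :=
  ⟨h0.ne', fun q _ k => by
    have := (Nat.le_of_dvd h0 k).trans_lt h
    exact ⟨this.trans_le (Nat.le_self_pow two_ne_zero p), this.ne⟩⟩

theorem Smooth.dvd_pow {p m : ℕ} (h : Smooth p m) : ∃ k, m ∣ n0 p ^ k := by
  induction m using Nat.recOnMul with
  | zero => exact (h.1 rfl).elim
  | one => exact ⟨0, dvd_rfl⟩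
  | prime q hq => exact ⟨1, by rw [pow_one]; exact dvd_n0 hq (h.2 q hq dvd_rfl).1 (h.2 q hq dvd_rfl).2⟩
  | mul a b ha hb =>
    obtain ⟨k, hk⟩ := ha ⟨left_ne_zero_of_mul h.1, fun q hq d => h.2 q hq (d.mul_right b)⟩
    obtain ⟨l, hl⟩ := hb ⟨right_ne_zero_of_mul h.1, fun q hq d => h.2 q hq (d.mul_left a)⟩
    exact ⟨k + l, by rw [pow_add]; exact mul_dvd_mul hk hl⟩

/-- the non-equivariant stabilization datum -/
noncomputable abbrev De (p : ℕ) : Stab MM := DE MM (n0 p)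

/-- the non-equivariant stable category -/
abbrev EE (p : ℕ) : Type 1 := SC (De p)

/-- the stabilization functor -/
noncomputable abbrev sE (p : ℕ) : MM ⥤ EE p := st (De p)

variable {p : ℕ}

instance : IsIso ((sE p).map (lam : _ ⟶ 𝟙_ MM)) := E.isIso_std_lam (n := n0 p) _
  (h := (SC.lamIso (De p)).isIso_hom)

/-- Smooth integers are invertible. -/
theorem Smooth.isIso {m : ℕ} (h : Smooth p m) (A : EE p) : IsIso ((m : ℤ) • 𝟙 A) := by
  rw [natCast_zsmul]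
  exact E.isIso_nsmul_n0 h.1 h.2 A

theorem isIso_n0 (A : EE p) : IsIso ((n0 p : ℤ) • 𝟙 A) := by
  rw [natCast_zsmul]
  exact E.isIso_nsmul_of_DE (n := n0 p) _ (h := (SC.lamIso (De p)).isIso_hom) A

/-- `rep` of an isomorphism -/
noncomputable def repIso {J : Type} [Idx J] {a b : J} (e : a ≅ b) : rep a ≅ rep b where
  hom := repMap e.inv
  inv := repMap e.hom
  hom_inv_id := by rw [← repMap_comp, e.hom_inv_id, repMap_id]
  inv_hom_id := by rw [← repMap_comp, e.inv_hom_id, repMap_id]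

/-- the units in all degrees -/
noncomputable def rpCells : Cells MM Gam where
  obj := rp
  add _ _ := repTensor _ _ ≪≫ repIso (Gr.isoMk (λ_ (𝟙_ O)) rfl)
  zero := Iso.refl _

variable (p) in
/-- the cells -/
noncomputable def cE : Cells (EE p) (ℤ × Gam) := (SC.sph (De p)).prod (rpCells.map (sE p))

theorem cE_obj (k : ℤ) (g : Gam) :
    (cE p).obj (k, g) = (SC.sph (De p)).obj k ⊗ (sE p).obj (rp g) := rfl

variable (p) in
/-- the cells of dimension zero -/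
noncomputable def rpIso (g : Gam) : (sE p).obj (rp g) ≅ (cE p).obj (0, g) := (λ_ _).symm

variable (p) in
/-- the cells of degree zero -/
noncomputable def sphIso (k : ℤ) : (SC.sph (De p)).obj k ≅ (cE p).obj (k, 0) := (ρ_ _).symm

variable (p) in
/-- the circle -/
noncomputable def SIso : (sE p).obj (S MM) ≅ (cE p).obj (1, 0) :=
  (SC.sphOne (De p)).symm ≪≫ sphIso p 1

variable (p) in
/-- the inverse of the circle -/
noncomputable def LIso : (sE p).obj (L : MM) ≅ (cE p).obj (-1, 0) :=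
  (Cells.ofInvNegOne (SC.lamIso (De p))).symm ≪≫ sphIso p (-1)

section nf

/-- framed cells, possibly without a representable factor -/
def NF0 (X : MM) (g : Gam) (k : ℤ) : Prop :=
  ∃ (c : O) (n : ℕ), (n : ℤ) = Fintype.card c.El + k ∧
    Nonempty (X ≅ rep (⟨c, g⟩ : JG) ⊗ tpow (S MM) n)

variable {X Y : MM} {g g' : Gam} {k k' : ℤ}

/-- the tensor product of two framed cells -/
noncomputable def nfTensor (c c' : O) (g g' : Gam) (n n' : ℕ) :
    (rep (⟨c, g⟩ : JG) ⊗ tpow (S MM) n) ⊗ (rep (⟨c', g'⟩ : JG) ⊗ tpow (S MM) n') ≅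
      rep (⟨c ⊗ c', g + g'⟩ : JG) ⊗ tpow (S MM) (n' + n) :=
  Cells.midIso _ _ _ _ ≪≫ (repTensor (⟨c, g⟩ : JG) ⟨c', g'⟩ ⊗ᵢ tpowAdd _ n n')

theorem card_tensor (c c' : O) :
    Fintype.card (c ⊗ c').El = Fintype.card c.El + Fintype.card c'.El :=
  (Fintype.card_congr (Equiv.refl _)).trans (Fintype.card_sum (α := c.El) (β := c'.El))

namespace NF0

theorem of_iso (h : NF0 X g k) (e : X ≅ Y) : NF0 Y g k := by
  obtain ⟨c, n, h1, ⟨i⟩⟩ := h
  exact ⟨c, n, h1, ⟨e.symm ≪≫ i⟩⟩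

theorem tensor (h : NF0 X g k) (h' : NF0 Y g' k') : NF0 (X ⊗ Y) (g + g') (k + k') := by
  obtain ⟨c, n, h1, ⟨i⟩⟩ := h
  obtain ⟨c', n', h1', ⟨i'⟩⟩ := h'
  exact ⟨c ⊗ c', n' + n, by rw [card_tensor]; push_cast; omega,
    ⟨(i ⊗ᵢ i') ≪≫ nfTensor c c' g g' n n'⟩⟩

theorem rep (c : O) (g : Gam) : NF0 (rep (⟨c, g⟩ : JG)) g (-Fintype.card c.El) :=
  ⟨c, 0, by simp, ⟨(ρ_ _).symm⟩⟩

theorem rp (g : Gam) : NF0 (rp g) g 0 :=
  ⟨𝟙_ O, 0, by simp, ⟨(ρ_ _).symm⟩⟩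

theorem unit : NF0 (𝟙_ MM) 0 0 := rp 0

theorem tpow_S (n : ℕ) : NF0 (tpow (S MM) n) 0 n :=
  ⟨𝟙_ O, n, by simp, ⟨(λ_ _).symm⟩⟩

theorem sph : NF0 (S MM) 0 1 := (tpow_S 1).of_iso (ρ_ _)

theorem tpow (h : NF0 X g k) : ∀ n : ℕ, NF0 (tpow X n) (n • g) (n * k)
  | 0 => by
    rw [zero_smul, Nat.cast_zero, zero_mul]
    exact unit
  | n + 1 => by
    have := h.tensor (tpow h n)
    rwa [← succ_nsmul', show k + n * k = ((n + 1 : ℕ) : ℤ) * k by push_cast; ring] at this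

theorem isCell (h : NF0 X g k) : F.IsCell X := by
  obtain ⟨c, n, -, ⟨i⟩⟩ := h
  exact ((F.IsCell.rep _).tensor ((F.IsCell.jC _).tpow n)).of_iso i.symm

theorem deg (h : NF0 X g k) : Deg X {g} := by
  obtain ⟨c, n, -, ⟨i⟩⟩ := h
  exact ((Deg.rep (⟨c, g⟩ : JG)).tensor_zero ((Deg.jC _).tpow_zero n)).of_iso i.symm

theorem supp_tpow (n : ℕ) : Supp (P251.H.tpow (S MM) n) (Set.Ici 0) := by
  induction n with
  | zero => exact Supp.unit
  | succ n ih =>
    exact (Supp.jC _).tensor' ih fun a ha b hb r hr => (add_nonneg ha hb).trans hr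

theorem supp (h : NF0 X g k) : Supp X (Set.Ici g) := by
  obtain ⟨c, n, -, ⟨i⟩⟩ := h
  exact ((Supp.rep (⟨c, g⟩ : JG)).tensor' (supp_tpow n)
    fun a ha b hb r hr => (le_add_of_le_of_nonneg ha hb).trans hr).of_iso i.symm

theorem posT (h : NF0 X g k) {w : ℤ} (hw : w ≤ g.2) : PosT X w :=
  h.supp.mono fun _ hx => hw.trans hx.2

theorem posL (h : NF0 X g k) (hw : 0 ≤ ell g.1) : PosL X :=
  h.supp.mono fun x hx => by
    have : g.1 = x.1 := hx.1
    change 0 ≤ ell x.1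
    rwa [← this]

theorem gpow_card (n : ℕ) : Fintype.card (gpow (SphIdx.gen : JG) n).ob.El = n := by
  induction n with
  | zero => rfl
  | succ n ih => exact (card_tensor O.pt _).trans (by rw [ih]; exact Nat.add_comm 1 n)

theorem gpow_deg (n : ℕ) : (gpow (SphIdx.gen : JG) n).deg = 0 := by
  induction n with
  | zero => rfl
  | succ n ih => exact (congrArg (0 + ·) ih).trans (add_zero _)

/-- representables are products of powers of `L` and units -/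
theorem rep_iso (c : O) (g : Gam) : Nonempty (EF.rep (⟨c, g⟩ : JG) ≅
    P251.H.tpow (L : MM) (Fintype.card c.El) ⊗ M.rp g) :=
  ⟨(whiskerRightIso (repTpow _ _) _ ≪≫ repTensor _ _ ≪≫ repIso (Gr.isoMk (ρ_ _ ≪≫
    O.isoOfEquiv (Fintype.equivOfCardEq (gpow_card _)))
    ((congrArg (· + g) (gpow_deg _)).trans (zero_add g)))).symm⟩

/-- Framed cells are cells. -/
theorem iso (h : NF0 X g k) (p : ℕ) : Nonempty ((sE p).obj X ≅ (cE p).obj (k, g)) := by
  obtain ⟨c, n, h1, ⟨i⟩⟩ := h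
  obtain ⟨j⟩ := rep_iso c g
  exact ⟨(sE p).mapIso (i ≪≫ whiskerRightIso j _) ≪≫
    ((((tpowMap (sE p) _ _ ≪≫ tpowCell (cE p) (LIso p) _) ⊗ᵢ rpIso p g) ≪≫ (cE p).add _ _) ⊗ᵢ
      (tpowMap (sE p) _ _ ≪≫ tpowCell (cE p) (SIso p) n)) ≪≫ (cE p).add _ _ ≪≫
    eqToIso (congrArg _ (Prod.ext (by simp; omega) (by simp)))⟩

end NF0

theorem _root_.Vale.Agent.P257.M.NF.nf0 (h : NF X g k) : NF0 X g k := by
  obtain ⟨c, n, -, h1, h2⟩ := h
  exact ⟨c, n, h1, h2⟩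

end nf

end W

namespace M.NF

open K W D D.EF C

variable {X Y : MM} {g g' : Gam} {k k' : ℤ} {p : ℕ}

theorem of_iso (h : NF X g k) (e : X ≅ Y) : NF Y g k := by
  obtain ⟨c, n, h0, h1, ⟨i⟩⟩ := h
  exact ⟨c, n, h0, h1, ⟨e.symm ≪≫ i⟩⟩

theorem tensor (h : NF X g k) (h' : NF0 Y g' k') : NF (X ⊗ Y) (g + g') (k + k') := by
  obtain ⟨c, n, ⟨x⟩, h1, ⟨i⟩⟩ := h
  obtain ⟨c', n', h1', ⟨i'⟩⟩ := h'
  exact ⟨c ⊗ c', n' + n, ⟨Sum.inl x⟩, by rw [card_tensor]; push_cast; omega,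
    ⟨(i ⊗ᵢ i') ≪≫ nfTensor c c' g g' n n'⟩⟩

theorem tensor' (h : NF0 X g k) (h' : NF Y g' k') : NF (X ⊗ Y) (g + g') (k + k') := by
  rw [add_comm g, add_comm k]
  exact (h'.tensor h).of_iso (β_ _ _)

theorem L : NF (L : MM) 0 (-1) :=
  ⟨O.pt, 0, ⟨()⟩, rfl, ⟨(ρ_ _).symm⟩⟩

theorem U : NF (De p).U 0 0 := by
  have := L.tensor NF0.sph
  rwa [add_zero, neg_add_cancel] at this

theorem tensor_S (h : NF X g k) : NF (X ⊗ S MM) g (k + 1) := by simpa using h.tensor NF0.sph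

theorem tensor_rp (h : NF X g k) (g' : Gam) : NF (X ⊗ rp g') (g + g') k := by
  simpa using h.tensor (NF0.rp g')

theorem rp_tensor (h : NF X g k) (g' : Gam) : NF (rp g' ⊗ X) (g' + g) k := by
  simpa using tensor' (NF0.rp g') h

theorem U_tensor (h : NF0 X g k) : NF ((De p).U ⊗ X) g k := by simpa using (U (p := p)).tensor h

theorem pw (h : NF X g k) : ∀ m : ℕ, NF ((De p).pw m X) g k
  | 0 => h
  | m + 1 => U_tensor (pw h m).nf0

theorem _root_.Vale.Agent.P257.M.NF.exists (g : Gam) (k : ℤ) : ∃ X, NF X g k :=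
  ⟨_, O.fin (k.natAbs + 1), (k.natAbs + 1 + k).toNat, ⟨(0 : Fin _)⟩, by
    rw [show Fintype.card (O.fin (k.natAbs + 1)).El = k.natAbs + 1 from Fintype.card_fin _]
    omega, ⟨Iso.refl _⟩⟩

theorem hv (h : NF X g k) : HV X := by
  obtain ⟨c, n, h0, -, h2⟩ := h
  exact ⟨⟨c, g⟩, _, h0, h2⟩

theorem isCell (h : NF X g k) : F.IsCell X := h.nf0.isCell

theorem deg (h : NF X g k) : Deg X {g} := h.nf0.deg

theorem supp (h : NF X g k) : Supp X (Set.Ici g) := h.nf0.supp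

theorem posT (h : NF X g k) {w : ℤ} (hw : w ≤ g.2) : PosT X w := h.nf0.posT hw

theorem posL (h : NF X g k) (hw : 0 ≤ ell g.1) : PosL X := h.nf0.posL hw

theorem iso (h : NF X g k) (p : ℕ) : Nonempty ((sE p).obj X ≅ (cE p).obj (k, g)) := h.nf0.iso p

/-- Classes are represented by maps out of refinements of a framed cell. -/
theorem rep (h : NF X g k) {B : MM} (f : (sE p).obj X ⟶ (sE p).obj B) :
    ∃ (X' : MM) (u : X' ⟶ X) (x : X' ⟶ B), NF X' g k ∧ IsIso ((sE p).map u) ∧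
      (sE p).map u ≫ f = (sE p).map x := by
  obtain ⟨m, x, hx⟩ := SC.exists_frac f
  exact ⟨_, _, x, h.pw m, inferInstance, hx⟩

/-- Equal classes are homotopic on a refinement. -/
theorem htpy (h : NF X g k) {B : MM} {x y : X ⟶ B} (e : (sE p).map x = (sE p).map y) :
    ∃ (X' : MM) (u : X' ⟶ X), NF X' g k ∧ IsIso ((sE p).map u) ∧ MHtpy (u ≫ x) (u ≫ y) := by
  obtain ⟨m, hm⟩ := (SC.st_eq_iff x y).1 e
  exact ⟨_, _, h.pw m, inferInstance, hm⟩

/-- Null classes extend over the cone on a refinement. -/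
theorem null (h : NF X g k) {B : MM} {x : X ⟶ B} (e : (sE p).map x = 0) :
    ∃ (X' : MM) (u : X' ⟶ X) (χ : X' ⊗ CI MM ⟶ B), NF X' g k ∧ IsIso ((sE p).map u) ∧
      coneBase X' ≫ χ = u ≫ x := by
  obtain ⟨m, hm⟩ := (SC.st_eq_zero_iff x).1 e
  obtain ⟨χ, hχ⟩ := exists_cone_of_null hm
  exact ⟨_, _, χ, h.pw m, inferInstance, hχ⟩

end M.NF

namespace W

open K M D D.EF C

variable {p : ℕ} {A X Y B : MM} {g : Gam} {k : ℤ} {P : Set Gam}

/-- **REP1** -/
theorem rep1 (f : (cE p).obj (k, g) ⟶ (sE p).obj B) :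
    ∃ (X : MM) (x : X ⟶ B) (e : (sE p).obj X ≅ (cE p).obj (k, g)), NF X g k ∧
      (sE p).map x = e.hom ≫ f := by
  obtain ⟨X, hX⟩ := NF.exists g k
  obtain ⟨e⟩ := hX.iso p
  obtain ⟨X', u, x, h1, h2, h3⟩ := hX.rep (e.hom ≫ f)
  exact ⟨X', x, asIso ((sE p).map u) ≪≫ e, h1, by rw [← h3]; simp⟩

theorem deg_L : Deg (De p).L {0} := NF.L.deg

theorem deg_S : Deg (S MM) {0} := NF0.sph.deg

/-- locality -/
theorem bij_of_deg (hA : Deg A P) {f : X ⟶ Y} (hf : DegIso O P f) :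
    Function.Bijective fun x : (sE p).obj A ⟶ (sE p).obj X => x ≫ (sE p).map f := by
  have h := bijective_pi_of_deg (De p).obj (deg_L (p := p)) deg_S hA hf
  have e : (fun x : (sE p).obj A ⟶ (sE p).obj X => x ≫ (sE p).map f) =
      (De p).obj.coPt.map ⟨A⟩ ((HM.proj _).map f) := funext fun x => SC.comp_st x f
  rw [e]
  exact h

/-- locality for cells -/
theorem bij_cell {f : X ⟶ Y} (hf : DegIso O {g} f) (k : ℤ) :
    Function.Bijective fun x : (cE p).obj (k, g) ⟶ (sE p).obj X => x ≫ (sE p).map f := by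
  obtain ⟨A, hA⟩ := NF.exists g k
  obtain ⟨e⟩ := hA.iso p
  have h := bij_of_deg (p := p) hA.deg hf
  refine ⟨fun x y l => (cancel_epi e.hom).1 (h.1 ?_), fun y => ?_⟩
  · exact (Category.assoc _ _ _).trans ((congrArg _ l).trans (Category.assoc _ _ _).symm)
  · obtain ⟨x, hx⟩ := h.2 (e.hom ≫ y)
    exact ⟨e.inv ≫ x, (Category.assoc _ _ _).trans ((congrArg _ hx).trans (e.inv_hom_id_assoc y))⟩

theorem bij_cell' {f : X ⟶ Y} (hf : DegIso O P f) (hg : g ∈ P) (k : ℤ) :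
    Function.Bijective fun x : (cE p).obj (k, g) ⟶ (sE p).obj X => x ≫ (sE p).map f :=
  bij_cell (hf.mono (Set.singleton_subset_iff.2 hg)) k

/-- vanishing outside of the support -/
theorem van_of_supp (h : Supp Y P) (hg : g ∉ P) (k : ℤ) : (cE p).Van ((sE p).obj Y) (k, g) := by
  intro y
  have hf : DegIso O {g} (0 : Y ⟶ Y) := fun x hx =>
    (h x (by rw [Set.mem_singleton_iff.1 hx]; exact hg)).isIso (h x (by
      rw [Set.mem_singleton_iff.1 hx]; exact hg)) _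
  refine (bij_cell hf k).1 ?_
  simp

theorem van_of_posT {w : ℤ} (h : PosT Y w) (hg : g.2 < w) (k : ℤ) :
    (cE p).Van ((sE p).obj Y) (k, g) := van_of_supp h (not_le.2 hg) k

theorem van_of_posL (h : PosL Y) (hg : ell g.1 < 0) (k : ℤ) :
    (cE p).Van ((sE p).obj Y) (k, g) := van_of_supp h (not_le.2 hg) k

/-- raising the degree is a levelwise isomorphism in large degrees -/
theorem degIso_tm {g g' : Gam} (h : g ≤ g') : DegIso O (Set.Ici g') (tm h) := fun x hx' => by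
  have hx : g' ≤ x.deg := hx'
  have e : (tm h).app x = (Gr.homIso (x := (⟨𝟙_ O, g'⟩ : JG)) hx).hom ≫
      (Gr.homIso (x := (⟨𝟙_ O, g⟩ : JG)) (h.trans hx)).inv := by
    apply PQ.hom_ext'
    intro u
    obtain ⟨u, rfl⟩ := pr_surjective u
    refine ((fn_repMap_pr _ u).trans ?_).trans (PQ.app_comp _ _ _).symm
    refine Eq.trans ?_ (congrArg _ (Gr.app_homIso_hom (x := (⟨𝟙_ O, g'⟩ : JG)) hx u)).symm
    rw [Gr.app_homIso_inv]
    exact congrArg pr (Gr.hom_ext (Category.id_comp _))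
  rw [e]
  exact (Gr.homIso (x := (⟨𝟙_ O, g'⟩ : JG)) hx ≪≫
    (Gr.homIso (x := (⟨𝟙_ O, g⟩ : JG)) (h.trans hx)).symm).isIso_hom

theorem braiding_rp (g : Gam) : (β_ (rp g) (rp g)).hom = 𝟙 _ := by
  change (β_ (rep (⟨𝟙_ O, g⟩ : JG)) (rep ⟨𝟙_ O, g⟩)).hom = 𝟙 _
  rw [← cancel_mono (repTensor (⟨𝟙_ O, g⟩ : JG) ⟨𝟙_ O, g⟩).hom, Category.id_comp]
  refine tensor_ext fun a b x y => ?_
  obtain ⟨x, rfl⟩ := pr_surjective x
  obtain ⟨y, rfl⟩ := pr_surjective y
  have hb : (β_ (⟨𝟙_ O, g⟩ : JG) ⟨𝟙_ O, g⟩).hom = 𝟙 _ :=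
    Gr.hom_ext (O.mk_ext fun _ => Subsingleton.elim (α := Empty ⊕ Empty → ℝ) _ _)
  rw [fn_comp, braiding_tm, fn_act, fn_repTensor_hom, fn_repTensor_hom, rep_act,
    BraidedCategory.braiding_naturality, hb]
  exact congrArg pr (Category.id_comp _)

theorem hasSign_rp (g : Gam) : HasSign ((sE p).obj (rp g)) 1 := by
  unfold HasSign
  rw [one_smul, ← SC.st_braiding_hom, braiding_rp]
  exact (sE p).map_id _

theorem hasSign_cE (k : ℤ) (g : Gam) : HasSign ((cE p).obj (k, g)) k.negOnePow := by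
  have := (SC.hasSign_sph (D := De p) k).tensor (hasSign_rp g)
  rwa [mul_one] at this

end W

end Vale.Agent.P257
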