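import Vale.Agent.P257.W.Out
import Vale.Agent.P257.T.Per

/-!
# P257, part W: objects generated in filtration degrees `≤ 0` are stable
-/

open CategoryTheory MonoidalCategory Limits

namespace Vale.Agent.P257

open Vale.Agent.P251.H Vale.Agent.P251.H.StabInput Vale.Agent.P257.A Vale.Agent.P257.C
open Vale.Agent.P257.D Vale.Agent.P257.D.EF Vale.Agent.P257.M

universe v u

namespace T

section gen

variable {J : Type} [Idx J] {a a' b b' x : J}

/-- the points of `rep a ⊗ X` -/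
noncomputable def repIn (X : EF J) (j : a ⊗ b ⟶ x) : X.obj b ⟶ (rep a ⊗ X).obj x :=
  (repCurry (𝟙 (rep a ⊗ X))).app b ≫ (rep a ⊗ X).map j

theorem app_repIn (X : EF J) (j : a ⊗ b ⟶ x) (z : OnePoint (X.obj b)) :
    PQ.app (repIn X j) z = (rep a ⊗ X).act j (EF.tm (pr (𝟙 a)) z) := rfl

instance [h : P251.M.IsInv (rep a)] (X : EF J) (j : a ⊗ b ⟶ x) [IsIso j] : IsIso (repIn X j) :=
  have := h.equiv
  IsIso.comp_isIso' (inferInstanceAs (IsIso ((ev b).map ((repAdj a).unit.app X))))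
    (inferInstanceAs (IsIso ((toFunctor (rep a ⊗ X)).map j)))

theorem isIso_repMap_app [P251.M.IsInv (rep a)] [P251.M.IsInv (rep a')] (X : EF J) (u : a ⟶ a')
    (w : b' ⟶ b) (j : a ⊗ b ≅ x) (j' : a' ⊗ b' ≅ x) (e : u ▷ b' ≫ j'.hom = a ◁ w ≫ j.hom)
    [IsIso (X.map w)] : IsIso ((repMap u ▷ X).app x) := by
  have k : repIn X j'.hom ≫ (repMap u ▷ X).app x = X.map w ≫ repIn X j.hom :=
    PQ.hom_ext' fun z => by
      change fn (repMap u ▷ X) ((rep a' ⊗ X).act j'.hom (EF.tm (pr (𝟙 _)) z)) =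
        (rep a ⊗ X).act j.hom (EF.tm (pr (𝟙 _)) (X.act w z))
      rw [fn_act, whiskerRight_tm, ← act_tm_right, ← act_comp, fn_repMap_pr, tm_pr, ← act_comp,
        Category.comp_id, e]
  have : IsIso (repIn X j'.hom ≫ (repMap u ▷ X).app x) := by
    rw [k]
    infer_instance
  exact IsIso.of_isIso_comp_left (repIn X j'.hom) _

end gen

variable {X Y : MM} {g g' : Gam}

instance isInv_rp (g : Gam) : P251.M.IsInv (rp g) := P251.M.IsInv.of_inverse (W.rpCells.inv' g)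

theorem Le0.isIso_map (h : Le0 X) {x y : JG} (w : x ⟶ y) [IsIso w.hom] (h0 : 0 ≤ x.deg.2)
    (l : x.deg ≤ y.deg) : IsIso (X.map w) := by
  have k : ∀ z : JG, IsIso (X.map (eap eJ z)) := fun z =>
    have : IsIso (eap eM X) := h
    inferInstanceAs (IsIso ((ev z).map (eap eM X)))
  have k1 : IsIso (trJ.map w).hom := inferInstanceAs (IsIso w.hom)
  have k2 : IsIso (trJ.map w) := Gr.isIso_of_hom _ ⟨l.1.symm, le_min ((min_le_right _ _).trans h0)
    (min_le_right _ _)⟩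
  have k3 : IsIso (X.map (eap eJ x) ≫ X.map w) := by
    rw [← X.map_comp, ← eap_nat, X.map_comp]
    have : IsIso (X.map (trJ.map w)) := inferInstanceAs (IsIso ((toFunctor X).map (trJ.map w)))
    have := k y
    infer_instance
  have := k x
  exact IsIso.of_isIso_comp_left (X.map (eap eJ x)) _

/-- the shift of the degree -/
noncomputable def shIso (g : Gam) (x : JG) :
    (⟨𝟙_ O, g⟩ : JG) ⊗ ⟨x.ob, x.deg - g⟩ ≅ x := Gr.isoMk (λ_ x.ob) (add_sub_cancel g x.deg)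

theorem Le0.degIso_tm (hX : Le0 X) (h : g ≤ g') :
    DegIso O {d : Gam | g'.2 ≤ d.2} (M.tm h ▷ X) := fun x hx =>
  have l : x.deg - g' ≤ x.deg - g := sub_le_sub_left h _
  let w : (⟨x.ob, x.deg - g'⟩ : JG) ⟶ ⟨x.ob, x.deg - g⟩ := Gr.homMk (𝟙 _) l
  have : IsIso w.hom := inferInstanceAs (IsIso (𝟙 x.ob))
  have := hX.isIso_map w (sub_nonneg.2 hx) l
  have : ∀ g : Gam, P251.M.IsInv (EF.rep (⟨𝟙_ O, g⟩ : JG)) := isInv_rp
  isIso_repMap_app X _ w (shIso g x) (shIso g' x) (Gr.hom_ext (by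
    change 𝟙 (𝟙_ O) ▷ x.ob ≫ (λ_ x.ob).hom = 𝟙_ O ◁ 𝟙 x.ob ≫ (λ_ x.ob).hom
    simp))

theorem degIso_comp {P : Set Gam} {Z : MM} {a : X ⟶ Y} {b : Y ⟶ Z} (ha : DegIso O P a)
    (hb : DegIso O P b) : DegIso O P (a ≫ b) := fun x hx =>
  have := ha x hx
  have := hb x hx
  inferInstanceAs (IsIso (a.app x ≫ b.app x))

theorem degIso_of_isIso {P : Set Gam} (a : X ⟶ Y) [IsIso a] : DegIso O P a := fun x _ =>
  inferInstanceAs (IsIso ((ev x).map a))

theorem Le0.degIso_tm' (hX : Le0 X) (h : g ≤ g') :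
    DegIso O {d : Gam | g'.2 ≤ d.2} (X ◁ M.tm h) := by
  have := degIso_comp (degIso_of_isIso (β_ _ _).hom)
    (degIso_comp (hX.degIso_tm h) (degIso_of_isIso (β_ _ _).hom))
  rwa [BraidedCategory.braiding_naturality_left, SymmetricCategory.symmetry_assoc] at this

theorem Le0.degIso_tX (hX : Le0 X) (f : ℕ) : DegIso O {d : Gam | (f : ℤ) ≤ d.2} (tX X f) :=
  degIso_comp (hX.degIso_tm' (g := 0) (g' := (0, (f : ℤ))) _) (degIso_of_isIso _)

end T

namespace V

open Vale.Agent.P257.T (Le0)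

variable {C : Type u} [Category.{v} C] [Preadditive C] [MonoidalCategory C] [SymmetricCategory C]
  [MonoidalPreadditive C]

section delay

variable {Λ : Type} [AddCommGroup Λ] {c : Cells C (ℤ × (Λ × ℤ))} {τ : TCone c} {A B Z : C}
  {f : ℕ} {u : A ⟶ B} {a : Λ} {P W T : ℤ}

omit [SymmetricCategory C] [MonoidalPreadditive C] in
theorem Dl.bij_iff (h : Dl τ f u) (d : ℤ × (Λ × ℤ)) :
    L.Bij (c.obj d) u ↔ L.Bij (c.obj d) (B ◁ τ.t f) := by
  obtain ⟨u, hu, rfl⟩ := h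
  exact ⟨fun k => (L.Bij.of_isIso _ _).of_comp_right (L.Bij.of_comp_left (hu.bijective d) k),
    fun k => L.Bij.comp (hu.bijective d) (k.comp (L.Bij.of_isIso _ _))⟩

omit [SymmetricCategory C] [MonoidalPreadditive C] in
theorem Dl.bij (h : Dl τ f u) (k : Stab τ P B a W) (h1 : W + f ≤ T) (h2 : T ≤ P) (l : ℤ) :
    L.Bij (c.obj (l, (a, T))) u :=
  (h.bij_iff _).2 (bijective_of (k.inj f h1 h2) (k.surj f h1 h2))

end delay

variable {st : MM ⥤ C} [st.Monoidal] {c : Cells C (ℤ × Gam)} {τ : TCone c} {p : ℕ}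
  (H : World st c τ p) {X Y : MM} {Z : C} {a : Lam} {P W T : ℤ}
include H

omit [SymmetricCategory C] [MonoidalPreadditive C] [st.Monoidal] in
theorem World.stab_le0 (h : Le0 X) (P : ℤ) (a : Lam) : Stab τ P (st.obj X) a 0 := by
  intro l T f h1 _
  have k : ∀ l, L.Bij (c.obj (l, (a, T))) (st.obj X ◁ τ.t f) := fun l => ((H.dl X f).bij_iff _).1
    (H.deg ((h.degIso_tX f).mono (Set.singleton_subset_iff.2 (show _ ≤ T by omega))) l)
  exact (τ.cone f).van _ _ _ (Surj.of_bijective (k _)) (Inj.of_bijective (k _))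

omit [SymmetricCategory C] [MonoidalPreadditive C] in
theorem World.stab_le0_left (hY : Le0 Y) (h : Le0 X) (P : ℤ) (a : Lam) :
    Stab τ P (st.obj Y ⊗ st.obj X) a 0 :=
  (H.stab_le0 (hY.tensor h) P a).of_iso (Functor.Monoidal.μIso st _ _).symm

omit [SymmetricCategory C] [MonoidalPreadditive C] [st.Monoidal] in
theorem World.bij_tX (h : Stab τ P (st.obj X) a W) {f : ℕ} (h1 : W + f ≤ T) (h2 : T ≤ P) (l : ℤ) :
    L.Bij (c.obj (l, (a, T))) (st.map (tX X f)) := (H.dl X f).bij h h1 h2 l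

omit [SymmetricCategory C] [MonoidalPreadditive C] [st.Monoidal] in
theorem World.bij_tX_left (h : Stab τ P (Z ⊗ st.obj X) a W) {f : ℕ} (h1 : W + f ≤ T) (h2 : T ≤ P)
    (l : ℤ) : L.Bij (c.obj (l, (a, T))) (Z ◁ st.map (tX X f)) :=
  ((H.dl X f).whiskerLeft Z).bij h h1 h2 l

variable {ok : ℕ → MM → Prop} {w : ℕ → ℕ} {B B' : CommMon MM} {i : ℕ}

theorem World.stab_tc_le0 (hP : P < p) (h : OddCells ok w) (tc : TC ok B i B') (h0 : PosT B.X 0)
    (h1 : Le0 B.X) (a : Lam) :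
    Stab τ P (st.obj B'.X) a (∑ j ∈ Finset.range i, w j : ℕ) := by
  simpa only [zero_add] using H.stab_tc hP h tc h0 (H.stab_le0 h1 P) a

theorem World.stab_tc_le0_left (hP : P < p) (h : OddCells ok w) (tc : TC ok B i B')
    (hY : PosT Y 0) (hY' : Le0 Y) (h0 : PosT B.X 0) (h1 : Le0 B.X) (a : Lam) :
    Stab τ P (st.obj Y ⊗ st.obj B'.X) a (∑ j ∈ Finset.range i, w j : ℕ) := by
  simpa only [zero_add] using H.stab_tc_left hP h tc hY h0 (H.stab_le0_left hY' h1 P) a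

end V

end Vale.Agent.P257
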