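import Vale.Agent.P257.M.LDefs
import Vale.Agent.P257.F.Inst

/-!
# P257, part W: the lifting lemmas
-/

open CategoryTheory MonoidalCategory Limits

namespace Vale.Agent.P257.M

open Vale.Agent.P251.G Vale.Agent.P251.H Vale.Agent.P251.H.StabInput
open Vale.Agent.P257.A Vale.Agent.P257.T Vale.Agent.P257.V Vale.Agent.P257.W
open Vale.Agent.P257.K Vale.Agent.P257.K.SC Vale.Agent.P257.C
open Vale.Agent.P251.M (IsInv whiskerRight_inj whiskerRight_surj)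

variable {p lam i : ℕ} {T0 A T R : CommMon MM} {sp0 : A ⟶ T0} {tc : TC (okT p lam) T0 i T}
    {sp : R ⟶ T} {a : Lam} {J : ℤ} {t : ℕ}

/-- desuspension -/
theorem exists_desusp {X K : MM} {g d : Gam} {k : ℤ} (hX : NF X g k)
    (z : (cE p).obj (J, d) ⟶ (sE p).obj ((K ⊗ X) ⊗ S MM)) :
    ∃ z' : (cE p).obj (J - (k + 1), d - g) ⟶ (sE p).obj K, ∀ {K' : MM} (φ : K ⟶ K'),
      z' ≫ (sE p).map φ = 0 ↔ z ≫ (sE p).map ((φ ▷ X) ▷ S MM) = 0 := by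
  obtain ⟨e⟩ := hX.tensor_S.iso p
  have : IsInv ((sE p).obj (X ⊗ S MM)) := IsInv.of_iso e.symm
  let j : (cE p).obj (J - (k + 1), d - g) ⊗ (sE p).obj (X ⊗ S MM) ≅ (cE p).obj (J, d) :=
    whiskerLeftIso _ e ≪≫ (cE p).add _ _ ≪≫ eqToIso (by simp)
  obtain ⟨z', hz⟩ := whiskerRight_surj ((sE p).obj (X ⊗ S MM)) (Z := (sE p).obj K)
    (j.hom ≫ z ≫ (sE p).map (α_ K X (S MM)).hom)
  refine ⟨z', fun {K'} φ => ?_⟩
  have h : (z' ≫ (sE p).map φ) ▷ (sE p).obj (X ⊗ S MM) =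
      j.hom ≫ (z ≫ (sE p).map ((φ ▷ X) ▷ S MM)) ≫ (sE p).map (α_ K' X (S MM)).hom := by
    rw [comp_whiskerRight, hz, ← st_whiskerRight]
    simp only [Category.assoc, ← Functor.map_comp, associator_naturality_left]
  constructor
  · intro k
    rw [k, MonoidalPreadditive.zero_whiskerRight, eq_comm, Preadditive.IsIso.comp_left_eq_zero,
      Preadditive.IsIso.comp_right_eq_zero] at h
    exact h
  · intro k
    rw [k, zero_comp, comp_zero] at h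
    exact whiskerRight_inj _ (h.trans MonoidalPreadditive.zero_whiskerRight.symm)

theorem src_tX (g : Gam) (k : ℤ) (Y : MM) :
    Src (De p) fun X' => ∃ X, NF X g k ∧ Nonempty (X' ≅ X ⊗ Y) :=
  ⟨fun n ⟨X, h, ⟨e⟩⟩ => by
    induction n with
    | zero => exact ⟨X, h, ⟨e⟩⟩
    | succ n ih =>
      obtain ⟨X₁, h₁, ⟨e₁⟩⟩ := ih
      exact ⟨_, NF.U_tensor (p := p) h₁.nf0, ⟨whiskerLeftIso _ e₁ ≪≫ (α_ _ _ _).symm⟩⟩⟩

theorem NF.deg0 {X : MM} {k : ℤ} (h : NF X (a, 0) k) : Deg X {g : Gam | 0 ≤ g.2} :=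
  h.deg.mono fun _ hg => by rw [Set.mem_singleton_iff.1 hg]; exact le_refl (0 : ℤ)

theorem NF.tensor_t {X : MM} {k : ℤ} (h : NF X (a, 0) k) (t : ℤ) :
    NF (X ⊗ rp (0, t)) (a, t) k := by simpa using h.tensor_rp (0, t)

/-- relative classes at the bottom -/
theorem kill0 {A T0 : MM} (hA : Le0 A) (h0 : Le0 T0) (f : A ⟶ T0)
    (z : (cE p).obj (J, (a, (t : ℤ))) ⟶ (sE p).obj (cone f)) :
    ∃ (X : MM) (o : X ⟶ A) (ζ : X ⊗ CI MM ⟶ T0) (h : coneBase X ≫ ζ = o ≫ f)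
      (ε : (cE p).obj (J, (a, (t : ℤ))) ≅ (sE p).obj ((X ⊗ rp (0, (t : ℤ))) ⊗ S MM)),
      NF X (a, 0) (J - 1) ∧ z = ε.hom ≫ (sE p).map (tX X t ▷ S MM ≫ rel f o ζ h) := by
  obtain ⟨X₁, h₁⟩ := NF.exists (a, 0) (J - 1)
  obtain ⟨e⟩ := (show NF _ _ J by simpa using (h₁.tensor_t t).tensor_S).iso p
  obtain ⟨X', u, o', ζ', h', ⟨X, hX, ⟨j⟩⟩, hu, hz⟩ := exists_rel (L.scLoc (De p))
    (src_tX (a, 0) (J - 1) (rp (0, (t : ℤ)))) f ⟨X₁, h₁, ⟨Iso.refl _⟩⟩ (e.hom ≫ z)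
  obtain ⟨o, ho⟩ := (bij_tX hA hX.deg0 t).2 (j.inv ≫ o')
  obtain ⟨ζ, hζ⟩ := (bij_tX_tensor (K := CI MM) h0 hX.deg0 (Deg.jC _) t).2 (j.inv ▷ CI MM ≫ ζ')
  dsimp only at ho hζ
  have h : coneBase X ≫ ζ = o ≫ f := (bij_tX h0 hX.deg0 t).1 (by
    dsimp only
    rw [← coneBase_naturality_assoc, hζ, coneBase_naturality_assoc, h', reassoc_of% ho])
  have : IsIso ((sE p).map (u ▷ S MM)) := by
    rw [st_whiskerRight]
    infer_instance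
  refine ⟨X, o, ζ, h, e.symm ≪≫ (asIso ((sE p).map (u ▷ S MM))).symm ≪≫
    (sE p).mapIso (whiskerRightIso j _), hX, ?_⟩
  simp only [Iso.trans_hom, Iso.symm_hom, asIso_inv, Functor.mapIso_hom, whiskerRightIso_hom,
    Category.assoc]
  rw [Iso.eq_inv_comp, IsIso.eq_inv_comp, hz, ← Functor.map_comp, whiskerRight_rel,
    whiskerRight_rel]
  congr 2
  · rw [ho, Iso.hom_inv_id_assoc]
  · rw [hζ, ← comp_whiskerRight_assoc, Iso.hom_inv_id, id_whiskerRight, Category.id_comp]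

theorem rel_kmap_null {A' : CommMon MM} {sp0' : A' ⟶ T0} (j : A ⟶ A') (hj : j ≫ sp0' = sp0)
    {X : MM} {o : X ⟶ A.X} {ζ : X ⊗ CI MM ⟶ T0.X} (h : coneBase X ≫ ζ = o ≫ ah sp0)
    {χ : X ⊗ CI MM ⟶ A'.X} (w : coneBase X ≫ χ = o ≫ ah j) (hχ : χ ≫ ah sp0' = ζ) :
    MHtpy (rel (ah sp0) o ζ h ≫ kmap j hj) 0 := by
  subst hχ
  rw [kmap, rel_coneMap]
  simpa only [Category.comp_id] using rel_null (f := ah sp0') _ χ w

theorem LL_of (h0 : Good T0) {c : RC A sp0 tc R sp} (hA : Good A) (hl : 1 ≤ ell a)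
    (hs : sz a ≤ 0) (hd : DD p a ≤ J + 1) {n : ℕ}
    {z : (cE p).obj (J, (a, (t : ℤ))) ⟶ (sE p).obj (cone (ah sp))} (b : Bc c)
    (z₀ : (cE p).obj (J, (a, (t : ℤ))) ⟶ (sE p).obj (cone (ah b.sp0')))
    (hb : Ext (NuX p) n b.f)
    (hz : z₀ ≫ (sE p).map (kup b.c'.i0 tc.i0 b.c'.i0_sp) = z ≫ (sE p).map (kmap b.g b.hg)) :
    ∃ b : Bc c, Ext (NuX p) (n + 1) b.f ∧ z ≫ (sE p).map (kmap b.g b.hg) = 0 := by
  obtain ⟨X, o, ζ, h, ε, hX, rfl⟩ := kill0 (hA.ext hb).le0 h0.le0 (ah b.sp0') z₀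
  obtain ⟨A', j, χ, att⟩ := exists_isAttach o
  obtain ⟨sq, h1, h2⟩ := att.desc b.sp0' ζ h
  obtain ⟨R', sq', c', g, hg, po⟩ := b.c'.bc j h1
  refine ⟨b.comp ⟨A', j, sq, h1, R', sq', c', g, hg, po⟩,
    hb.step ⟨X, o, j, χ, att⟩ ⟨a, _, hX, hl, hs, by omega⟩, ?_⟩
  change z ≫ (sE p).map (kmap (b.g ≫ g) _) = 0
  rw [← kmap_comp _ b.hg _ hg, Functor.map_comp, ← reassoc_of% hz, ← Functor.map_comp,
    kup_kmap _ _ _ c'.i0 c'.i0_sp j h1 g hg po.w, ← Functor.map_comp, Category.assoc,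
    ← Category.assoc (rel _ _ _ _), Functor.map_comp, Functor.map_comp,
    st_null (rel_kmap_null j h1 h att.w h2), zero_comp, comp_zero, comp_zero]

theorem bij_c1_ok (hp : p.Prime) (hlam : 1 ≤ lam) {X : MM} (h : okT p lam i X)
    {B B' : CommMon MM} {j : B ⟶ B'} {x : X ⟶ B.X} {χ : X ⊗ CI MM ⟶ B'.X} (att : IsAttach j x χ)
    (hB : PosT B.X 0) (h2 : t < p) (k : ℤ) :
    L.Bij ((cE p).obj (k, (a, (t : ℤ)))) ((sE p).map (c1 att.w)) := by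
  obtain ⟨e⟩ := NF.iso h p
  exact F.at1 hp att (NF.hv h) hB (nf_posT h (Int.ofNat_le.2 (Nat.one_le_pow i _ hlam)))
    (F.tOdd_susp e (even_dd p i)) (Int.ofNat_lt.2 h2) k

theorem desusp_ok {X K : MM} (h : okT p lam i X) (h1 : lam ^ i ≤ t)
    (z : (cE p).obj (J, (a, (t : ℤ))) ⟶ (sE p).obj ((K ⊗ X) ⊗ S MM)) :
    ∃ z' : (cE p).obj (J - dd p i, (a - ee i, ((t - lam ^ i : ℕ) : ℤ))) ⟶ (sE p).obj K,
      ∀ {K' : MM} (φ : K ⟶ K'),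
        z' ≫ (sE p).map φ = 0 ↔ z ≫ (sE p).map ((φ ▷ X) ▷ S MM) = 0 := by
  have := exists_desusp h z
  rwa [sub_add_cancel, Prod.mk_sub_mk, ← Nat.cast_sub h1] at this

variable (p) in
/-- cells are suspensions -/
noncomputable def suspIso (k : ℤ) (g : Gam) {l : ℤ} (h : k + 1 = l) :
    (cE p).obj (l, g) ≅ (cE p).obj (k, g) ⊗ SS (De p) :=
  (whiskerLeftIso _ (SIso p) ≪≫ (cE p).add _ _ ≪≫ eqToIso (by simp [h])).symm

theorem LL0 (hp : p.Prime) (hlam : 1 ≤ lam) (h0 : Good T0) (c : RC A sp0 tc R sp) (hA : Good A)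
    (h1 : Wt lam i ≤ t) (h2 : t < p) (hl : 2 ^ i ≤ ell a) (hs : sz a ≤ 1) (hd : DD p a ≤ J + 1)
    (z : (cE p).obj (J, (a, (t : ℤ))) ⟶ (sE p).obj (cone (ah sp))) :
    ∃ (b : Bc c) (z₀ : (cE p).obj (J, (a, (t : ℤ))) ⟶ (sE p).obj (cone (ah b.sp0'))),
      Ext (NuX p) (2 ^ i - 1) b.f ∧
      z₀ ≫ (sE p).map (kup b.c'.i0 tc.i0 b.c'.i0_sp) = z ≫ (sE p).map (kmap b.g b.hg) := by
  induction tc generalizing A R a J t with
  | nil =>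
    cases c
    exact ⟨Bc.id _, z, .iso _ (𝟙 _), rfl⟩
  | @cons i T T' tc s hk ih =>
    cases c with
    | cons c _ _ r =>
    rw [Wt_succ] at h1
    rw [pow_succ] at hl
    have hpos : (0 : ℤ) < 2 ^ i := by positivity
    have hR := c.posT hA.pos
    have hT := tc.posT h0.pos
    obtain ⟨z₂, k₂⟩ := r.bdry (L.scLoc (De p)) (suspIso p (J - 1) _ (sub_add_cancel J 1))
      (bij_c1_ok hp hlam hk r.att hR h2 _) (bij_c1_ok hp hlam hk s.att hT h2 _)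
      (bij_c1_ok hp hlam hk r.att hR h2 _) (bij_c1_ok hp hlam hk s.att hT h2 _) z
    obtain ⟨z', k'⟩ := desusp_ok hk (by omega) z₂
    have hl' : 2 ^ i ≤ ell (a - ee i) := by rw [map_sub, ell_ee]; omega
    have hs' : sz (a - ee i) ≤ 0 := by rw [map_sub, sz_ee]; omega
    have hd' : DD p (a - ee i) ≤ J - dd p i + 1 := by rw [map_sub, DD_ee]; omega
    obtain ⟨b, z₀, e, k⟩ := ih c hA (by omega) (by omega) hl' (by omega) hd' z'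
    obtain ⟨b₁, e₁, k₁⟩ := LL_of h0 hA (by omega) hs' hd' b z₀ e k
    obtain ⟨Q, sq, r', g', hv, hχ, hg', po⟩ := r.bc b₁.g b₁.hg
    obtain ⟨z₃, k₃⟩ := k₂ r' b₁.g b₁.hg g' hg' hv hχ po.w ((k' _).1 k₁)
    obtain ⟨b₂, z₄, e₂, k₄⟩ := ih b₁.c' (hA.ext e₁) (by omega) h2 (by omega) hs hd z₃
    obtain ⟨Q', sq', r'', g'', -, -, hg'', po'⟩ := r'.bc b₂.g b₂.hg
    refine ⟨(b₁.comp b₂).cons hk r r'' (g' ≫ g'') (by rw [Category.assoc, hg'', hg'])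
      (po.paste_vert po'), z₄, (e₁.trans e₂).mono ?_, ?_⟩
    · have := Nat.one_le_two_pow (n := i)
      rw [pow_succ]
      omega
    · change z₄ ≫ (sE p).map (kup (b₂.c'.i0 ≫ r''.i) (tc.i0 ≫ s.i) _) =
        z ≫ (sE p).map (kmap (g' ≫ g'') _)
      rw [← kup_comp _ _ b₂.c'.i0_sp _ _ r''.hi, ← kmap_comp _ hg' _ hg'', Functor.map_comp,
        Functor.map_comp, reassoc_of% k₄, ← reassoc_of% k₃, ← Functor.map_comp,
        ← Functor.map_comp, kup_kmap _ _ _ r''.i r''.hi b₂.g b₂.hg g'' hg'' po'.w]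

theorem LL (hp : p.Prime) (hlam : 1 ≤ lam) (h0 : Good T0) (c : RC A sp0 tc R sp) (hA : Good A)
    (h1 : Wt lam i ≤ t) (h2 : t < p) (hl : 2 ^ i ≤ ell a) (hs : sz a ≤ 0) (hd : DD p a ≤ J + 1)
    (z : (cE p).obj (J, (a, (t : ℤ))) ⟶ (sE p).obj (cone (ah sp))) :
    ∃ b : Bc c, Ext (NuX p) (2 ^ i) b.f ∧ z ≫ (sE p).map (kmap b.g b.hg) = 0 := by
  obtain ⟨b, z₀, e, k⟩ := LL0 hp hlam h0 c hA h1 h2 hl (by omega) hd z
  have := LL_of h0 hA (le_trans (one_le_pow₀ one_le_two) hl) hs hd b z₀ e k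
  rwa [Nat.sub_add_cancel Nat.one_le_two_pow] at this

section gen

universe v u

variable {M : Type u} [Category.{v} M] [MonoidalCategory M] [SymmetricCategory M]
    [MonoidalClosed M] [HasZeroMorphisms M] [HasColimitsOfSize.{0, 0} M] [StabInput M]
    {D : Stab M} {X Y B B' : M}

theorem exists_null_tensor {f : X ⊗ Y ⟶ B} (h : (st D).map f = 0) :
    ∃ (k : ℕ) (χ : (D.pw k X ⊗ Y) ⊗ CI M ⟶ B), coneBase _ ≫ χ = D.tk k X ▷ Y ≫ f := by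
  obtain ⟨k, χ, hχ⟩ := exists_null h
  obtain ⟨e, he⟩ := exists_pw_tensor D k X Y
  exact ⟨k, e.hom ▷ _ ≫ χ, by rw [coneBase_naturality_assoc, hχ, reassoc_of% he]⟩

theorem exists_frac_tensor (x : (st D).obj ((X ⊗ Y) ⊗ S M) ⟶ (st D).obj B) :
    ∃ (k : ℕ) (f : (D.pw k X ⊗ Y) ⊗ S M ⟶ B),
      (st D).map ((D.tk k X ▷ Y) ▷ S M) ≫ x = (st D).map f := by
  obtain ⟨k, f, hf⟩ := exists_frac_S x
  obtain ⟨e, he⟩ := exists_pw_tensor D k X Y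
  exact ⟨k, e.hom ▷ _ ≫ f, by
    rw [← he, comp_whiskerRight, Functor.map_comp, Category.assoc, hf, Functor.map_comp]⟩

/-- A relative class which comes from the target is a difference of null homotopies. -/
theorem exists_glue_of_rel (H : L.Loc (st D)) {Q : M → Prop} (hQ : Src D Q) (hX : Q X)
    (f : B ⟶ B') (o : X ⊗ Y ⟶ B) (ζ : (X ⊗ Y) ⊗ CI M ⟶ B') (h : coneBase _ ≫ ζ = o ≫ f)
    (y : (st D).obj ((X ⊗ Y) ⊗ S M) ⟶ (st D).obj B')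
    (hy : (st D).map (rel f o ζ h) = y ≫ (st D).map (ci f)) :
    ∃ (X' : M) (u : X' ⟶ X) (ψ : (X' ⊗ Y) ⊗ CI M ⟶ B), Q X' ∧ IsIso ((st D).map u) ∧
      coneBase _ ≫ ψ = u ▷ Y ≫ o ∧ ∀ w, (st D).map (glue (ψ ≫ f) ((u ▷ Y) ▷ CI M ≫ ζ) w) =
        (st D).map ((u ▷ Y) ▷ S M) ≫ y := by
  have h0 : (st D).map o = 0 := eq_zero_of_whiskerRight_S _ (by
    rw [← st_whiskerRight, ← st_htpy (rel_cq o ζ h), Functor.map_comp, hy, Category.assoc,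
      ← Functor.map_comp, ci_cq, st_zero, comp_zero])
  obtain ⟨k, η, hη⟩ := exists_null_tensor h0
  have w₁ : coneBase _ ≫ η ≫ f = (D.tk k X ▷ Y ≫ o) ≫ f := by rw [reassoc_of% hη, Category.assoc]
  have w₂ : coneBase _ ≫ (D.tk k X ▷ Y) ▷ CI M ≫ ζ = (D.tk k X ▷ Y ≫ o) ≫ f := by
    rw [coneBase_naturality_assoc, h, Category.assoc]
  have h1 : ((st D).map ((D.tk k X ▷ Y) ▷ S M) ≫ y -
      (st D).map (glue _ _ (w₁.trans w₂.symm))) ≫ (st D).map (ci f) = 0 := by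
    rw [Preadditive.sub_comp, Category.assoc, ← hy, ← Functor.map_comp, whiskerRight_rel,
      st_htpy (rel_change _ _ _ w₁ w₂), st_madd, st_null (rel_null _ η hη), add_zero,
      Functor.map_comp, sub_self]
  obtain ⟨x, hx⟩ := L.TriStr.co₂ (tri_c H f) _ h1
  obtain ⟨m, x₁, hx₁⟩ := exists_frac_tensor x
  obtain ⟨ψ, hψ, h2⟩ := exists_glue_left ((D.tk m _ ▷ Y) ▷ CI M ≫ η) x₁
  refine ⟨_, D.tk m _ ≫ D.tk k X, ψ, hQ.pw _ (hQ.pw _ hX), ?_, ?_, fun w => ?_⟩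
  · rw [Functor.map_comp]
    infer_instance
  · rw [hψ, coneBase_naturality_assoc, hη, comp_whiskerRight, Category.assoc]
  · have w₃ : coneBase _ ≫ ψ ≫ f = coneBase _ ≫ ((D.tk m _ ▷ Y) ▷ CI M ≫ η) ≫ f := by
      rw [reassoc_of% hψ, Category.assoc]
    rw [st_htpy (glue_cocycle w₃ (w₃.symm.trans w)), st_madd, ← glue_comp _ _ hψ,
      Functor.map_comp, st_htpy h2, ← hx₁, Category.assoc _ x, hx, Preadditive.comp_sub,
      ← Functor.map_comp, whiskerRight_glue, ← Functor.map_comp_assoc, ← comp_whiskerRight,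
      ← comp_whiskerRight, add_comm, sub_add, sub_eq_self, sub_eq_zero]
    exact congrArg _ (glue_congr _ (Category.assoc _ _ _).symm (by
      rw [comp_whiskerRight, comp_whiskerRight, Category.assoc]))

end gen

/-- **LIFT** -/
theorem LLP (hp : p.Prime) (hlam : 2 ≤ lam) (h0 : Good T0) (c : RC A sp0 tc R sp) (hA : Good A)
    (h2 : lam ^ i < p)
    (y : (cE p).obj (dd p i - 1, (ee i, ((lam ^ i : ℕ) : ℤ))) ⟶ (sE p).obj T.X) :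
    ∃ (b : Bc c) (T' B' R₁ : CommMon MM) (s : TStep T T') (sp' : B' ⟶ T') (r : RStep s b.sp' sp')
      (g₁ : R ⟶ R₁) (g₂ : R₁ ⟶ B') (X : MM) (x : cone (tX X (lam ^ i)) ⟶ R₁.X)
      (χ : cone (tX X (lam ^ i)) ⊗ CI MM ⟶ B'.X)
      (ε : (sE p).obj s.X ≅ (cE p).obj (dd p i - 1, (ee i, ((lam ^ i : ℕ) : ℤ)))),
      Good b.A' ∧ okT p lam i s.X ∧ (sE p).map s.v = ε.hom ≫ y ∧ g₁ ≫ g₂ = b.g ≫ r.i ∧
      Ext (NuX p) (2 ^ i - 1) g₁ ∧ NF X (ee i, 0) (dd p i - 2) ∧ IsAttach g₂ x χ := by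
  obtain ⟨b, z₀, e, k⟩ := LL0 hp (by omega) h0 c hA (Wt_lt hlam i).le h2 (ell_ee i).ge
    (sz_ee i).le (by rw [DD_ee, sub_add_cancel]) (y ≫ (sE p).map (ci (ah sp)))
  obtain ⟨X, o, ζ, h, ε, hX, rfl⟩ := kill0 (hA.ext e).le0 h0.le0 (ah b.sp0') z₀
  rw [Category.assoc, Category.assoc, ← Functor.map_comp, ← Functor.map_comp, ci_kmap,
    whiskerRight_rel, kup, rel_coneMap, ← Iso.eq_inv_comp, ← Category.assoc ε.inv] at k
  obtain ⟨X', u, ψ, hX', hu, hψ, hv⟩ := exists_glue_of_rel (L.scLoc (De p))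
    (Q := fun X => NF X (ee i, 0) (dd p i - 1 - 1)) ⟨fun n h => h.pw n⟩ hX _ _ _ _ _ k
  obtain ⟨A', j, ν, att⟩ := exists_isAttach (u ≫ o)
  obtain ⟨sq, h3, h4⟩ := att.desc b.sp0' (u ▷ CI MM ≫ ζ) (by
    rw [coneBase_naturality_assoc, h, Category.assoc])
  obtain ⟨R', sq', c', g, hg, po⟩ := b.c'.bc j h3
  have att' := att.of_isPushout po.flip
  have hψ' : coneBase _ ≫ ψ = tX X' (lam ^ i) ≫ (u ≫ o) ≫ ah b.c'.i0 := by
    rw [hψ, Category.assoc, Category.assoc, reassoc_of% tX_nat]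
  obtain ⟨T', iT, χT, attT⟩ := exists_isAttach (pairV _ hψ' att'.w ≫ ah sq')
  obtain ⟨B', iB, χB, attB⟩ := exists_isAttach (pairV _ hψ' att'.w)
  obtain ⟨sp', h5, h6⟩ := attB.desc (sq' ≫ iT) χT (by rw [attT.w, ah_comp, Category.assoc])
  obtain ⟨χ, hχ⟩ := isAtt_pair _ hψ' att' attB
  have : IsIso ((sE p).map ((u ▷ rp (0, ((lam ^ i : ℕ) : ℤ))) ▷ S MM)) := by
    rw [st_whiskerRight, st_whiskerRight]
    infer_instance
  refine ⟨b.comp ⟨A', j, sq, h3, R', sq', c', g, hg, po⟩, T', B', b.R', ⟨_, _, iT, χT, attT⟩, sp',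
    ⟨_, iB, χB, attB, rfl, h5, h6⟩, b.g, g ≫ iB, X', _, χ,
    asIso ((sE p).map ((u ▷ rp (0, ((lam ^ i : ℕ) : ℤ))) ▷ S MM)) ≪≫ ε.symm,
    (hA.ext e).attach att hX', ?_, ?_, (Category.assoc _ _ _).symm, b.ext_g e,
    by rwa [sub_sub] at hX', hχ⟩
  · have := (hX'.tensor_t ((lam ^ i : ℕ) : ℤ)).tensor_S
    rwa [sub_add_cancel] at this
  · have e1 : (ψ ≫ ah g) ≫ ah sq' = ψ ≫ ah b.sp' := by rw [Category.assoc, ← ah_comp, hg]
    have e2 : (tX X' (lam ^ i) ▷ CI MM ≫ ν ≫ ah c'.i0) ≫ ah sq' =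
        (u ▷ _) ▷ CI MM ≫ (tX X (lam ^ i) ▷ CI MM ≫ ζ) ≫ ah tc.i0 := by
      rw [Category.assoc, Category.assoc, ← ah_comp, c'.i0_sp, ah_comp, reassoc_of% h4,
        Category.assoc, ← comp_whiskerRight_assoc, ← comp_whiskerRight_assoc, tX_nat]
    change (sE p).map (pairV _ hψ' att'.w ≫ ah sq') = ((sE p).map _ ≫ ε.inv) ≫ y
    rw [pairV, glue_comp, glue_congr _ e1 e2, hv, Category.assoc]

theorem pull0 {B : MM} (hB : Le0 B) (x : (cE p).obj (J, (a, (t : ℤ))) ⟶ (sE p).obj B) :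
    ∃ (X : MM) (ξ : X ⟶ B)
      (ε : (sE p).obj (X ⊗ rp (0, (t : ℤ))) ≅ (cE p).obj (J, (a, (t : ℤ)))),
      NF X (a, 0) J ∧ (sE p).map (tX X t ≫ ξ) = ε.hom ≫ x := by
  obtain ⟨X, hX⟩ := NF.exists (a, 0) J
  obtain ⟨e⟩ := (hX.tensor_t t).iso p
  obtain ⟨k, f, hf⟩ := exists_frac (e.hom ≫ x)
  obtain ⟨j, hj⟩ := exists_pw_tensor (De p) k X (rp (0, (t : ℤ)))
  obtain ⟨ξ, hξ⟩ := (bij_tX hB (hX.pw (p := p) k).deg0 t).2 (j.hom ≫ f)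
  refine ⟨_, ξ, (sE p).mapIso j ≪≫ asIso ((sE p).map ((De p).tk k _)) ≪≫ e, hX.pw k, ?_⟩
  rw [show _ ≫ ξ = _ from hξ, Functor.map_comp, ← hf]
  simp

/-- **PULL** -/
theorem PULL (hp : p.Prime) (hlam : 1 ≤ lam) (h0 : Good T0) (c : RC A sp0 tc R sp) (hA : Good A)
    (h1 : Wt lam i ≤ t) (h2 : t < p) (hl : 2 ^ i ≤ ell a) (hs : sz a ≤ 1) (hd : DD p a ≤ J + 2)
    (onto : tc.All fun _ T T' _ s => ∀ y : (cE p).obj (J, (a, (t : ℤ))) ⟶ (sE p).obj T'.X,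
      ∃ y' : (cE p).obj (J, (a, (t : ℤ))) ⟶ (sE p).obj T.X, y' ≫ (sE p).map (ah s.i) = y)
    (x : (cE p).obj (J, (a, (t : ℤ))) ⟶ (sE p).obj R.X) :
    ∃ (b : Bc c) (X : MM) (ξ : X ⟶ b.A'.X)
      (ε : (sE p).obj (X ⊗ rp (0, (t : ℤ))) ≅ (cE p).obj (J, (a, (t : ℤ)))),
      Ext (NuX p) (2 ^ i - 1) b.f ∧ NF X (a, 0) J ∧
      (sE p).map (tX X t ≫ ξ ≫ ah b.c'.i0) = ε.hom ≫ x ≫ (sE p).map (ah b.g) := by
  induction tc generalizing A R with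
  | nil =>
    cases c
    obtain ⟨X, ξ, ε, hX, h⟩ := pull0 hA.le0 x
    refine ⟨Bc.id _, X, ξ, ε, .iso _ (𝟙 _), hX, ?_⟩
    change (sE p).map (tX X t ≫ ξ ≫ 𝟙 _) = ε.hom ≫ x ≫ (sE p).map (𝟙 _)
    rw [Category.comp_id, (sE p).map_id, Category.comp_id, h]
  | @cons i T T' tc s hk ih =>
    cases c with
    | @cons _ _ _ _ R₀ _ sp₀ _ c _ _ r =>
    rw [Wt_succ] at h1
    rw [pow_succ] at hl
    have hpos : (0 : ℤ) < 2 ^ i := by positivity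
    obtain ⟨y, hy⟩ := onto.2 (x ≫ (sE p).map (ah sp))
    obtain ⟨x₂, k₁, k₂⟩ := r.bdry' (L.scLoc (De p))
      (bij_c1_ok hp hlam hk r.att (c.posT hA.pos) h2 _)
      (bij_c1_ok hp hlam hk s.att (tc.posT h0.pos) h2 _) x y hy
    obtain ⟨x', k'⟩ := desusp_ok hk (by omega) x₂
    obtain ⟨z, hz⟩ := L.TriStr.co₄ (tri_c (L.scLoc (De p)) (ah sp₀))
      ((suspIso p _ _ rfl).hom ≫ x' ▷ SS (De p)) (by
        rw [Category.assoc, ← comp_whiskerRight, (k' _).2 k₁,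
          MonoidalPreadditive.zero_whiskerRight, comp_zero])
    obtain ⟨b₁, e₁, k₃⟩ := LL hp hlam h0 c hA (by omega) (by omega)
      (by rw [map_sub, ell_ee]; omega) (by rw [map_sub, sz_ee]; omega)
      (by rw [map_sub, DD_ee]; omega) z
    have k₄ : x' ≫ (sE p).map (ah b₁.g) = 0 := eq_zero_of_whiskerRight_S _ (by
      rw [← cancel_epi (suspIso p _ _ rfl).hom, comp_whiskerRight, ← reassoc_of% hz,
        ← st_whiskerRight, ← Functor.map_comp, ← coneMap_cq _ (𝟙 _) (f' := ah b₁.sp')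
        (by rw [← ah_comp, b₁.hg, Category.comp_id]), Functor.map_comp, comp_zero]
      exact (Category.assoc _ _ _).symm.trans ((congrArg (· ≫ _) k₃).trans zero_comp))
    obtain ⟨Q, sq, r', g', hv, hχ, hg', po⟩ := r.bc b₁.g b₁.hg
    obtain ⟨x₃, k₅⟩ := k₂ r' b₁.g g' hv hχ po.w ((k' _).1 k₄)
    obtain ⟨b₂, X, ξ, ε, e₂, hX, k₆⟩ := ih b₁.c' (hA.ext e₁) (by omega) (by omega) onto.1 x₃
    obtain ⟨Q', sq', r'', g'', -, -, hg'', po'⟩ := r'.bc b₂.g b₂.hg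
    refine ⟨(b₁.comp b₂).cons hk r r'' (g' ≫ g'') (by rw [Category.assoc, hg'', hg'])
      (po.paste_vert po'), X, ξ, ε, (e₁.trans e₂).mono ?_, hX, ?_⟩
    · have := Nat.one_le_two_pow (n := i)
      rw [pow_succ]
      omega
    · change (sE p).map (tX X t ≫ ξ ≫ ah b₂.c'.i0 ≫ ah r''.i) =
        ε.hom ≫ x ≫ (sE p).map (ah g' ≫ ah g'')
      rw [← Category.assoc ξ, ← Category.assoc (tX X t), Functor.map_comp, k₆, Functor.map_comp,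
        ← reassoc_of% k₅, Category.assoc, Category.assoc, ← Functor.map_comp, ← Functor.map_comp,
        ← ah_comp, ← ah_comp, po'.w]

end Vale.Agent.P257.M
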