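import Vale.Agent.P257.W.DetP
import Vale.Agent.P257.P.Inst

/-!
# P257, part W: the properties of `MU` used in the main induction

* `DetV.per`, `DetV.perR` : detection and periodicity; `tf_odd`, `tf_susp`;
* `IsMU Q` : the properties, `isMU_QG`, `IsMU.hasV`.
-/

open CategoryTheory MonoidalCategory Limits MonObj

universe w

set_option linter.unusedSectionVars false

namespace Vale.Agent.P257.W

open Vale.Agent.P251 Vale.Agent.P251.H Vale.Agent.P251.H.StabInput Vale.Agent.P251.M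
open K M D D.EF C A T L

variable {p : ℕ} {T T' : CommMon MM} {a b c : Lam} {r m : ℕ} {φ : T0 ⟶ T} {X : EE p}

theorem ut_perR (e : a + b = c) : (ut a r ≫ ah φ) ▷ rp (b, 0) ≫ (perR φ b).hom =
    (rpAdd (g := (a, (r : ℤ))) (g' := (b, 0)) (by simp [e])).hom ≫ ut c r ≫ ah φ := by
  rw [perR_hom, actL, ← MonoidalCategory.tensorHom_def_assoc, ← tensorHom_comp_tensorHom,
    Category.assoc, ← IsMonHom.mul_hom]
  exact unG_mul'_assoc _ _ _ _ _

theorem per_eq (a : Lam) : (per φ a).hom = (β_ _ _).hom ≫ (perR φ a).hom := by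
  rw [per_hom, perR_hom, actL, ← BraidedCategory.braiding_naturality_left_assoc,
    IsCommMonObj.mul_comm]

section R

variable {R : EE p} [MonObj R] {A₀ : Type w} [CommRing A₀] {G : RegSeq p A₀}
  {Q : Coef (SC.sph (De p)) R G} {v : X ⟶ (sE p).obj T.X}

theorem DetV.perR (h : DetV Q m φ a r v) (e : a + b = c) :
    DetV Q m φ c r (v ▷ (sE p).obj (rp (b, 0)) ≫ (sE p).map (perR φ b).hom) := by
  obtain ⟨i, x, hx, k⟩ := h
  refine ⟨whiskerRightIso i _ ≪≫ α_ _ _ _ ≪≫ whiskerLeftIso _ ((sE p).mapIso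
    (rpAdd (g := (a, (r : ℤ))) (g' := (b, 0)) (by simp [e]))), x, hx, ?_⟩
  have h1 := congrArg (sE p).map (ut_perR (r := r) (φ := φ) e)
  rw [Functor.map_comp, SC.st_whiskerRight, (sE p).map_comp (rpAdd _).hom] at h1
  rw [Iso.trans_hom, Iso.trans_hom, Category.assoc, Category.assoc, whiskerLeftIso_hom,
    Functor.mapIso_hom, whiskerLeft_comp_tensorHom, ← h1, ← tensorHom_comp_whiskerLeft,
    ← tensorHom_comp_whiskerLeft, ← tensorHom_id ((sE p).map _), ← associator_naturality_assoc,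
    tensorHom_id, whiskerRightIso_hom, ← comp_whiskerRight_assoc, ← k, comp_whiskerRight_assoc,
    ← tensorHom_id (η[R] ⊗ₘ v), associator_naturality_assoc, tensorHom_id, leftUnitor_tensor_inv,
    Category.assoc]

theorem DetV.per (h : DetV Q m φ a r v) (e : a + b = c) :
    DetV Q m φ c r ((sE p).obj (rp (b, 0)) ◁ v ≫ (sE p).map (per φ b).hom) := by
  have := (h.perR e).iso (β_ ((sE p).obj (rp (b, 0))) X)
  rwa [← BraidedCategory.braiding_naturality_right_assoc, ← SC.st_braiding_hom,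
    ← Functor.map_comp, ← per_eq] at this

theorem DetV.comp (h : DetV Q m φ a r v) (g : T ⟶ T') :
    DetV Q m (φ ≫ g) a r (v ≫ (sE p).map (ah g)) := by
  obtain ⟨i, x, hx, k⟩ := h
  exact ⟨i, x, hx, by rw [← tensorHom_comp_whiskerLeft, reassoc_of% k, tensorHom_comp_whiskerLeft,
    ← Functor.map_comp, Category.assoc, ah_comp]⟩

variable (Q) (h0 : Le0 R.obj) (h1 : Supp R.obj {g : Gam | g.1 = 0})
include Q h0 h1

theorem tf_odd (n : ℤ) (x : (cE p).obj (2 * n + 1, (a, (r : ℤ))) ⟶ R ⊗ (sE p).obj T0.X)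
    (hx : (p : ℤ) • x = 0) : x = 0 := by
  have b := bij_tensor (c := SC.sph (De p)) (SC.sphOne _) (wTests_sm _) (we₂_ut h0 h1 a r).2
    (2 * n + 1)
  obtain ⟨z, rfl⟩ := b.2 x
  have : z = 0 := Q.odd_tf n z (b.1 (((zsmul_tensor _ _ _).trans hx).trans (zero_tensor _).symm))
  rw [this]
  exact zero_tensor _

theorem tf_susp {l : ℤ} (hl : Even l)
    (x : (cE p).obj (l, (a, (r : ℤ))) ⟶ (R ⊗ (sE p).obj T0.X) ⊗ (cE p).obj (1, 0))
    (hx : p • x = 0) : x = 0 := by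
  obtain ⟨n, rfl⟩ := hl
  let e : (cE p).obj (2 * (n - 1) + 1, (a, (r : ℤ))) ⊗ (cE p).obj (1, 0) ≅
      (cE p).obj (n + n, (a, (r : ℤ))) :=
    (cE p).add _ _ ≪≫ eqToIso (congrArg _ (Prod.ext (by simp; ring) (by simp)))
  obtain ⟨y, hy⟩ := whiskerRight_surj _ (e.hom ≫ x)
  have h2 : y = 0 := tf_odd Q h0 h1 _ y (whiskerRight_inj ((cE p).obj (1, 0)) (by
    rw [zsmul_whiskerRight, hy, ← Preadditive.comp_zsmul, natCast_zsmul, hx, comp_zero,
      MonoidalPreadditive.zero_whiskerRight]))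
  rw [← cancel_epi e.hom, ← hy, h2, MonoidalPreadditive.zero_whiskerRight, comp_zero]

end R

/-- the properties of the classes -/
structure IsMU [Fact p.Prime] {A : Type} [CommRing A] {G : RegSeq p A}
    (Q : Coef (SC.sph (De p)) ((sE p).obj MG.X) G) : Prop where
  isV : Q.IsV 0 ((p : ℤ) • η[(sE p).obj MG.X])
  thom : Thom ((sE p).obj MG.X) (scMod (De p))
  neg (l : ℤ) : l < 0 → ∀ x : (SC.sph (De p)).obj l ⟶ (sE p).obj MG.X, x = 0
  det (m : ℕ) (a : Lam) (X : MM) : NF X (a, 0) (2 * ((p : ℤ) ^ m - 1)) →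
    DetK p (Fin p) (cinl MG T0) (IsVP Q m a) (IsVP Q (m + 1) (p • a)) X

variable [hp : Fact p.Prime]

theorem isMU_QG (h2 : p ≠ 2) {U : St.SHCat} (σ : St.Susp U)
    (h : DetO p (EM σ) (GM σ hp.out h2)) : IsMU (QG σ hp.out h2) :=
  ⟨isV_zero_QG σ hp.out h2, thom_MG σ p, fun _ hl x =>
    P.eq_zero_of_neg (E := EM σ) (uLoc_sG p) (EMU_repUniq _ _) (sGOne p) hl x,
    detP (detM_QG σ hp.out h2 h)⟩

namespace IsMU

variable {A₀ : Type} [CommRing A₀] {G : RegSeq p A₀}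
  {Q : Coef (SC.sph (De p)) ((sE p).obj MG.X) G} (D : IsMU Q) {lam i : ℕ}
include D

theorem prof (P Lm : ℕ) (h : 0 < p) : V.Prof (tE p) (V.par p P Lm h) ((sE p).obj MG.X) 0 0 :=
  prof_MG D.neg P Lm h

theorem tf {l : ℤ} (hl : Even l)
    (x : (cE p).obj (l, (a, 0)) ⟶ (sE p).obj (cten MG T0).X ⊗ (cE p).obj (1, 0))
    (hx : p • x = 0) : x = 0 :=
  tf_susp (R := (sE p).obj MG.X) (r := 0) Q le0_MG wt_MG hl x hx

theorem onto (hl : 1 ≤ lam) (tc : TC (okT p lam) T0 i T) (hd : tc.All (DetS Q ee (lam ^ ·)))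
    (b : Lam) (hr : Wt lam i ≤ r) (hr' : r < p) (J : ℤ) :
    (tc.tensor MG).All fun _ T T' _ s => ∀ y : (cE p).obj (J, (b, (r : ℤ))) ⟶ (sE p).obj T'.X,
      ∃ y' : (cE p).obj (J, (b, (r : ℤ))) ⟶ (sE p).obj T.X, y' ≫ (sE p).map (ah s.i) = y :=
  onto_tc hp.out le0_MG wt_MG posT_MG (oddCells_okT hl) tc hd b hr hr' J

theorem pull (hl : 2 ≤ lam) (tc : TC (okT p lam) T0 m T) (hd : tc.All (DetS Q ee (lam ^ ·)))
    {s : TStep T T'} (hs : DetS Q ee (lam ^ ·) m T T' tc.i0 s) (hr : lam ^ m < p)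
    {A R : CommMon MM} {sp0 : A ⟶ cten MG T0} {sp : R ⟶ cten MG T}
    {c : RC A sp0 (tc.tensor MG) R sp} (b : Bc c) {x : s.X ⟶ R.X}
    (hx : x ≫ ah sp = s.v ≫ ah (cinr MG T)) {Z : MM} {J : ℤ} (hZ : NF Z (ee m, 0) J)
    (ξ : Z ⟶ b.A'.X) (ε : (sE p).obj (Z ⊗ rp (0, ((lam ^ m : ℕ) : ℤ))) ≅ (sE p).obj s.X)
    (e : (sE p).map (tX Z (lam ^ m) ≫ ξ ≫ ah b.c'.i0) =
      ε.hom ≫ (sE p).map x ≫ (sE p).map (ah b.g)) :
    IsVP Q m (ee m) ((sE p).map (ξ ≫ ah b.sp0')) :=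
  isVP_of_pull hp.out le0_MG wt_MG posT_MG (oddCells_okT (by omega)) (one_MG p) D.isV tc hd hs
    (Wt_lt hl m).le hr b hx hZ ξ ε e

theorem detV {Y : EE p} {v : Y ⟶ (sE p).obj T.X}
    (c : Y ≅ (cE p).obj (dd p m - 1, (a, (r : ℤ)))) {x : X ⟶ (sE p).obj (cten MG T0).X}
    (hx : IsVP Q m a x) (ε : Y ≅ X ⊗ (sE p).obj (rp (0, (r : ℤ))))
    (h : v ≫ (sE p).map (ah (cinr MG T)) =
      ε.hom ≫ X ◁ (sE p).map (t1 r) ≫ (ρ_ X).hom ≫ x ≫ (sE p).map (ah (cwl MG φ))) :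
    DetV Q m φ a r v :=
  detV_of_isVP (one_MG p) c hx ε h

theorem hasV {n : ℕ} (hl : 2 ≤ lam) (hn : lam ^ (n + 1) ≤ p) (tc : TC (okT p lam) T0 (n + 1) T)
    (hd : tc.All (DetS Q ee (lam ^ ·))) (h2 : p ≠ 2) {U : St.SHCat} (σ : St.Susp U) :
    P257.St.HasV σ p n :=
  hasV_okT hp.out le0_MG wt_MG posT_MG hl hn tc hd h2 D.thom σ

end IsMU

end Vale.Agent.P257.W
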