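import Vale.Agent.P257.W.Out
import Vale.Agent.P257.F.Cop

/-!
# P257, part W: universal bounds for the change of the profile

`UP st τ π f dW dN` : `f` can be pushed forward along every algebra map, and every pushout of `f`
raises the profile `(W, N)` at most to `(W + dW, N + dN)`.
-/

open CategoryTheory MonoidalCategory Limits

namespace Vale.Agent.P257.V

open Vale.Agent.P251.H Vale.Agent.P251.H.StabInput Vale.Agent.P257.A Vale.Agent.P257.C
open Vale.Agent.P257.D Vale.Agent.P257.M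

universe v u

variable {C : Type u} [Category.{v} C] [Preadditive C] [MonoidalCategory C] [SymmetricCategory C]
  [MonoidalPreadditive C] (st : MM ⥤ C) [st.Monoidal] {c : Cells C (ℤ × Gam)} (τ : TCone c)
  (π : Par Lam)

/-- supports and profile -/
structure GP (X : MM) (W N : ℤ) : Prop where
  posT : PosT X 0
  posL : PosL X
  prof : Prof τ π (st.obj X) W N

/-- universal bounds for the change of the profile -/
structure UP {B B' : CommMon MM} (f : B ⟶ B') (dW : ℕ) (dN : ℤ) : Prop where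
  ex {A : CommMon MM} (u : B ⟶ A) : ∃ (A' : CommMon MM) (g : A ⟶ A') (u' : B' ⟶ A'),
    IsPushout f u u' g
  gp {A A' : CommMon MM} {u : B ⟶ A} {g : A ⟶ A'} {u' : B' ⟶ A'} (h : IsPushout f u u' g)
    {W N : ℤ} (hW : W + dW ≤ π.P) : GP st τ π A.X W N → GP st τ π A'.X (W + dW) (N + dN)

variable {st τ π} {X Y : MM} {W W' N N' dN dN' k : ℤ} {dW dW' : ℕ} {A A' B B' B'' : CommMon MM}
  {f : B ⟶ B'} {f' : B' ⟶ B''}

omit [SymmetricCategory C] [MonoidalPreadditive C] [st.Monoidal]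

theorem GP.mono (h : GP st τ π X W N) (hW : W ≤ W') (hN : N ≤ N') : GP st τ π X W' N' :=
  ⟨h.posT, h.posL, h.prof.mono hW hN⟩

theorem GP.of_iso (h : GP st τ π X W N) (e : X ≅ Y) : GP st τ π Y W N :=
  ⟨posT_of_iso h.posT e, posL_of_iso h.posL e, h.prof.of_iso (st.mapIso e)⟩

namespace UP

theorem self (h : UP st τ π f dW dN) (hW : W + dW ≤ π.P) (k : GP st τ π B.X W N) :
    GP st τ π B'.X (W + dW) (N + dN) :=
  h.gp (u := 𝟙 B) (g := f) (u' := 𝟙 B') (IsPushout.of_vert_isIso ⟨by simp⟩) hW k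

theorem mono (h : UP st τ π f dW dN) (hW : dW ≤ dW') (hN : dN ≤ dN') : UP st τ π f dW' dN' :=
  ⟨h.ex, fun l _ _ k1 k2 => (h.gp l (by omega) k2).mono (by omega) (by omega)⟩

theorem of_isIso (f : B ⟶ B') [IsIso f] : UP st τ π f 0 0 :=
  ⟨fun u => ⟨_, 𝟙 _, inv f ≫ u, IsPushout.of_horiz_isIso ⟨by simp⟩⟩, fun {_ _ u g u'} l _ _ _ k => by
    have e : g ≫ ((IsPushout.of_horiz_isIso (f := f) (g := u) (inl := inv f ≫ u) (inr := 𝟙 _)
        ⟨by simp⟩).isoIsPushout _ _ l).inv = 𝟙 _ := IsPushout.inr_isoIsPushout_inv _ _ _ _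
    have : IsIso g := by
      rw [Iso.comp_inv_eq] at e
      rw [e]
      infer_instance
    simpa using k.of_iso (ahIso (asIso g))⟩

theorem id (B : CommMon MM) : UP st τ π (𝟙 B) 0 0 := of_isIso _

theorem comp (h : UP st τ π f dW dN) (h' : UP st τ π f' dW' dN') :
    UP st τ π (f ≫ f') (dW + dW') (dN + dN') := by
  refine ⟨fun u => ?_, fun {_ _ u g u'} l W N hW k => ?_⟩
  · obtain ⟨A₁, g₁, u₁, l₁⟩ := h.ex u
    obtain ⟨A₂, g₂, u₂, l₂⟩ := h'.ex u₁
    exact ⟨A₂, g₁ ≫ g₂, u₂, l₁.paste_horiz l₂⟩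
  · obtain ⟨A₁, g₁, u₁, l₁⟩ := h.ex u
    have w : f ≫ f' ≫ u' = u ≫ g := by rw [← l.w, Category.assoc]
    have l₂ : IsPushout f' u₁ u' (l₁.desc (f' ≫ u') g w) :=
      IsPushout.of_left (by rwa [l₁.inr_desc]) (l₁.inl_desc _ _ _).symm l₁
    push_cast at hW ⊢
    rw [← add_assoc, ← add_assoc]
    exact h'.gp l₂ (by omega) (h.gp l₁ (by omega) k)

/-- base change -/
theorem bc (h : UP st τ π f dW dN) {u : B ⟶ A} {g : A ⟶ A'} {u' : B' ⟶ A'}
    (l : IsPushout f u u' g) : UP st τ π g dW dN := by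
  refine ⟨fun v => ?_, fun l' => h.gp (l.paste_vert l')⟩
  obtain ⟨A₁, g₁, u₁, l₁⟩ := h.ex (u ≫ v)
  have w : f ≫ u₁ = u ≫ v ≫ g₁ := by rw [l₁.w, Category.assoc]
  exact ⟨A₁, g₁, l.desc u₁ (v ≫ g₁) w,
    IsPushout.of_top (by rwa [l.inl_desc]) (l.inr_desc _ _ _) l⟩

theorem cwl (h : UP st τ π f dW dN) (A : CommMon MM) : UP st τ π (cwl A f) dW dN :=
  h.bc (isPushout_cinr A f)

theorem cwr (h : UP st τ π f dW dN) (A : CommMon MM) : UP st τ π (cwr f A) dW dN :=
  h.bc (isPushout_cinl A f)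

/-- the profile of `A ⊗ B` -/
theorem cten {f : CommMon.trivial MM ⟶ B} (h : UP st τ π f dW dN) (hW : W + dW ≤ π.P)
    (k : GP st τ π A.X W N) : GP st τ π (A.X ⊗ B.X) (W + dW) (N + dN) :=
  h.gp (isPushout_cten default f).flip hW k

theorem of_attach {i : B ⟶ B'} {x : X ⟶ B.X} {χ : X ⊗ CI MM ⟶ B'.X} (att : IsAttach i x χ)
    (hT : PosT X 0) (hL : PosL X)
    (h : ∀ {A A' : CommMon MM} {i : A ⟶ A'} {x : X ⟶ A.X} {χ : X ⊗ CI MM ⟶ A'.X} {W N : ℤ},
      IsAttach i x χ → W + dW ≤ π.P → GP st τ π A.X W N →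
        Prof τ π (st.obj A'.X) (W + dW) (N + dN)) : UP st τ π i dW dN :=
  ⟨((Ext.single (P := fun _ => True) ⟨X, x, i, χ, att⟩ trivial).exists_isPushout · |>.imp
      fun _ k => k.imp fun _ k => k.imp fun _ k => k.1),
    fun l _ _ hW k => ⟨posT_attach (att.of_isPushout l) k.posT hT,
      posL_attach (att.of_isPushout l) k.posL hL, h (att.of_isPushout l) hW k⟩⟩

theorem ext {ok : MM → Prop} {n : ℕ}
    (h : ∀ {A A' : CommMon MM} (s : TStep A A'), ok s.X → UP st τ π s.i dW dN) (k : Ext ok n f)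
    (hN : 0 ≤ dN) : UP st τ π f (n * dW) (n * dN) := by
  induction k with
  | iso n f => exact (of_isIso f).mono (Nat.zero_le _) (by positivity)
  | step _ s hs ih =>
    rw [Nat.succ_mul, Nat.cast_succ, add_mul, one_mul]
    exact ih.comp (h s hs)

end UP

end Vale.Agent.P257.V

namespace Vale.Agent.P257.V.World

open Vale.Agent.P251.H Vale.Agent.P251.H.StabInput Vale.Agent.P257.A Vale.Agent.P257.C
open Vale.Agent.P257.D Vale.Agent.P257.M

universe v u

variable {C : Type u} [Category.{v} C] [Preadditive C] [MonoidalCategory C] [SymmetricCategory C]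
  [MonoidalPreadditive C] {st : MM ⥤ C} [st.Monoidal] {c : Cells C (ℤ × Gam)} {τ : TCone c}
  {p P Lm : ℕ} {hp : 0 < p} (H : World st c τ p) {X : MM} {a : Lam} {k : ℤ} {B B' : CommMon MM}
  {i : B ⟶ B'} {x : X ⟶ B.X} {χ : X ⊗ CI MM ⟶ B'.X}
include H

theorem up_nu (hL : Lm < p ^ 2) (att : IsAttach i x χ) (hX : NF X (a, 0) k) (ok : OkNu p a k) :
    UP st τ (par p P Lm hp) i 0 1 :=
  UP.of_attach att (nf_posT hX le_rfl) (nf_posL hX (zero_le_one.trans ok.1)) fun att hW h => by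
    rw [Nat.cast_zero, add_zero] at hW ⊢
    exact H.nu h.prof hL hW h.posL att hX ok

theorem up_ext (hL : Lm < p ^ 2) {ok : MM → Prop} {n : ℕ}
    (hok : ∀ X, ok X → ∃ a k, NF X (a, 0) k ∧ OkNu p a k) (h : Ext ok n i) :
    UP st τ (par p P Lm hp) i 0 n := by
  have := UP.ext (fun s hs => by
    obtain ⟨a, k, h1, h2⟩ := hok _ hs
    exact H.up_nu (P := P) (hp := hp) hL s.att h1 h2) h zero_le_one
  rwa [mul_zero, mul_one] at this

theorem up_odd {f : ℕ} (hP : P < p) (att : IsAttach i x χ) (hX : NF X (a, f) k) (hk : Even k)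
    (hf : 1 ≤ f) (ha : 0 ≤ ell a) (hd : bd p a ≤ p * (k + 1)) : UP st τ (par p P Lm hp) i f 0 :=
  UP.of_attach att (nf_posT hX (Int.natCast_nonneg f)) (nf_posL hX ha) fun att hW h => by
    rw [add_zero]
    exact H.odd h.prof hP hW h.posT att hX hk hf ha hd

theorem up_pair {f s m : ℕ} {x : cone (tX X f) ⟶ B.X} {χ : cone (tX X f) ⊗ CI MM ⟶ B'.X}
    (hP : P < p) (hL : Lm < p ^ 2) (hs : Lm < s * p) (att : IsAttach i x χ)
    (hX : NF X (ee m, 0) (dd p m - 2)) (hf : 1 ≤ f) : UP st τ (par p P Lm hp) i (s * f) 0 :=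
  UP.of_attach att (supp_cone_tX wT_mono (nf_posT hX le_rfl) f)
    (supp_cone_tX wL_mono (nf_posL hX (by rw [ell_ee]; positivity)) f) fun att hW h => by
    rw [add_zero]
    exact H.pair h.prof hP hL hs hW h.posL att hX hf

end Vale.Agent.P257.V.World
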