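import Vale.Agent.P257.W.DetMD

/-!
# P257, part W: the detection property with coefficients

`DetK p ι κ V V' X` : as `DetAt`, but the Thom class has coefficients in the source of `κ`.
-/

open CategoryTheory MonoidalCategory

namespace Vale.Agent.P257.W

open K M D A T
open E (triv JA Dh Rh)
open Equiv (Perm)

variable (p : ℕ) (ι : Type) [Finite ι] {C B : CommMon MM} {X : MM}

/-- the norm -/
noncomputable def nrmG (x : X ⟶ B.X) : (powG MM (Perm ι) ι).obj X ⟶ (triv _).obj B.X :=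
  (powG MM (Perm ι) ι).map x ≫ mulG (Perm ι) ι B.X

/-- the power times a coefficient -/
noncomputable def pwK (κ : C ⟶ B) (x : X ⟶ B.X) :
    (triv (Perm ι)).obj (big fun _ : ι => X) ⊗ (triv _).obj C.X ⟶ (triv _).obj B.X :=
  ((triv _).map (bigMap (fun _ : ι => x) ≫ bigMul ι B.X) ⊗ₘ (triv _).map (ah κ)) ≫
    mulT (Perm ι) B.X

variable [Fact p.Prime] [Fact (Nat.card ι = p)]

/-- the detection property -/
def DetK (κ : C ⟶ B) (V V' : ∀ {P : EE p}, (P ⟶ (sE p).obj B.X) → Prop) (X : MM) : Prop :=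
  ∃ u : (st (Dh iG p ι)).obj ((powG MM (Perm ι) ι).obj X) ⟶
      (st _).obj ((triv _).obj (big fun _ : ι => X) ⊗ (triv _).obj C.X),
    ((Rh iG p ι).map u).hom = (sE p).map ((ρ_ _).inv ≫ _ ◁ MonObj.one) ∧
    ∀ (x : X ⟶ B.X) (h : (st (Dh iG p ι)).obj (((powG MM (Perm ι) ι).obj X ⊗
        (JA _ MM).obj (Z.RA ι)) ⊗ (JA _ MM).obj (Z.RA ι)) ⟶ (st _).obj ((triv _).obj B.X)),
      V ((sE p).map x) →
      (st _).map (am (Z.unt ι (Z.pd ι) MM) _ ≫ am (Z.unt ι (Z.pd ι) MM) _) ≫ h =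
        (st _).map (nrmG ι x) - u ≫ (st _).map (pwK ι κ x) →
      V' ((Rh iG p ι).map h).hom

end Vale.Agent.P257.W
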