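import Vale.Agent.P257.W.Glue1
import Vale.Agent.P257.W.GDefs
import Vale.Agent.P257.N.Div
import Vale.Agent.P257.T.Frob

/-!
# P257, part W: the class `t ^ r` in the equivariant stable category
-/

open CategoryTheory MonoidalCategory Functor.OplaxMonoidal

namespace Vale.Agent.P257.W

open K M
open Vale.Agent.P257.E (triv)
open Vale.Agent.P257.F (DH sH)
open Equiv (Perm)

variable (ι : Type) [Finite ι] (p : ℕ)

/-- the class `t ^ r` -/
noncomputable def tR (r : ℕ) :
    (sH ι p).obj ((triv _).obj (rp (0, (r : ℤ)))) ⟶ 𝟙_ (SC (DH ι p)) :=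
  (sH ι p).map ((triv (Perm ι)).map (t1 r) ≫ η (triv _))

end Vale.Agent.P257.W
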