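import Vale.Agent.P257.W.DetX
import Vale.Agent.P257.W.GDef2
import Vale.Agent.P257.M.Fac

/-!
# P257, part W: the Frobenius of a class which comes from the bottom of a chain

`exists_rerep`.
-/

set_option linter.unusedSectionVars false

open CategoryTheory MonoidalCategory Limits Functor.LaxMonoidal Functor.OplaxMonoidal

namespace Vale.Agent.P257.W

open Vale.Agent.P251.H Vale.Agent.P251.H.StabInput
open K M D D.EF C A T L N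
open Vale.Agent.P257.E (triv JA)
open Vale.Agent.P257.F (DH sH RH)
open Equiv (Perm)

variable {p lam : ℕ}

/-- framed cells with a given number of spheres -/
def Frm (X : MM) (m : ℕ) (g : Gam) (n : ℕ) : Prop :=
  ∃ c : O, Nonempty c.El ∧ Fintype.card c.El = m ∧
    Nonempty (X ≅ rep (⟨c, g⟩ : JG) ⊗ tpow (S MM) n)

/-- the shift of a framed cell -/
noncomputable def shiftIso (c : O) (a : Lam) (w : ℤ) (Z : MM) :
    (rep (⟨c, (a, 0)⟩ : JG) ⊗ Z) ⊗ rp (0, w) ≅ rep (⟨c, (a, w)⟩ : JG) ⊗ Z :=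
  W.sw _ _ _ ≪≫ whiskerRightIso (repTensor (⟨c, (a, 0)⟩ : JG) ⟨𝟙_ O, (0, w)⟩ ≪≫
    repIso (Gr.isoMk (ρ_ c) (Prod.ext (add_zero a) (zero_add w)))) Z

section frm

variable {X : MM} {m n : ℕ} {g : Gam}

theorem Frm.pw (h : Frm X m g n) : ∀ K : ℕ, Frm ((De p).pw K X) (m + K) g (n + K)
  | 0 => h
  | K + 1 => by
    obtain ⟨c, -, h1, ⟨i⟩⟩ := h.pw K
    refine ⟨O.pt ⊗ c, ⟨Sum.inl ()⟩, ?_, ⟨(whiskerLeftIso _ (ρ_ (S MM)).symm ⊗ᵢ i) ≪≫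
      nfTensor O.pt c 0 g 1 (n + K) ≪≫
        whiskerRightIso (repIso (Gr.isoMk (x := ⟨O.pt ⊗ c, 0 + g⟩) (y := ⟨O.pt ⊗ c, g⟩)
          (Iso.refl _) (zero_add g))) _⟩⟩
    rw [card_tensor, h1]
    exact Nat.add_comm 1 _

theorem Frm.shift {a : Lam} (h : Frm X m (a, 0) n) (w : ℤ) : Frm (X ⊗ rp (0, w)) m (a, w) n := by
  obtain ⟨c, h0, h1, ⟨i⟩⟩ := h
  exact ⟨c, h0, h1, ⟨whiskerRightIso i _ ≪≫ shiftIso c a w _⟩⟩

theorem Frm.nf (h : Frm X m g n) {k : ℤ} (hk : (n : ℤ) = m + k) : NF X g k := by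
  obtain ⟨c, h0, h1, h2⟩ := h
  exact ⟨c, n, h0, h1 ▸ hk, h2⟩

end frm

section rerep

variable {ι : Type} [Finite ι] [DecidableEq ι] [Nontrivial ι] [Fact p.Prime] [Fact (Nat.card ι = p)]
  {A R : CommMon MM} {Z : CommMon (Action MM (Perm ι))}

theorem exists_rerep {hl : lam ≤ Nat.card ι} {hA : Le0 A.X} {i : A ⟶ R} {γ : trivC _ A ⟶ Z}
    {F : R ⟶ FrC ι lam Z} (hF : FrobOn hl hA i γ F) {Y : MM} {c : O} {a : Lam} {w n : ℕ} {k : ℤ}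
    (hc : Nonempty c.El) (hn : (n : ℤ) = Fintype.card c.El + k)
    (e : Y ≅ rep (⟨c, (a, (w : ℤ))⟩ : JG) ⊗ tpow (S MM) n) (v : Y ⟶ R.X) {X : MM} (ξ : X ⟶ A.X)
    (ε : (sE p).obj (X ⊗ rp (0, (w : ℤ))) ≅ (sE p).obj Y)
    (h : (sE p).map (tX X w ≫ ξ ≫ ah i) = ε.hom ≫ (sE p).map v) :
    ∃ (X' : MM) (ξ' : X' ⟶ A.X) (δ : (sE p).obj X' ≅ (sE p).obj X) (u : X' ⊗ rp (0, (w : ℤ)) ⟶ Y)
      (V : SC (DH ι p)) (j : ℕ) (e' : ℤˣ)
      (d : V ⟶ (sH ι p).obj ((powG MM (Perm ι) ι).obj X') ⊗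
        (sH ι p).obj ((triv _).obj (rp (0, ((lam * w : ℕ) : ℤ)))))
      (f : V ⟶ (sH ι p).obj ((FrL (Perm ι) ι lam).obj Y)),
      NF X' (a, 0) k ∧ (sE p).map ξ' = δ.hom ≫ (sE p).map ξ ∧ IsIso ((sE p).map u) ∧
      (sE p).map (tX X' w ≫ ξ' ≫ ah i) = (sE p).map (u ≫ v) ∧
      Eu (aH ι (DH ι p)) (j + n) d ∧ Eu (aH ι (DH ι p)) j f ∧
      GH p e' (p * k - (j + n : ℕ) * ((p : ℤ) - 1), (p • a, ((lam * w : ℕ) : ℤ))) V ∧
      f ≫ (sH ι p).map (frV F v) =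
        d ≫ P257.Z.mt ((sH ι p).map (nrmG ι ξ')) (tR ι p (lam * w)) ≫ (sH ι p).map (ahL γ) := by
  obtain ⟨X₀, e₀, h₀⟩ : ∃ (X₀ : MM) (_ : X₀ ⊗ rp (0, (w : ℤ)) ≅ Y),
      Frm X₀ (Fintype.card c.El) (a, 0) n :=
    ⟨_, shiftIso c a w _ ≪≫ e.symm, c, hc, rfl, ⟨Iso.refl _⟩⟩
  obtain ⟨δ₀, hδ₀⟩ := exists_iso_whiskerRight (P := (sE p).obj X₀) (P' := (sE p).obj X)
    (O := (sE p).obj (rp (0, (w : ℤ)))) ((sE p).mapIso e₀ ≪≫ ε.symm)
  obtain ⟨K, ξ', hξ'⟩ := SC.exists_frac (δ₀.hom ≫ (sE p).map ξ)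
  obtain ⟨e₁, he₁⟩ := exists_pw_tensor (De p) K X₀ (rp (0, (w : ℤ)))
  have h₁ := h₀.pw (p := p) K
  have hX' : NF ((De p).pw K X₀) (a, 0) k := h₁.nf (by push_cast; omega)
  have hu : (sE p).map (tX _ w ≫ ξ' ≫ ah i) =
      (sE p).map (((De p).tk K X₀ ▷ rp (0, (w : ℤ)) ≫ e₀.hom) ≫ v) := by
    have k1 : δ₀.hom ▷ (sE p).obj (rp (0, (w : ℤ))) ≫ (sE p).map (tX X w) =
        (sE p).map (tX X₀ w) ≫ δ₀.hom := by
      rw [sE_tX, sE_tX, ← whisker_exchange_assoc, Category.assoc]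
      exact congrArg (_ ≫ ·) (rightUnitor_naturality _)
    have k2 : (sE p).map e₀.hom ≫ (sE p).map v =
        (sE p).map (tX X₀ w) ≫ δ₀.hom ≫ (sE p).map ξ ≫ (sE p).map (ah i) := by
      rw [← reassoc_of% k1, ← hδ₀, ← (sE p).map_comp ξ, ← (sE p).map_comp (tX X w), h]
      simp
    rw [Functor.map_comp, Functor.map_comp, Functor.map_comp, Functor.map_comp, Category.assoc, k2,
      ← (sE p).map_comp_assoc (_ ▷ _), W.tX_nat, ← hξ', Functor.map_comp]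
    simp only [Category.assoc]
  obtain ⟨K', hK'⟩ := frob_tk F hu
  have hL : Le0 ((De p).pw K X₀) := Le0.of_nf hX' le_rfl
  refine ⟨_, ξ', asIso ((sE p).map ((De p).tk K X₀)) ≪≫ δ₀, (De p).tk K X₀ ▷ _ ≫ e₀.hom,
    (sH ι p).obj ((FrL (Perm ι) ι lam).obj ((De p).pw K' ((De p).pw K X₀ ⊗ rp (0, (w : ℤ))))),
    K' + K, (-1) ^ (Fintype.card c.El + K + K'),
    (sH ι p).map ((FrL (Perm ι) ι lam).map ((De p).tk K' _)) ≫
      (sH ι p).map (frTX (Perm ι) ι lam _ w).hom ≫ (sH ι p).map (dgF (Perm ι) hl hL) ▷ _,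
    (sH ι p).map ((FrL (Perm ι) ι lam).map ((De p).tk K' _)) ≫
      (sH ι p).map ((FrL (Perm ι) ι lam).map ((De p).tk K X₀ ▷ _ ≫ e₀.hom)),
    hX', hξ'.symm.trans (Category.assoc _ _ _).symm, ?_, hu, ?_, ?_, ?_, ?_⟩
  · rw [← he₁, Functor.map_comp, Functor.map_comp]
    infer_instance
  · obtain ⟨c', -, -, ⟨i'⟩⟩ := h₁
    exact ((fru_tk hl p _ K').comp (Eu.iso_comp _ ((frd hl rfl i' hL _).whiskerRight _))).cast
      (by omega)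
  · refine (fru_tk hl p _ K').comp ?_
    rw [← he₁, Functor.map_comp, Functor.map_comp, Functor.map_comp, Functor.map_comp]
    exact (Eu.iso_comp _ (fru_tk hl p _ K)).comp_iso _
  · obtain ⟨c', h0, h1, ⟨i'⟩⟩ := (h₁.shift w).pw (p := p) K'
    refine (gh_FrL (lam := lam) h0 i').cast (by rw [h1]) (Prod.ext ?_ (by simp))
    rw [h1]
    push_cast
    linear_combination (p : ℤ) * hn
  · rw [Category.assoc, ← Functor.map_comp, map_frV, ← hK', hF.map_tX hL, Category.assoc,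
      Category.assoc, Category.assoc, P257.Z.whiskerRight_mt_assoc, P257.Z.mt_eq]
    simp only [Functor.map_comp, Category.assoc, SC.st_whiskerLeft, tR, nrmG]
    rfl

end rerep

end Vale.Agent.P257.W
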