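import Vale.Agent.P257.W.TC
import Vale.Agent.P257.M.Chain

/-!
# P257, part W: chains of odd cells are stable in the filtration degree
-/

open CategoryTheory MonoidalCategory Limits

namespace Vale.Agent.P257.V

open Vale.Agent.P251.H Vale.Agent.P251.H.StabInput Vale.Agent.P257.A Vale.Agent.P257.C
open Vale.Agent.P257.D Vale.Agent.P257.D.EF Vale.Agent.P257.M

universe v u v' u'

section supp

variable {I : Type} [Idx I] [SphIdx I] {Γ : Type} [AddCommMonoid Γ] [Preorder Γ]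
  [IsOrderedAddMonoid Γ] {w : Γ →+ ℤ} {X Y : EF (Gr I Γ)}
  {B B' : CommMon (EF (Gr I Γ))} {i : B ⟶ B'} {x : X ⟶ B.X} {χ : X ⊗ CI _ ⟶ B'.X}

theorem degIso_stgTo_left (hw : Monotone w) (h : IsAttach i x χ) (hY : Supp Y {g | 0 ≤ w g})
    (hB : Supp B.X {g | 0 ≤ w g}) (hX : Supp X {g | 1 ≤ w g}) (k : ℕ) :
    DegIso I {g | w g ≤ k} (Y ◁ stgTo h.w k) := fun y hy =>
  h.isIso_map_stgTo (tensorLeft Y ⋙ ev y) k fun ι _ K l =>
    (hY.tensor_w hw (hB.tensor_w hw (supp_tensor_J hw (hX.pw_w hw ι) K))) y (by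
      simp only [Set.mem_ofPred_eq, not_le] at hy ⊢
      omega)

end supp

section general

variable {M : Type u} [Category.{v} M] [MonoidalCategory M] [SymmetricCategory M]
  [MonoidalClosed M] [HasZeroMorphisms M] [HasColimitsOfSize.{0, 0} M] [StabInput M]
  {C : Type u'} [Category.{v'} C] [Preadditive C] [MonoidalCategory C] [SymmetricCategory C]
  [MonoidalPreadditive C] {st : M ⥤ C} [st.Monoidal] {Γ : Type} [AddCommGroup Γ]
  {c : Cells C (ℤ × Γ)} {X : M} {B B' : CommMon M} {i : B ⟶ B'} {x : X ⟶ B.X}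
  {χ : X ⊗ CI M ⟶ B'.X}

theorem Real.bij_stgTo_left (H : Real st c) (w : coneBase X ≫ χ = x ≫ ah i) {m n : ℕ} (l : m ≤ n)
    (h : ∀ j, m < j → j ≤ n → c.TConn (st.obj (DP j (X ⊗ S M))) ∅) {d : ℤ × Γ} {Y : C}
    (k : L.Bij (c.obj d) (Y ◁ st.map (stgTo w n))) :
    L.Bij (c.obj d) (Y ◁ st.map (stgTo w m)) := by
  induction n, l using Nat.le_induction with
  | base => exact k
  | succ n l ih =>
    refine ih (fun j a b => h j a (by omega)) ?_
    obtain ⟨r, -, hr⟩ := exists_cok_stgI x (Nat.card_fin (n + 1)) (isOrb_DP (n + 1) (X ⊗ S M))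
    rw [← stgI_stgTo, st.map_comp, MonoidalCategory.whiskerLeft_comp]
    exact L.Bij.comp ((H.cok (hCof_stgI x n) hr).tEq ((tConn_empty_left (h _ (by omega) le_rfl)
      _).of_iso (Functor.Monoidal.μIso st _ _)) Y d) k

end general

variable {C : Type u'} [Category.{v'} C] [Preadditive C] [MonoidalCategory C] [SymmetricCategory C]
  [MonoidalPreadditive C] {st : MM ⥤ C} [st.Monoidal] {c : Cells C (ℤ × Gam)} {τ : TCone c} {p : ℕ}

namespace World

variable (H : World st c τ p) {X Y : MM} {g : Gam} {a : Lam} {k W P : ℤ} {B B' : CommMon MM}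
  {i : B ⟶ B'} {x : X ⟶ B.X} {χ : X ⊗ CI MM ⟶ B'.X}
include H

omit [SymmetricCategory C] [MonoidalPreadditive C] in
theorem deg_left {A A' : MM} {f : A ⟶ A'} (h : DegIso O {g} (Y ◁ f)) (k : ℤ) :
    L.Bij (c.obj (k, g)) (st.obj Y ◁ st.map f) :=
  (H.deg h k).of_arrow (Functor.Monoidal.μIso st _ _).symm (Functor.Monoidal.μIso st _ _).symm
    (Functor.OplaxMonoidal.δ_natural_right st Y f).symm

omit [SymmetricCategory C] [MonoidalPreadditive C] [st.Monoidal] in
theorem neg (h : PosT X 0) (a : Lam) : Neg c (st.obj X) a := fun l T hT y => by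
  have hf : DegIso O {((a, T) : Gam)} (0 : X ⟶ X) :=
    have k : Supp X {((a, T) : Gam)}ᶜ := Supp.mono h fun g hg e => by
      rw [Set.mem_singleton_iff.1 e] at hg
      exact not_le.2 hT hg
    DegIso.of_supp _ k k
  refine (H.deg hf l).inj ?_
  rw [H.real.loc.zero, comp_zero, comp_zero]

omit [SymmetricCategory C] [MonoidalPreadditive C] in
theorem neg_left (hY : PosT Y 0) (h : PosT X 0) (a : Lam) : Neg c (st.obj Y ⊗ st.obj X) a :=
  (H.neg (posT_tensor hY h) a).of_iso (Functor.Monoidal.μIso st _ _).symm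

/-- An odd cell of positive filtration degree is attached linearly, with coefficients. -/
theorem bij_c1_left (h : IsAttach i x χ) (hv : HV X) (hY : PosT Y 0) (hB : PosT B.X 0)
    (hX : PosT X 1) (e : Nonempty (st.obj X ≅ c.obj (k, g))) (hk : Even k) (l : ℤ) (a : Lam)
    {T : ℤ} (hT : T < p) : L.Bij (c.obj (l, (a, T))) (st.obj Y ◁ st.map (c1 h.w)) := by
  obtain ⟨e⟩ := H.susp e
  obtain ⟨j, hj⟩ := exists_iso_c1 h.w
  have := H.two
  rw [← hj, st.map_comp, MonoidalCategory.whiskerLeft_comp]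
  exact (L.Bij.of_isIso _ _).comp (H.real.bij_stgTo_left h.w (n := p - 1) (by omega)
    (fun j a b => H.d2 hv e hk.add_one a (by omega))
    (H.deg_left ((degIso_stgTo_left wT_mono h hY hB hX (p - 1)).mono
      (Set.singleton_subset_iff.2 (show T ≤ _ by omega))) l))

theorem van_c1_left (h : IsAttach i x χ) (hv : HV X) (hY : PosT Y 0) (hB : PosT B.X 0)
    (hX : PosT X 1) (e : Nonempty (st.obj X ≅ c.obj (k, g))) (hk : Even k) (l : ℤ) (a : Lam)
    {T : ℤ} (hT : T < p) : c.Van (st.obj Y ⊗ st.obj (cone (c1 h.w))) (l, (a, T)) :=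
  (H.real.cone (isPushout_cone _)).van _ _ _
    (Surj.of_bijective (H.bij_c1_left h hv hY hB hX e hk _ a hT))
    (Inj.of_bijective (H.bij_c1_left h hv hY hB hX e hk _ a hT))

/-- the cone of the multiplication by a class -/
theorem stab_cone {f : ℕ} {Z : C} (hX : Nonempty (st.obj X ≅ c.obj (k, (a, f)))) (x : X ⟶ B.X)
    (h0 : ∀ b, Neg c (Z ⊗ st.obj B.X) b) (h : ∀ b, Stab τ P (Z ⊗ st.obj B.X) b W) (b : Lam) :
    Stab τ P (Z ⊗ st.obj (cone (actL x))) b (W + f) := by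
  obtain ⟨e⟩ := H.susp hX
  obtain ⟨s⟩ := H.real.sph
  obtain ⟨q, hq⟩ := H.real.loc.tri_pushout (isPushout_cone (actL x))
  have k1 := (IsCone.of_tri s (H.real.loc.triStr.rot hq)).whiskerLeft Z
  refine Stab.cone k1 ((h b).mono (le_add_of_nonneg_right (Int.natCast_nonneg f))) ?_
  refine (Stab.tensor (g := a) (h0 _) (h _) (((Cells.TConn.cell _).of_iso e.symm).mono ?_)).of_iso
    (α_ _ _ _ ≪≫ whiskerLeftIso Z (whiskerLeftIso _ (Functor.Monoidal.μIso st _ _).symm ≪≫
      (α_ _ _ _).symm ≪≫ whiskerRightIso (Functor.Monoidal.μIso st _ _) _))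
  rintro _ rfl
  exact ⟨rfl, Int.natCast_nonneg f, Or.inl le_rfl⟩

/-- An odd cell of filtration degree `f` shortens the window by `f`. -/
theorem stab_odd {f : ℕ} (hP : P < p) (att : IsAttach i x χ) (hX : NF X (a, f) k) (hk : Even k)
    (hf : 1 ≤ f) (hY : PosT Y 0) (hB : PosT B.X 0)
    (h : ∀ b, Stab τ P (st.obj Y ⊗ st.obj B.X) b W) (b : Lam) :
    Stab τ P (st.obj Y ⊗ st.obj B'.X) b (W + f) :=
  Stab.cone ((H.real.cone (isPushout_cone (c1 att.w))).whiskerLeft _)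
    (H.stab_cone (H.nf hX) x (H.neg_left hY hB) h b)
    (Stab.of_van fun l _ hT => H.van_c1_left att (nf_hv hX) hY hB
      (nf_posT hX (Int.ofNat_le.2 hf)) (H.nf hX) hk l b (hT.trans_lt hP))

end World

/-- the cell number `i` is an odd cell of filtration degree `w i ≥ 1` -/
def OddCells (ok : ℕ → MM → Prop) (w : ℕ → ℕ) : Prop :=
  ∀ i X, ok i X → 1 ≤ w i ∧ ∃ (a : Lam) (k : ℤ), NF X (a, w i) k ∧ Even k

variable {ok : ℕ → MM → Prop} {w : ℕ → ℕ} {T0 T : CommMon MM} {i : ℕ} {Y : MM} {P W : ℤ}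

theorem OddCells.posT (h : OddCells ok w) (tc : TC ok T0 i T) (h0 : PosT T0.X 0) : PosT T.X 0 := by
  induction tc with
  | nil => exact h0
  | cons _ s k ih =>
    obtain ⟨-, a, l, h1, -⟩ := h _ _ k
    exact posT_attach s.att ih (nf_posT h1 (Int.natCast_nonneg _))

theorem World.stab_tc_left (H : World st c τ p) (hP : P < p) (h : OddCells ok w)
    (tc : TC ok T0 i T) (hY : PosT Y 0) (h0 : PosT T0.X 0)
    (h1 : ∀ b, Stab τ P (st.obj Y ⊗ st.obj T0.X) b W) (b : Lam) :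
    Stab τ P (st.obj Y ⊗ st.obj T.X) b (W + (∑ j ∈ Finset.range i, w j : ℕ)) := by
  induction tc generalizing b with
  | nil => simpa using h1 b
  | cons tc s k ih =>
    obtain ⟨k1, a, l, k2, k3⟩ := h _ _ k
    rw [Finset.sum_range_succ, Nat.cast_add, ← add_assoc]
    exact H.stab_odd hP s.att k2 k3 k1 hY (h.posT tc h0) ih b

theorem World.stab_tc (H : World st c τ p) (hP : P < p) (h : OddCells ok w)
    (tc : TC ok T0 i T) (h0 : PosT T0.X 0) (h1 : ∀ b, Stab τ P (st.obj T0.X) b W) (b : Lam) :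
    Stab τ P (st.obj T.X) b (W + (∑ j ∈ Finset.range i, w j : ℕ)) :=
  let e : ∀ X : MM, st.obj (𝟙_ MM) ⊗ st.obj X ≅ st.obj X := fun X =>
    Functor.Monoidal.μIso st _ _ ≪≫ st.mapIso (λ_ X)
  (H.stab_tc_left hP h tc posT_unit h0 (fun b => (h1 b).of_iso (e _).symm) b).of_iso (e _)

end Vale.Agent.P257.V
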