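import Vale.Agent.P257.W.PerX
import Vale.Agent.P257.W.Out
import Vale.Agent.P257.L.MStep

/-!
# P257, part W: detection along a chain of cells

* `Det0`, `DetV`, `DetS` : the attaching maps of a chain over `T0` are detected by the `v i`;
* `mTow_tc`, `cy_tc` : in every degree of the window the chain is a detected tower;
* `hasV_of_tc` : a detected chain of length `n + 1` gives `HasV`.
-/

open CategoryTheory MonoidalCategory Limits MonObj

universe w

namespace Vale.Agent.P257.W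

open Vale.Agent.P251 Vale.Agent.P251.H Vale.Agent.P251.H.StabInput Vale.Agent.P251.M
open K M D D.EF C A T L

section pointset

variable {X Y : MM} {T : CommMon MM}

@[reassoc]
theorem tX_nat (u : X ⟶ Y) (r : ℕ) : u ▷ _ ≫ tX Y r = tX X r ≫ u := by
  rw [tX, tX, ← whisker_exchange_assoc, rightUnitor_naturality, Category.assoc]

theorem whiskerLeft_tX (Y X : MM) (r : ℕ) : Y ◁ tX X r = (α_ _ _ _).inv ≫ tX (Y ⊗ X) r := by
  simp [tX]

/-- the class `un a · t ^ r` -/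
noncomputable abbrev ut (a : Lam) (r : ℕ) : rp (a, (r : ℤ)) ⟶ T0.X :=
  unG (a, (r : ℤ)) (Int.natCast_nonneg r)

/-- splitting off the filtration degree -/
noncomputable def rpT (a : Lam) (r : ℕ) : rp (a, 0) ⊗ rp (0, (r : ℤ)) ≅ rp (a, (r : ℤ)) :=
  rpAdd (by simp)

theorem ut_eq (a : Lam) (r : ℕ) : ut a r = (rpT a r).inv ≫ tX (rp (a, 0)) r ≫ un a := by
  have h : unG (0, (r : ℤ)) (Int.natCast_nonneg r) = t1 r ≫ η[T0.X] := by
    rw [← unG_zero]
    exact (tm_unG _ _).symm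
  rw [Iso.eq_inv_comp, rpT, ← unG_mul' _ le_rfl (Int.natCast_nonneg r), h, ← tX_nat, tX,
    MonoidalCategory.tensorHom_def, MonoidalCategory.whiskerLeft_comp, Category.assoc,
    Category.assoc, MonObj.mul_one]
  rfl

theorem actL_ut (φ : T0 ⟶ T) (a : Lam) (r : ℕ) : actL (ut a r ≫ ah φ) =
    (T.X ◁ (rpT a r).inv ≫ (α_ _ _ _).inv ≫ (perR φ a).hom ▷ _) ≫ tX T.X r := by
  rw [Category.assoc, Category.assoc, tX_nat, ← Category.assoc (α_ _ _ _).inv, ← whiskerLeft_tX,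
    perR_hom, actL, actL, ut_eq]
  simp only [MonoidalCategory.whiskerLeft_comp, Category.assoc]

theorem degIso_ut (h0 : Le0 Y) (h1 : Supp Y {g : Gam | g.1 = 0}) (a : Lam) (r : ℕ) :
    DegIso O {((a, r) : Gam)} (Y ◁ ut a r) := fun x hx => by
  have hx : x.deg = (a, (r : ℤ)) := hx
  have k1 : IsIso ((ev x).map (tX (Y ⊗ rp (a, 0)) r)) :=
    degIso_tX (h0.tensor (Le0.rp (g := (a, 0)) le_rfl)) r x (congrArg Prod.snd hx).ge
  have k2 : IsIso ((ev x).map (Y ◁ un a)) := degIso_whiskerLeft_un h1 a x (congrArg Prod.fst hx)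
  rw [ut_eq, MonoidalCategory.whiskerLeft_comp, MonoidalCategory.whiskerLeft_comp, whiskerLeft_tX]
  have : IsIso ((ev x).map (Y ◁ (rpT a r).inv ≫ ((α_ _ _ _).inv ≫ tX (Y ⊗ rp (a, 0)) r) ≫
      Y ◁ un a)) := by
    simp only [Functor.map_comp]
    infer_instance
  exact this

end pointset

variable {p : ℕ}

variable (p) in
/-- the cells of degree `g` -/
noncomputable def wTests (g : Gam) : Tests (SC.SS (De p)) := cellTests (cE p) (SIso p).symm (0, g)

theorem wTests_we {g : Gam} {X Y : EE p} {φ : X ⟶ Y} (h : ∀ k, Bij ((cE p).obj (k, g)) φ) :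
    (wTests p g).WE φ := cellTests_we _ _ fun k => by simpa using h k

theorem wTests_sm (g : Gam) : (wTests p g).Sm ((sE p).obj (rp g)) :=
  (cellTests_sm _ _ _).of_iso (rpIso p g)

instance (g : Gam) : IsInv ((sE p).obj (rp g)) := IsInv.of_iso (rpIso p g).symm

theorem bij_of_stab {Z : EE p} {a : Lam} {W r : ℤ} {f : ℕ} (h : V.Stab (tE p) r Z a W)
    (hf : W + f ≤ r) (k : ℤ) : Bij ((cE p).obj (k, (a, r))) (Z ◁ (sE p).map (t1 f)) :=
  V.bijective_of (h.inj f hf le_rfl) (h.surj f hf le_rfl)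

variable {R : EE p} {T T' : CommMon MM}

theorem we₂_ut (h0 : Le0 R.obj) (h1 : Supp R.obj {g : Gam | g.1 = 0}) (a : Lam) (r : ℕ) :
    (wTests p (a, r)).WE₂ R ((sE p).map (ut a r)) := by
  refine ⟨wTests_we fun k => ?_, wTests_we fun k => ?_⟩
  · exact Bij.of_arrow (bij_cell (degIso_ut Le0.unit (supp_rp 0) a r) k) ((sE p).mapIso (λ_ _))
      ((sE p).mapIso (λ_ _)) (((sE p).map_comp _ _).symm.trans
        ((congrArg _ (leftUnitor_naturality _)).trans ((sE p).map_comp _ _)))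
  · have := bij_cell (p := p) (degIso_ut h0 h1 a r) k
    rwa [SC.st_whiskerLeft] at this

variable [MonObj R]

theorem we₂_actL (φ : T0 ⟶ T) {a : Lam} {W r : ℤ} {f : ℕ}
    (h : V.Stab (tE p) r ((sE p).obj T.X) a W) (h' : V.Stab (tE p) r (R ⊗ (sE p).obj T.X) a W)
    (hf : W + f ≤ r) (b : Lam) :
    (wTests p (a, r)).WE₂ R ((sE p).map (actL (ut b f ≫ ah φ))) := by
  rw [actL_ut, Functor.map_comp, tX, (sE p).map_comp (T.X ◁ t1 f), SC.st_whiskerLeft T.X (t1 f)]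
  refine (Tests.WE₂.of_isIso _).comp (Tests.WE₂.comp ⟨wTests_we (bij_of_stab h hf),
    (wTests_we (bij_of_stab h' hf)).of_arrow (α_ _ _ _) (α_ _ _ _)
      (associator_naturality_right _ _ _)⟩ (.of_isIso _))

variable {A₀ : Type w} [CommRing A₀] {G : RegSeq p A₀}
  (Q : Coef (SC.sph (De p)) R G)

/-- `v` is `p · un a · t ^ r` up to an isomorphism of the source -/
def Det0 (φ : T0 ⟶ T) (a : Lam) (r : ℕ) {X : EE p} (v : X ⟶ (sE p).obj T.X) : Prop :=
  ∃ e : X ≅ (sE p).obj (rp (a, (r : ℤ))), v = (p : ℤ) • (e.hom ≫ (sE p).map (ut a r ≫ ah φ))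

/-- the image of `v` in `R ⊗ T` is `v_h · un a · t ^ r` -/
def DetV (h : ℕ) (φ : T0 ⟶ T) (a : Lam) (r : ℕ) {X : EE p} (v : X ⟶ (sE p).obj T.X) : Prop :=
  ∃ (e : X ≅ (SC.sph (De p)).obj (2 * ((p : ℤ) ^ h - 1)) ⊗ (sE p).obj (rp (a, (r : ℤ))))
    (x : (SC.sph (De p)).obj (2 * ((p : ℤ) ^ h - 1)) ⟶ R), Q.IsV h x ∧
      (λ_ _).inv ≫ (η[R] ⊗ₘ v) = e.hom ≫ (x ⊗ₘ (sE p).map (ut a r ≫ ah φ))

/-- the cell number `i` has degree `(a i, w i)` and is detected -/
def DetS (a : ℕ → Lam) (w : ℕ → ℕ) :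
    ∀ (_ : ℕ) (T T' : CommMon MM), (T0 ⟶ T) → TStep T T' → Prop
  | 0, _, _, φ, s => Det0 φ (a 0) (w 0) ((sE p).map s.v)
  | i + 1, _, _, φ, s => DetV Q (i + 1) φ (a (i + 1)) (w (i + 1)) ((sE p).map s.v)

variable {Q} {ok : ℕ → MM → Prop} {a : ℕ → Lam} {w : ℕ → ℕ} (hp : p.Prime) (h0 : Le0 R.obj)
  (h1 : Supp R.obj {g : Gam | g.1 = 0}) (h2 : PosT R.obj 0) (h : V.OddCells ok w)
include hp h0 h1 h2 h

theorem mTow_aux {i : ℕ} (tc : TC ok T0 i T) (hd : tc.All (DetS Q a w)) (b : Lam) {r : ℕ}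
    (hr : ∑ j ∈ Finset.range i, w j ≤ r) (hr' : r < p) :
    (i = 0 → (wTests p (b, r)).WE₂ R ((sE p).map (ut b r ≫ ah tc.i0))) ∧
    (i ≠ 0 → MTow Q (scTri _) (wTests p (b, r)) _ i ((sE p).map (ut b r ≫ ah tc.i0))) := by
  induction tc with
  | nil => exact ⟨fun _ => by simpa [TC.i0] using we₂_ut h0 h1 b r, fun k => (k rfl).elim⟩
  | @cons i T T' tc s k ih =>
    refine ⟨fun k => by omega, fun _ => ?_⟩
    rw [Finset.sum_range_succ] at hr
    have H := worldE hp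
    have hr'' : (r : ℤ) < p := by exact_mod_cast hr'
    obtain ⟨k1, a', l, k2, k3⟩ := h _ _ k
    have hT := h.posT tc posT_T0
    have hj := we₂_actL (R := R) (f := w i) tc.i0
      (H.stab_tc hr'' h tc posT_T0 (stab_of_le0 le0_T0 r) b)
      (H.stab_tc_left hr'' h tc h2 posT_T0 (stab_tensor_of_le0 h0 le0_T0 r) b)
      (by rw [zero_add]; exact_mod_cast hr) (a i)
    have hc := scTri_cone (De p) (isCone_cone (actL s.v))
    rw [actL, Functor.map_comp, SC.st_whiskerLeft] at hj hc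
    have hX := V.nf_posT k2 (Int.ofNat_le.2 k1)
    have e : (sE p).map (ut b r ≫ ah (tc.i0 ≫ s.i)) = ((sE p).map (ut b r ≫ ah tc.i0) ≫
        (sE p).map (ci (actL s.v))) ≫ (sE p).map (c1 s.att.w) := by
      rw [← Functor.map_comp, ← Functor.map_comp, Category.assoc, ci_c1, ah_comp, Category.assoc]
    refine e ▸ MTow.comp ?_ _
      ⟨wTests_we fun m => H.bij_c1 s.att k2.hv hT hX (H.nf k2) k3 m b hr'',
        wTests_we fun m => H.bij_c1_left s.att k2.hv h2 hT hX (H.nf k2) k3 m b hr''⟩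
    obtain ⟨i1, i2⟩ := ih hd.1 (by omega)
    cases i with
    | zero =>
      obtain ⟨e, he⟩ := hd.2
      exact MTow.first (wTests_sm _) hj hc (i1 rfl) e he
    | succ i =>
      obtain ⟨e, x, hx, he⟩ := hd.2
      exact MTow.step (wTests_sm _) hj hc (SC.sphOne _) hp (i2 i.succ_ne_zero) (Iso.refl _) e hx he

variable {i : ℕ} (tc : TC ok T0 (i + 1) T) (hd : tc.All (DetS Q a w)) (b : Lam) {r : ℕ}
  (hr : ∑ j ∈ Finset.range (i + 1), w j ≤ r) (hr' : r < p)
include hd hr hr'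

theorem mTow_tc :
    MTow Q (scTri _) (wTests p (b, r)) _ (i + 1) ((sE p).map (ut b r ≫ ah tc.i0)) :=
  (mTow_aux hp h0 h1 h2 h tc hd b hr hr').2 i.succ_ne_zero

/-- **DET-T.** The `R`-homology of a detected chain. -/
theorem cy_tc : Cy Q (i + 1) ((sE p).map (ut b r ≫ ah tc.i0)) :=
  ((mTow_tc hp h0 h1 h2 h tc hd b hr hr').cy (SC.sphOne _) (wTests_sm _) hp).2

/-- **OUT.** A detected chain gives Smith-Toda complexes. -/
theorem hasV_of_tc (hp2 : p ≠ 2) (hK : Thom R (scMod (De p))) {T : St.SHCat} (σ : St.Susp T) :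
    P257.St.HasV σ p i :=
  have : IsInv ((sE p).obj (rp (0, (r : ℤ)))) := inferInstance
  hasV_of_wTow_sc (n₀ := E.n0 p) hp hp2 (fun _ k l => (Smooth.of_lt k l).dvd_pow) rfl
    (wTests p (0, r)) (wTests_sm _) (MTow.wTow (K := scMod (De p)) (SC.sphOne _) (wTests_sm _) hp hK
      (mTow_tc hp h0 h1 h2 h tc hd 0 hr hr')) σ

end Vale.Agent.P257.W
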