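import Vale.Agent.P257.W.Glue2
import Vale.Agent.P257.W.Rerep
import Vale.Agent.P257.W.Muw
import Vale.Agent.P257.W.Le0
import Vale.Agent.P257.M.State
import Vale.Agent.P257.Z.Inst

/-!
# P257, part W: the class constructed in the inductive step is detected
-/

open CategoryTheory MonoidalCategory Limits Functor.LaxMonoidal Functor.OplaxMonoidal

namespace Vale.Agent.P257.W

open Vale.Agent.P251.H Vale.Agent.P251.H.StabInput
open K M D D.EF C A T L N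
open Vale.Agent.P257.E (triv JA)
open Vale.Agent.P257.F (DH sH RH)
open Equiv (Perm)

universe w

variable {p lam m : ℕ}

theorem van_of_gp {P Lm : ℕ} {hp : 0 < p} {X : MM} {W N l T : ℤ}
    (h : V.GP (sE p) (tE p) (V.par p P Lm hp) X W N) (hL : p * 2 ^ m ≤ Lm) (h1 : W ≤ T)
    (h2 : T ≤ P) (hN : 3 * 2 ^ m + N + 1 < 2 * p) (hl : l ≤ p * (dd p m - 1) + 1) :
    (cE p).Van ((sE p).obj X) (l, (p • ee m, T)) := by
  refine h.prof.van ?_ h1 h2 ?_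
  · change ell (p • ee m) ≤ (Lm : ℤ)
    rw [map_nsmul, ell_ee, nsmul_eq_mul]
    exact_mod_cast hL
  · change p * l < bd p (p • ee m) - p * N
    rw [map_nsmul, bd_apply, ell_ee, sz_ee, DD_ee, nsmul_eq_mul, ← mul_sub]
    exact mul_lt_mul_of_pos_left (by linarith) (by exact_mod_cast hp)

variable {ι : Type} [Finite ι] [DecidableEq ι] [Nontrivial ι] [hp : Fact p.Prime]
  [hι : Fact (Nat.card ι = p)]
  {C : CommMon MM} [MonObj ((sE p).obj C.X)] {A₀ : Type w} [CommRing A₀] {G : RegSeq p A₀}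
  {Q : Coef (SC.sph (De p)) ((sE p).obj C.X) G} {T T' A R B : CommMon MM}
  {P Lm WB WN : ℕ} {NB NN WZ : ℤ}

/-- **Detection of the quotient of the Frobenius.** -/
theorem det_next (h0 : Le0 C.X) (h1 : Supp C.X {g : Gam | g.1 = 0})
    (hC : V.GP (sE p) (tE p) (V.par p P Lm hp.out.pos) C.X 0 0)
    (hη : MonObj.one (X := (sE p).obj C.X) = (sE p).map (MonObj.one (X := C.X)))
    (hV : Q.IsV 0 ((p : ℤ) • MonObj.one (X := (sE p).obj C.X)))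
    (hdet : ∀ X, NF X (ee m, 0) (dd p m - 1) →
      DetK p ι (cinl C T0) (IsVP Q m (ee m)) (IsVP Q (m + 1) (p • ee m)) X)
    (h3 : 3 ≤ p) (hlam : 2 ≤ lam) (hl : lam ≤ Nat.card ι) (hP : P < p) (hL : Lm < p ^ 2)
    (hw : lam ^ (m + 1) ≤ P) (hLm : p * 2 ^ m ≤ Lm) (hB : WB + WZ ≤ lam ^ (m + 1))
    (hT : Wt lam (m + 1) + WZ ≤ lam ^ (m + 1)) (hZ : 0 ≤ WZ) (hN : WN ≤ lam ^ (m + 1))
    (hNN : 4 * 2 ^ m + NN < 2 * p)
    (tc : TC (okT p lam) T0 m T) (hd : tc.All (DetS Q ee (lam ^ ·))) (s : TStep T T')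
    (hok : okT p lam m s.X) (hs : DetS Q ee (lam ^ ·) m T T' tc.i0 s) {sp0 : A ⟶ T0} {sp : R ⟶ T}
    (c : RC A sp0 tc R sp) (hA : Good A) {sp' : B ⟶ T'} (r : RStep s sp sp')
    (nz : NZ (SM ι) B) (hU : UN p P Lm nz WZ) {uB : CommMon.trivial MM ⟶ B}
    (pB : V.UP (sE p) (tE p) (V.par p P Lm hp.out.pos) uB WB NB) {uN : CommMon.trivial MM ⟶ nz.N}
    (pN : V.UP (sE p) (tE p) (V.par p P Lm hp.out.pos) uN WN NN) (F : R ⟶ FrC ι lam nz.Z)
    (hF : FrobOn hl hA.le0 c.i0 (trivMap _ (c.i0 ≫ r.i) ≫ nz.γ) F) (fold : nz.N ⟶ T')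
    (hfold : nz.β ≫ fold = sp') {cc : O} {n : ℕ} (hc : Nonempty cc.El)
    (hn : (n : ℤ) = Fintype.card cc.El + (dd p m - 1))
    (e : s.X ≅ rep (⟨cc, (ee m, ((lam ^ m : ℕ) : ℤ))⟩ : JG) ⊗ tpow (S MM) n) {W : SC (DH ι p)}
    {f : (sH ι p).obj ((FrL (Perm ι) ι lam).obj s.X) ⟶ W} (ef : Eu (aH ι (DH ι p)) (n + 2) f)
    {q : W ⟶ (sH ι p).obj nz.Z.X} (hq : f ≫ q = (sH ι p).map (frV F r.v)) {Y : EE p}
    (c' : Y ≅ (cE p).obj (dd p (m + 1) - 1, (p • ee m, ((lam ^ (m + 1) : ℕ) : ℤ))))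
    (t : (kT ι p).obj Y ≅ (Kl.ks _).obj W) {y : Y ⟶ (sE p).obj nz.N.X}
    (ht : (kT ι p).map y ≫ kφ p nz.φ = t.hom ≫ (Kl.ks _).map q) :
    DetV Q (m + 1) (tc.i0 ≫ s.i) (p • ee m) (lam ^ (m + 1)) (y ≫ (sE p).map (ah fold)) := by
  have Cx : CX ι p := Z.ctx iG p ι
  have h3' : 3 ≤ Nat.card ι := hι.out.symm ▸ h3
  have hB' : WB + WZ ≤ (lam * lam ^ m : ℕ) := by rw [← pow_succ']; exact_mod_cast hB
  have hT' : Wt lam (m + 1) + WZ ≤ (lam * lam ^ m : ℕ) := by rw [← pow_succ']; exact_mod_cast hT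
  rw [pow_succ'] at hw hN c' ⊢
  have hw' : ((lam * lam ^ m : ℕ) : ℤ) ≤ P := Int.ofNat_le.2 hw
  have hN' : (WN : ℤ) ≤ (lam * lam ^ m : ℕ) := Int.ofNat_le.2 hN
  have hr : lam ^ m ≤ lam * lam ^ m := Nat.le_mul_of_pos_left _ (by omega)
  have hb : ell (p • ee m) ≤ (Lm : ℤ) := by
    rw [map_nsmul, ell_ee, nsmul_eq_mul]
    exact_mod_cast hLm
  obtain ⟨A₁, R₁, B₁, κ, σ₀, fA, i, g, j, g', σ, X₀, ξ, ε, hA₁, hκ, po, hj, hσ, hφ, ⟨χ, att⟩, ex,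
    -, hξ, hvp⟩ := exists_muw hp.out h0 h1 hC.posT hη hV hlam (by omega) tc hd s hok hs c hA r
  obtain ⟨a₁, k₁, po₁⟩ := hU.ex (cinr C B ≫ g')
  obtain ⟨a₂, k₂, po₂⟩ := (hU.bc po₁).ex σ
  have gB₁ := gp_muw hp.out hL (by omega) hC pB ex (β := 𝟙 B) (β₁ := 𝟙 B₁) (n := cinr C B ≫ g')
    (IsPushout.of_horiz_isIso ⟨by rw [Category.id_comp, Category.comp_id]⟩)
  have gN₁ := gp_muw hp.out hL (by omega) hC pN ex po₁.1
  have G₁ := (hU.bc po₁).gd gB₁.posT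
  have G₂ := ((hU.bc po₁).bc po₂).gd (by
    simpa using V.posT_tensor hC.posT (TC.posT (tc.cons s hok) posT_T0))
  obtain ⟨F₁, hF₁, hF'⟩ := hF.bc hA₁.le0 po (z := k₁.z) (γ' := trivMap _ (i ≫ j) ≫ a₁.γ) (by
    rw [Category.assoc, k₁.hγ, ← Category.assoc, ← Category.assoc, ← trivMap_comp, ← trivMap_comp,
      Category.assoc, hj, reassoc_of% po.w])
  obtain ⟨X', ξ', δ, u, U, j', e', d, f', hX', hδ, -, hu, ed, ef', hU', hf'⟩ :=
    exists_rerep hF₁ hc hn e (r.v ≫ ah g) ξ ε hξ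
  have k0 : ((2 ^ m - 1 : ℕ) : ℤ) = 2 ^ m - 1 := by
    rw [Nat.cast_sub Nat.one_le_two_pow, Nat.cast_pow, Nat.cast_two, Nat.cast_one]
  obtain ⟨Y', x, ε', hx, hy⟩ := glue3 Cx h3' hκ (j := i ≫ j) ((Category.assoc _ _ _).trans hφ) k₂
    hX' (even_dd p m) (hdet _ hX') (ξ := ξ') (by
      rw [Functor.map_comp, hδ, Category.assoc, ← Functor.map_comp]
      exact hvp.iso δ) hr (by
      rw [ah_comp, ← Category.assoc ξ', ← Category.assoc, Functor.map_comp, hu, ← Functor.map_comp,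
        Category.assoc, ← att.w, Functor.map_comp, st_cone_zero, comp_zero])
    ed hU' ((ef'.comp ef).cast (add_assoc _ _ _).symm) (q := q ≫ (sH ι p).map (ah k₁.z)) (by
      rw [Category.assoc, reassoc_of% hq, ← Functor.map_comp, ← frV_nat hF', hf'])
    (G₁.iso _ _ hw') (G₁.tw _ (fun b k => (gB₁.prof b k).stab) _ _ hb hB' hw')
    (fun l k => van_of_gp gN₁ hLm hN' hw' (by omega) k) (G₂.iso _ _ hw')
    (G₂.tw _ (fun b _ => (worldE hp.out).stab_tc_le0_left (Int.ofNat_lt.2 hP)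
      (oddCells_okT (by omega)) (tc.cons s hok) hC.posT h0 posT_T0 le0_T0 b) _ _ hb hT' hw')
    (fun l k x hx => tf_susp Q h0 h1 (r := 0) k x hx) c'
    t (kφ_push k₁ ht)
  have po₃ := (po₁.comp po₂).1
  have w : nz.β ≫ fold ≫ cinr C T' = ((cinr C B ≫ g') ≫ σ) ≫ 𝟙 _ := by
    rw [reassoc_of% hfold, Category.comp_id, Category.assoc, hσ, cinr_cwl]
  have e1 : (k₁.n ≫ k₂.n) ≫ po₃.desc _ _ w = fold ≫ cinr C T' := po₃.inl_desc _ _ w
  have e2 : a₂.β ≫ po₃.desc _ _ w = 𝟙 _ := po₃.inr_desc _ _ w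
  refine detV_of_isVP hη c' hx ε' ?_
  have k1 := congrArg (· ≫ (sE p).map (ah (po₃.desc _ _ w))) hy
  beta_reduce at k1
  rw [Category.assoc _ ((sE p).map (ah a₂.β)), ← Functor.map_comp _ (ah a₂.β), ← ah_comp, e2, ah_id,
    CategoryTheory.Functor.map_id, Category.comp_id, Category.assoc, Category.assoc,
    ← Functor.map_comp, ← Functor.map_comp, ← ah_comp, ← ah_comp, ← Category.assoc k₁.n, e1,
    ah_comp, Functor.map_comp, ← Category.assoc] at k1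
  exact k1

/-- **GLUE** -/
theorem glue {p n lam : ℕ} [hp : Fact p.Prime] {hl : lam ≤ Nat.card (Fin p)} {A₀ : Type}
    [CommRing A₀] {G : RegSeq p A₀} {Q : Coef (SC.sph (De p)) ((sE p).obj MG.X) G}
    (h : Num p n lam) (D : IsMU Q) : Glue (Fin p) n lam hl Q := by
  intro j hj σ hd c m hc hm e V f ef g hg Y c' t y ht
  have : Nontrivial (Fin p) := Fin.nontrivial_iff_two_le.2 hp.out.two_le
  have h1 := h.Wt_le (j + 1)
  have h2 := h.top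
  have h3 := h.big
  have h4 : 2 ^ j ≤ 2 ^ n := Nat.pow_le_pow_right two_pos hj.le
  have h5 : (2 ^ n + 1) * Wt lam (j + 1) + Wt lam (j + 1) ≤ lam ^ (j + 1) := by linarith
  have h6 : Wt lam (j + 1) + Wt lam (j + 1) ≤ lam ^ (j + 1) :=
    (Nat.add_le_add_right (Nat.le_mul_of_pos_left _ (Nat.succ_pos _)) _).trans h5
  have h7 : 4 * 2 ^ j + 2 ^ (j + 1) < 2 * p := by have := h.three_le; omega
  exact det_next le0_MG wt_MG ⟨posT_MG, posL_MG, D.prof _ _ _⟩ (one_MG p) D.isV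
    (fun X k => D.det j _ X (by rwa [show 2 * ((p : ℤ) ^ j - 1) = dd p j - 1 by rw [dd]; ring]))
    h.three_le h.two_le hl (by omega) h.lm_lt (h.pow_le (by omega)) (Nat.mul_le_mul_left _ h4)
    (by exact_mod_cast h5) (by exact_mod_cast h6) (Int.natCast_nonneg _) h1.le
    (by exact_mod_cast h7) σ.tc hd.1 σ.s σ.hs hd.2 σ.c σ.good σ.r σ.nz σ.un σ.upB σ.upN σ.Fr σ.hFr
    σ.fold σ.hfold hc hm e ef hg c' t ht

end Vale.Agent.P257.W
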