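import Vale.Agent.P257.V.Inst

/-!
# P257, part W: the cones of the powers of `t` and the profile of the unit

* `realE`, `tE p`, `worldE`;
* the negative homotopy groups of the unit vanish;
* `prof_unit`.
-/

open CategoryTheory MonoidalCategory Limits Functor.LaxMonoidal Functor.OplaxMonoidal

universe v u

namespace Vale.Agent.P257.W

open Vale.Agent.P251 Vale.Agent.P251.G Vale.Agent.P251.H Vale.Agent.P251.H.StabInput
open K M D D.EF C
open E (n0)

variable {p : ℕ}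

variable (p) in
theorem realE : V.Real (sE p) (cE p) := ⟨L.scLoc _, ⟨SIso p⟩⟩

variable (p) in
/-- the powers of `t` with their cones -/
noncomputable def tE : V.TCone (cE p) where
  R f := (sE p).obj (rp (0, (f : ℤ)))
  e _ := rpIso p _
  t f := (sE p).map (t1 f)
  K f := (sE p).obj (cone (t1 f))
  cone f := (realE p).cone (isPushout_cone (t1 f))

theorem tE_R (f : ℕ) : (tE p).R f = (sE p).obj (rp (0, (f : ℤ))) := rfl

theorem tE_t (f : ℕ) : (tE p).t f = (sE p).map (t1 f) := rfl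

theorem tE_K (f : ℕ) : (tE p).K f = (sE p).obj (cone (t1 f)) := rfl

theorem worldE (hp : p.Prime) : V.World (sE p) (cE p) (tE p) p :=
  V.worldE hp (fun _ => Iso.refl _) fun _ => Category.id_comp _

/-- spheres -/
noncomputable def sphLC : ∀ n : ℕ, LC.Sph n ≅ tpow LC.RR n
  | 0 => M.sphZeroIso
  | n + 1 => eqToIso (by rw [Nat.add_comm]) ≪≫ (LC.sphTensor 1 n).symm ≪≫ (M.lineSph ⊗ᵢ sphLC n)

variable (p) in
/-- spheres are cells -/
noncomputable def sphCell (n : ℕ) :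
    (sE p).obj ((J MM).obj (LC.Sph n)) ≅ (cE p).obj ((n : ℤ), 0) :=
  (sE p).mapIso ((J MM).mapIso (sphLC n) ≪≫ tpowMap (J MM) _ n) ≪≫ tpowMap (sE p) _ n ≪≫
    tpowCell (cE p) (SIso p) n ≪≫ eqToIso (by simp)

theorem sph_lt {j m : ℕ} (h : j < m)
    (g : (sE p).obj ((J MM).obj (LC.Sph j)) ⟶ (sE p).obj ((J MM).obj (LC.Sph m))) : g = 0 := by
  have hc : (sE p).map (𝟙 _ ≫ (De p).lam) = (n0 p : ℤ) • (sE p).map (lamU MM) :=
    (congrArg _ (Category.id_comp _)).trans ((E.st_DE_lam _).trans (natCast_zsmul _ _).symm)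
  obtain ⟨k, f, hf⟩ := (L.scPLoc (De p)).full (e := 𝟙 _) hc
    ((sE p).mapIso (Iso.refl _)).isIso_hom g
  have h0 : (J MM ⋙ sE p).map ((LC.sphTensor j k).inv ≫ f ≫ (LC.sphTensor m k).hom) = 0 :=
    ((SC.sphFun (De p)).htpy (LC.homotopic_zero_of_lt (by omega) _)).trans
      ((SC.sphFun (De p)).zero _ _)
  rw [Functor.map_comp, Functor.map_comp, Preadditive.IsIso.comp_left_eq_zero,
    Preadditive.IsIso.comp_right_eq_zero] at h0
  have h1 : IsIso (((n0 p : ℤ) ^ k) • 𝟙 ((sE p).obj ((J MM).obj (LC.Sph j)) ⊗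
      (sE p).obj ((J MM).obj (LC.Sph k)))) :=
    isIso_zsmul_obj (L.isIso_zsmul_pow (isIso_n0 _) k) _
  rw [show (sE p).map ((J MM).map f) = 0 from h0, comp_zero, ← Category.id_comp (g ▷ _ ≫ _),
    ← Preadditive.zsmul_comp, eq_comm, Preadditive.IsIso.comp_left_eq_zero,
    Preadditive.IsIso.comp_right_eq_zero] at hf
  refine (V.cell_bijective (cE p) ((k : ℤ), 0) _ _).1 ?_
  beta_reduce
  rw [← cancel_epi (_ ◁ (sphCell p k).hom), MonoidalPreadditive.zero_whiskerRight, comp_zero,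
    whisker_exchange, hf, zero_comp]

/-- The homotopy groups of the unit vanish in negative dimensions. -/
theorem van_unit_neg {l : ℤ} (hl : l < 0) : (cE p).Van (𝟙_ (EE p)) (l, 0) := by
  obtain ⟨m, rfl⟩ := Int.exists_eq_neg_ofNat hl.le
  have h : (cE p).Van ((cE p).obj ((m : ℤ), 0)) (((0 : ℕ) : ℤ), 0) := fun f => by
    have := sph_lt (j := 0) (m := m) (by omega) ((sphCell p 0).hom ≫ f ≫ (sphCell p m).inv)
    rwa [Preadditive.IsIso.comp_left_eq_zero, Preadditive.IsIso.comp_right_eq_zero] at this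
  have := Cells.Van.tensor_iff.1 (h.of_iso (λ_ _).symm)
  simpa using this

theorem bij_t1 {f : ℕ} {T : ℤ} (h : (f : ℤ) ≤ T) (a : Lam) (l : ℤ) :
    Function.Bijective fun x : (cE p).obj (l, (a, T)) ⟶ (sE p).obj (rp (0, (f : ℤ))) =>
      x ≫ (sE p).map (t1 f) := by
  by_cases ha : a = 0
  · subst ha
    exact bij_cell' (degIso_tm _) (show ((0 : Lam), (f : ℤ)) ≤ (0, T) from ⟨le_rfl, h⟩) l
  · have h1 : ∀ g : ℤ, (cE p).Van ((sE p).obj (rp (0, g))) (l, (a, T)) := fun g =>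
      van_of_supp (NF0.rp (0, g)).supp (fun k => ha (Eq.symm k.1)) l
    exact ⟨fun x y _ => (h1 _ x).trans (h1 _ y).symm, fun x => ⟨0, (h1 0 _).trans (h1 0 x).symm⟩⟩

theorem van_K {f : ℕ} {T : ℤ} (h : (f : ℤ) ≤ T) (a : Lam) (l : ℤ) :
    (cE p).Van ((tE p).K f) (l, (a, T)) := (realE p).van_cone (bij_t1 h a) l

theorem van_unit {l T : ℤ} (hl : l < 0) (a : Lam) : (cE p).Van (𝟙_ (EE p)) (l, (a, T)) := by
  by_cases h : (0 : Gam) ≤ (a, T)
  · obtain ⟨h1, h2⟩ := h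
    obtain rfl : 0 = a := h1
    obtain ⟨f, rfl⟩ := Int.eq_ofNat_of_zero_le (show (0 : ℤ) ≤ T from h2)
    refine V.Surj.van (f := (sE p).map (t1 f)) (bij_t1 le_rfl 0 l).2 ?_
    refine (Cells.Van.tensor_iff.2 ?_).of_iso (λ_ _ ≪≫ (rpIso p _).symm)
    simpa using van_unit_neg hl
  · exact van_of_supp NF0.unit.supp h l

/-- The profile of the unit. -/
theorem prof_unit (P Lm : ℕ) (hp : 0 < p) :
    V.Prof (tE p) (V.par p P Lm hp) ((sE p).obj (𝟙_ MM)) 0 0 :=
  V.Prof.unit (fun l _ _ h => van_of_supp NF0.unit.supp (fun k => h.elim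
    (fun h => h (Eq.symm k.1)) fun h => not_le.2 h k.2) l) (fun _ hl => van_unit hl 0)
    fun l _ _ h => van_K h 0 l

end Vale.Agent.P257.W
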