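import Vale.Agent.P257.W.DetMD

/-!
# P257, part W: transport of coefficients and of the detection property

* `Coef.comap`: the coefficients of a monoid along a fully faithful monoidal functor;
* `DetAt.lG`: the detection property in degree zero of the graded category.
-/

open CategoryTheory MonoidalCategory Functor.LaxMonoidal Functor.OplaxMonoidal

namespace Vale.Agent.P257.W

open K M D A T C
open E (triv JA Dh Rh Std mapA mapATriv)
open Equiv (Perm)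

universe v u v' u' w

section comap

variable {C : Type u} [Category.{v} C] [MonoidalCategory C]

theorem nonempty_cells_iso (c c' : Cells C ℤ) (e : c.obj 1 ≅ c'.obj 1) (k : ℤ) :
    Nonempty (c.obj k ≅ c'.obj k) := by
  induction k using Int.induction_on with
  | zero => exact ⟨c.zero.symm ≪≫ c'.zero⟩
  | succ n ih => exact ih.map fun i => (c.add _ _).symm ≪≫ (i ⊗ᵢ e) ≪≫ c'.add _ _
  | pred n ih =>
    exact ih.map fun i => (ρ_ _).symm ≪≫ whiskerLeftIso _ ((c'.inv' 1).symm ≪≫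
      whiskerRightIso e.symm _) ≪≫ (α_ _ _ _).symm ≪≫ whiskerRightIso (c.add _ _ ≪≫
        eqToIso (congrArg _ (sub_add_cancel _ _)) ≪≫ i) _ ≪≫ c'.add _ _ ≪≫
          eqToIso (congrArg _ (sub_eq_add_neg _ _).symm)

variable [Preadditive C] {C' : Type u'} [Category.{v'} C'] [MonoidalCategory C'] [Preadditive C']
  (F : C ⥤ C') [F.Full] [F.Faithful] [F.Additive] [F.Monoidal] {c : Cells C ℤ} {c' : Cells C' ℤ}
  (e : ∀ k, Nonempty (c'.obj k ≅ F.obj (c.obj k))) {R : C} [MonObj R] {R' : C'} [MonObj R']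
  (r : F.obj R ≅ R')
  (hr : μ F R R ≫ F.map MonObj.mul ≫ r.hom = (r.hom ⊗ₘ r.hom) ≫ MonObj.mul)
  {p : ℕ} {A : Type w} [CommRing A] {G : L.RegSeq p A}

/-- the coefficients along a fully faithful functor -/
def comapCoef (Q : L.Coef c' R' G) : L.Coef c R G where
  Cl n _ x a := Q.Cl n (F.map x ≫ r.hom) a
  iso i h := by
    rw [F.map_comp, Category.assoc]
    exact Q.iso (F.mapIso i) h
  deg h := Q.deg h
  lin n x x' := by
    obtain ⟨i⟩ := e (2 * n)
    obtain ⟨a, a', h⟩ := Q.lin n (i.hom ≫ F.map x ≫ r.hom) (i.hom ≫ F.map x' ≫ r.hom)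
    refine ⟨a, a', fun m m' => ?_⟩
    simpa [F.map_zsmul] using Q.iso i.symm (h m m')
  uniq h h' := Q.uniq h h'
  mul {n n' k P P' x x' a a'} h h1 h2 := by
    have := Q.iso (Functor.Monoidal.μIso F P P').symm (Q.mul h h1 h2)
    rwa [← tensorHom_comp_tensorHom_assoc, ← hr, μ_natural_assoc, Iso.symm_hom,
      Functor.Monoidal.μIso_inv, Functor.Monoidal.δ_μ_assoc, ← F.map_comp_assoc] at this
  eq_zero {n x} h := by
    obtain ⟨i⟩ := e (2 * n)
    have := Q.eq_zero (Q.iso i h)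
    rw [Preadditive.IsIso.comp_left_eq_zero, Preadditive.IsIso.comp_right_eq_zero] at this
    exact F.map_injective (this.trans (F.map_zero _ _).symm)
  occ {n a} h := by
    obtain ⟨i⟩ := e (2 * n)
    obtain ⟨x, hx⟩ := Q.occ h
    refine ⟨F.preimage (i.inv ≫ x ≫ r.inv), ?_⟩
    simpa using Q.iso i.symm hx
  odd_tf n x h := by
    obtain ⟨i⟩ := e (2 * n + 1)
    have := Q.odd_tf n (i.hom ≫ F.map x ≫ r.hom) (by
      rw [← Preadditive.comp_zsmul, ← Preadditive.zsmul_comp, ← F.map_zsmul, h]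
      simp)
    rw [Preadditive.IsIso.comp_left_eq_zero, Preadditive.IsIso.comp_right_eq_zero] at this
    exact F.map_injective (this.trans (F.map_zero _ _).symm)
  odd_div n x := by
    obtain ⟨i⟩ := e (2 * n + 1)
    obtain ⟨y, hy⟩ := Q.odd_div n (i.hom ≫ F.map x ≫ r.hom)
    refine ⟨F.preimage (i.inv ≫ y ≫ r.inv), F.map_injective ?_⟩
    rw [F.map_zsmul, F.map_preimage, ← Preadditive.comp_zsmul, ← Preadditive.zsmul_comp, ← hy]
    simp

theorem comapCoef_isV (Q : L.Coef c' R' G) (m : ℕ) {P : C} (x : P ⟶ R) :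
    (comapCoef F e r hr Q).IsV m x ↔ Q.IsV m (F.map x ≫ r.hom) := Iff.rfl

end comap

section strict

variable {H : Type u} [Category.{v} H] [MonoidalCategory H] {H' : Type u'} [Category.{v'} H']
  [MonoidalCategory H'] (L : H ⥤ H') [L.Monoidal]

@[reassoc]
theorem am_map {R W : H} {R' W' : H'} {a : 𝟙_ H ⟶ R} {a' : 𝟙_ H' ⟶ R'} (j : R' ⟶ L.obj R)
    (hj : a' ≫ j = ε L ≫ L.map a) (i : W' ⟶ L.obj W) :
    am a' W' ≫ (i ⊗ₘ j) ≫ μ L W R = i ≫ L.map (am a W) := by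
  have : L.map (am a W) = am (ε L ≫ L.map a) (L.obj W) ≫ μ L _ _ := by simp [am]
  rw [this, am_nat_assoc, ← hj, am, am, tensorHom_def']
  simp only [Category.assoc, MonoidalCategory.whiskerLeft_comp]

variable {M : Type u} [Category.{v} M] [MonoidalCategory M] [SymmetricCategory M]
  {N : Type u'} [Category.{v'} N] [MonoidalCategory N] [SymmetricCategory N] (F : M ⥤ N)
  [F.Braided] (G : Type) [Group G] (ι : Type) [Finite ι] [MulAction G ι] (B : CommMon M)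
  {X₀ : M} {X : N} (i : X ≅ F.obj X₀)

/-- the comparison of the powers -/
noncomputable def cmpP : (powG N G ι).obj X ≅ (mapA F G).obj ((powG M G ι).obj X₀) :=
  (powG N G ι).mapIso i ≪≫ asIso (powLax G ι F X₀)

/-- the comparison of the targets of the Thom classes -/
noncomputable def cmpT : (triv G).obj (big fun _ : ι => X) ⊗ (triv G).obj (F.obj B.X) ≅
    (mapA F G).obj ((triv G).obj (big fun _ : ι => X₀) ⊗ (triv G).obj B.X) :=
  (((triv G).mapIso ((pow ι).mapIso i ≪≫ @asIso _ _ _ _ (pwLax F ι X₀)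
    (isIso_laxBig F _)) ≪≫ (mapATriv G F _).symm) ⊗ᵢ
    (mapATriv G F _).symm) ≪≫ Functor.Monoidal.μIso (mapA F G) _ _

theorem cmpP_hom_hom : (cmpP F G ι i).hom.hom = pwM ι i.hom ≫ pwLax F ι X₀ := rfl

omit [MulAction G ι] in
theorem cmpT_hom_hom : (cmpT F G ι B i).hom.hom =
    (pwM ι i.hom ≫ pwLax F ι X₀) ▷ F.obj B.X ≫ μ F _ _ := by
  change (((pwM ι i.hom ≫ pwLax F ι X₀) ≫ 𝟙 _) ⊗ₘ 𝟙 _) ≫ μ F _ _ = _
  rw [Category.comp_id, tensorHom_id]

theorem cmp_one : ((ρ_ _).inv ≫ _ ◁ MonObj.one (X := (F.mapCommMon.obj B).X)) ≫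
    (cmpT F G ι B i).hom.hom =
      (cmpP F G ι i).hom.hom ≫ F.map ((ρ_ _).inv ≫ _ ◁ MonObj.one (X := B.X)) := by
  rw [cmpT_hom_hom, cmpP_hom_hom, ← tensorHom_id]
  exact am_map F (a := MonObj.one (X := B.X)) (𝟙 _) (Category.comp_id _) _

theorem cmp_big (x : X₀ ⟶ B.X) :
    (pwM ι i.hom ≫ pwLax F ι X₀) ≫ F.map (bigMap (fun _ : ι => x) ≫ bigMul ι B.X) =
      bigMap (fun _ : ι => i.hom ≫ F.map x) ≫ bigMul ι (F.mapCommMon.obj B).X := by
  rw [F.map_comp, Category.assoc, ← pwM_pwLax_assoc, bigMap_comp]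
  exact (congrArg (fun k => _ ≫ _ ≫ k) (pwLax_bigMul F B.X)).trans (Category.assoc _ _ _).symm

theorem cmp_norm (x : X₀ ⟶ B.X) :
    (cmpP F G ι i).hom ≫ (mapA F G).map ((powG M G ι).map x ≫ mulG G ι B.X) ≫
      (mapATriv G F B.X).hom =
    (powG N G ι).map (i.hom ≫ F.map x) ≫ mulG G ι (F.mapCommMon.obj B).X :=
  Action.hom_ext _ _ ((congrArg (_ ≫ ·) (Category.comp_id _)).trans (cmp_big F ι B i x))

omit [MulAction G ι] in
theorem cmp_mul (x : X₀ ⟶ B.X) :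
    (cmpT F G ι B i).hom ≫ (mapA F G).map ((triv G).map (bigMap (fun _ : ι => x) ≫
      bigMul ι B.X) ▷ (triv G).obj B.X ≫ mulT G B.X) ≫ (mapATriv G F B.X).hom =
    (triv G).map (bigMap (fun _ : ι => i.hom ≫ F.map x) ≫ bigMul ι (F.mapCommMon.obj B).X) ▷
      (triv G).obj (F.mapCommMon.obj B).X ≫ mulT G (F.mapCommMon.obj B).X := by
  refine Action.hom_ext _ _ ?_
  change (cmpT F G ι B i).hom.hom ≫ F.map ((bigMap (fun _ : ι => x) ≫ bigMul ι B.X) ▷ B.X ≫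
    𝟙 _ ≫ MonObj.mul) ≫ 𝟙 _ = (bigMap (fun _ : ι => i.hom ≫ F.map x) ≫
      bigMul ι (F.mapCommMon.obj B).X) ▷ F.obj B.X ≫ 𝟙 _ ≫ μ F _ _ ≫ F.map MonObj.mul
  rw [cmpT_hom_hom, ← cmp_big, Category.comp_id, Category.id_comp, Category.id_comp, F.map_comp,
    Category.assoc, ← μ_natural_left_assoc]
  exact (comp_whiskerRight_assoc _ _ _ _).symm

end strict

variable {p : ℕ} {ι : Type} [Finite ι] [Fact p.Prime] [Fact (Nat.card ι = p)]

theorem unt_lGJA : Z.unt ι (Z.pd ι) MM ≫ (lGJA (Perm ι) (Z.RA ι)).inv =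
    ε (lGA (Perm ι)) ≫ (lGA (Perm ι)).map (Z.unt ι (Z.pd ι) (EF O)) := by
  rw [Iso.comp_inv_eq, Z.unt, Z.unt, Functor.map_comp, Category.assoc, Category.assoc, lGJA_nat,
    lGJA_unit_assoc]

theorem eq_of_map {H : Type u} [Category.{v} H] [Preadditive H] {H' : Type u'} [Category.{v'} H']
    [Preadditive H'] (L : H ⥤ H') [L.Faithful] [L.Additive] {P T W Y : H} {P' T' W' Y' : H'}
    (a : P' ≅ L.obj P) (b : T' ≅ L.obj T) (c : W' ⟶ L.obj W) (t : L.obj Y ≅ Y') {α : P ⟶ W}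
    {α' : P' ⟶ W'} {N : P ⟶ Y} {N' : P' ⟶ Y'} {M : T ⟶ Y} {M' : T' ⟶ Y'} {u : P ⟶ T} {k : W ⟶ Y}
    (h1 : α' ≫ c = a.hom ≫ L.map α) (h2 : a.hom ≫ L.map N ≫ t.hom = N')
    (h3 : b.hom ≫ L.map M ≫ t.hom = M')
    (e : α' ≫ c ≫ L.map k ≫ t.hom = N' - (a.hom ≫ L.map u ≫ b.inv) ≫ M') :
    α ≫ k = N - u ≫ M := by
  refine L.map_injective ?_
  rw [← cancel_epi a.hom, ← cancel_mono t.hom]
  rw [reassoc_of% h1, ← h2, ← h3] at e
  simpa using e

theorem Rh_comp {A B : Action MM (Perm ι)} {X Y : SC (Dh (𝟭 O) p ι)}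
    (f : A ⟶ (lGA _).obj X.obj) (x : X ⟶ Y) (g : (lGA _).obj Y.obj ⟶ B) :
    ((Rh iG p ι).map ((st _).map f ≫ (lH p ι).map x ≫ (st _).map g)).hom =
      (sE p).map f.hom ≫ (lE p).map ((Rh (𝟭 O) p ι).map x).hom ≫ (sE p).map g.hom := by
  rw [Functor.map_comp, Functor.map_comp, Action.comp_hom, Action.comp_hom, Rh_lH,
    E.rsA_st_hom, E.rsA_st_hom]

omit [Fact p.Prime] [Fact (Nat.card ι = p)] in
theorem st_lH {A B : Action MM (Perm ι)} {X Y : Action (EF O) (Perm ι)}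
    (f : A ⟶ (lGA _).obj X) (x : X ⟶ Y) (g : (lGA _).obj Y ⟶ B) :
    (st (Dh iG p ι)).map f ≫ (lH p ι).map ((st _).map x) ≫ (st _).map g =
      (st _).map (f ≫ (lGA _).map x ≫ g) := by
  rw [lH_st, Functor.map_comp, Functor.map_comp]

/-- **Transport of the detection property.** -/
theorem DetAt.of_lG {B : CommMon (EF O)} {X₀ : EF O} {X : MM} (i : X ≅ lG.obj X₀)
    {V V' : ∀ {P : EE p}, (P ⟶ (sE p).obj (lG.obj B.X)) → Prop}
    (hV : ∀ {P P' : EE p} (e : P' ≅ P) (x : P ⟶ _), V x → V (e.hom ≫ x))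
    (hV' : ∀ {P P' : EE p} (e : P' ≅ P) (x : P ⟶ _), V' x → V' (e.hom ≫ x))
    (h : DetAt (𝟭 O) p ι B (fun x => V ((lE p).map x)) (fun x => V' ((lE p).map x)) X₀) :
    DetAt iG p ι (lG.mapCommMon.obj B) V V' X := by
  obtain ⟨u, hu, h⟩ := h
  let a := cmpP lG (Perm ι) ι i
  let b := cmpT lG (Perm ι) ι B i
  let t := mapATriv (Perm ι) lG B.X
  let j := (lGJA (Perm ι) (Z.RA ι)).symm
  let c := ((a ⊗ᵢ j) ≪≫ Functor.Monoidal.μIso (lGA _) _ _ ⊗ᵢ j) ≪≫
    Functor.Monoidal.μIso (lGA _) _ _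
  let s := st (Dh iG p ι)
  refine ⟨s.map a.hom ≫ (lH p ι).map u ≫ s.map b.inv, ?_, fun x k hx e => ?_⟩
  · refine (Rh_comp a.hom u b.inv).trans ((congrArg (fun z => _ ≫ (lE p).map z ≫ _) hu).trans ?_)
    refine (congrArg (fun z => _ ≫ z ≫ _) (lE_st p _)).trans ?_
    refine (congrArg (_ ≫ ·) ((sE p).map_comp _ _).symm).trans (((sE p).map_comp _ _).symm.trans
      (congrArg (sE p).map ((Category.assoc _ _ _).symm.trans ?_)))
    refine (congrArg (· ≫ _) (cmp_one lG (Perm ι) ι B i).symm).trans ?_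
    exact (Category.assoc _ _ _).trans ((congrArg (_ ≫ ·) (Action.hom_inv_hom b)).trans
      (Category.comp_id _))
  · obtain ⟨x, rfl⟩ : ∃ y : X₀ ⟶ B.X, i.hom ≫ lG.map y = x :=
      ⟨lG.preimage (i.inv ≫ x), (congrArg (_ ≫ ·) (lG.map_preimage _)).trans
        (i.hom_inv_id_assoc _)⟩
    obtain ⟨k, rfl⟩ : ∃ l, s.map c.hom ≫ (lH p ι).map l ≫ s.map t.hom = k :=
      ⟨(lH p ι).preimage ((s.mapIso c).inv ≫ k ≫ (s.mapIso t).inv),
        (congrArg (fun z => _ ≫ z ≫ _) ((lH p ι).map_preimage _)).trans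
          ((congrArg (_ ≫ ·) (Category.assoc _ _ _)).trans
            (((s.mapIso c).hom_inv_id_assoc _).trans ((Category.assoc _ _ _).trans
              ((congrArg (_ ≫ ·) (s.mapIso t).inv_hom_id).trans (Category.comp_id _)))))⟩
    have hc : (am (Z.unt ι (Z.pd ι) MM) _ ≫ am (Z.unt ι (Z.pd ι) MM) _) ≫ c.hom = a.hom ≫
        (lGA _).map (am (Z.unt ι (Z.pd ι) (EF O)) _ ≫ am (Z.unt ι (Z.pd ι) (EF O)) _) := by
      rw [Functor.map_comp, ← am_map_assoc (lGA _) j.hom unt_lGJA, Category.assoc]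
      exact congrArg (_ ≫ ·) ((am_map (lGA _) j.hom unt_lGJA _).trans (Category.assoc _ _ _))
    have h1 : V' _ := h x k
      (cast (congrArg V ((congrArg (_ ≫ ·) ((sE p).map_comp _ _)).trans
        ((((sE p).mapIso i).inv_hom_id_assoc _).trans (lE_st p x).symm)))
          (hV ((sE p).mapIso i).symm _ hx))
      (eq_of_map (lH p ι) (s.mapIso a) (s.mapIso b) (s.map c.hom) (s.mapIso t)
        ((s.map_comp _ _).symm.trans ((congrArg s.map hc).trans ((s.map_comp _ _).trans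
          (congrArg (_ ≫ ·) (lH_st p ι _).symm))))
        ((st_lH _ _ _).trans (congrArg s.map (cmp_norm lG _ ι B i x)))
        ((st_lH _ _ _).trans (congrArg s.map (cmp_mul lG _ ι B i x))) e)
    refine cast (congrArg V' ((Rh_comp c.hom k t.hom).trans (congrArg (_ ≫ ·) ((congrArg (_ ≫ ·)
      ((sE p).map_id _)).trans (Category.comp_id _)))).symm) ?_
    exact hV' ((sE p).mapIso ((Action.forget _ _).mapIso c)) _ h1

end Vale.Agent.P257.W
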