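import Vale.Agent.P257.W.FF
import Vale.Agent.P257.W.Eu
import Vale.Agent.P257.L.Coef
import Vale.Agent.P257.Z.Rb

/-!
# P257, part W: the statement of the detection property

`DetAt Φ p ι B V V' X` : there is a Thom class `u` for the power of `X`, such that the quotient
`(N x - x ^ p u) / a ^ 2` satisfies `V'` if `x` satisfies `V`.
-/

open CategoryTheory MonoidalCategory Functor.LaxMonoidal

namespace Vale.Agent.P257.W

open K M D A T
open E (triv JA Dh Rh Std)
open Equiv (Perm)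

section

variable {J : Type} [Idx J] [SphIdx J] (Φ : O ⥤ J) [IdxFun Φ] [Φ.Monoidal] [Std Φ] (p : ℕ)
  (ι : Type) [Finite ι] [Fact p.Prime] [Fact (Nat.card ι = p)] (B : CommMon (EF J))

/-- the multiplication of an algebra with trivial action -/
noncomputable def mulT {M : Type*} [Category M] [MonoidalCategory M] (G : Type) [Group G] (B : M)
    [MonObj B] : (triv G).obj B ⊗ (triv G).obj B ⟶ (triv G).obj B :=
  μ (triv G) B B ≫ (triv G).map MonObj.mul

/-- the detection property -/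
def DetAt (V V' : ∀ {P : SC (E.De J p)}, (P ⟶ (st _).obj B.X) → Prop) (X : EF J) : Prop :=
  ∃ u : (st (Dh Φ p ι)).obj ((powG (EF J) (Perm ι) ι).obj X) ⟶
      (st _).obj ((triv _).obj (big fun _ : ι => X) ⊗ (triv _).obj B.X),
    ((Rh Φ p ι).map u).hom = (st (E.De J p)).map ((ρ_ _).inv ≫ _ ◁ MonObj.one) ∧
    ∀ (x : X ⟶ B.X) (h : (st (Dh Φ p ι)).obj (((powG (EF J) (Perm ι) ι).obj X ⊗
        (JA _ (EF J)).obj (Z.RA ι)) ⊗ (JA _ (EF J)).obj (Z.RA ι)) ⟶ (st _).obj ((triv _).obj B.X)),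
      V ((st _).map x) →
      (st _).map (am (Z.unt ι (Z.pd ι) (EF J)) _ ≫ am (Z.unt ι (Z.pd ι) (EF J)) _) ≫ h =
        (st _).map ((powG (EF J) (Perm ι) ι).map x ≫ mulG (Perm ι) ι B.X) -
          u ≫ (st _).map ((triv _).map (bigMap (fun _ : ι => x) ≫ bigMul ι B.X) ▷ (triv _).obj B.X ≫
            mulT (Perm ι) B.X) →
      V' ((Rh Φ p ι).map h).hom

end

/-- **DETM** -/
def DetM (p : ℕ) [Fact p.Prime] (V : ℕ → ∀ {P : EE p}, (P ⟶ (sE p).obj MG.X) → Prop) : Prop :=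
  ∀ (m : ℕ) (X : MM), NF X 0 (2 * ((p : ℤ) ^ m - 1)) →
    DetAt iG p (Fin p) MG (V m) (V (m + 1)) X

end Vale.Agent.P257.W
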