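import Vale.Agent.P257.W.GDefs
import Vale.Agent.P257.W.DetX
import Vale.Agent.P257.T.Frx
import Vale.Agent.P257.F.Frs
import Vale.Agent.P251.M.SeqSys

/-!
# P257, part W: the detection property over the periodic algebra

`detP` : the detection property for `cten MG T0` follows from `DetM`.
-/

open CategoryTheory MonoidalCategory Limits Functor.LaxMonoidal Functor.OplaxMonoidal

universe v u

namespace Vale.Agent.P257.W

open Vale.Agent.P251.H Vale.Agent.P251.M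
open K M D A T
open E (triv JA Dh Rh Std DX rsA Rot)
open Equiv (Perm)

set_option linter.unusedSectionVars false

section alg

variable {M : Type u} [Category.{v} M] [MonoidalCategory M] [SymmetricCategory M]

theorem mulL_tensor {ι : Type} (C T : M) [MonObj C] [MonObj T] : ∀ l : List ι,
    A.mulL (C ⊗ T) l = (tenL (fun _ => C) (fun _ => T) l).hom ≫ (A.mulL C l ⊗ₘ A.mulL T l)
  | [] => MonObj.tensorObj.one_def
  | _ :: l => by
    change (C ⊗ T) ◁ A.mulL (C ⊗ T) l ≫ MonObj.mul =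
      ((C ⊗ T) ◁ (tenL (fun _ => C) (fun _ => T) l).hom ≫ tensorμ _ _ _ _) ≫
        ((C ◁ A.mulL C l ≫ MonObj.mul) ⊗ₘ (T ◁ A.mulL T l ≫ MonObj.mul))
    rw [mulL_tensor C T l, MonObj.tensorObj.mul_def, MonoidalCategory.whiskerLeft_comp,
      Category.assoc, Category.assoc, ← tensorHom_comp_tensorHom, tensorμ_natural_right_assoc]

theorem bigMul_tensor (ι : Type) [Finite ι] (C T : M) [MonObj C] [MonObj T] :
    bigMul ι (C ⊗ T) =
      (bigTensor (fun _ : ι => C) fun _ => T).hom ≫ (bigMul ι C ⊗ₘ bigMul ι T) :=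
  mulL_tensor C T _

theorem sw_mul {C T Z P : M} [MonObj C] [MonObj T] (z : Z ⟶ C) (t : P ⟶ T) :
    (sw Z P C).inv ≫ ((z ⊗ₘ t) ⊗ₘ ((ρ_ C).inv ≫ C ◁ MonObj.one)) ≫ MonObj.mul =
      (z ▷ C ≫ MonObj.mul) ⊗ₘ t := by
  have k : (Z ⊗ P) ◁ (ρ_ C).inv ≫ tensorμ Z P C (𝟙_ M) ≫ (Z ⊗ C) ◁ (ρ_ P).hom = (sw Z P C).hom := by
    simp only [sw, tensorμ, Iso.trans_hom, whiskerLeftIso_hom, Iso.symm_hom]
    monoidal
  rw [Iso.inv_comp_eq, ← k, MonObj.tensorObj.mul_def, ← Category.id_comp (z ⊗ₘ t),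
    ← tensorHom_comp_tensorHom_assoc, ← id_tensorHom C MonObj.one, tensorμ_natural_assoc,
    tensorHom_comp_tensorHom, MonObj.mul_one_hom, tensorHom_id, id_tensorHom, Category.assoc,
    Category.assoc, ← id_tensorHom (Z ⊗ C), tensorHom_comp_tensorHom, Category.id_comp]

variable {G : Type} [Group G] {ι : Type} [Finite ι] [MulAction G ι]

theorem mulG_tensor (C T : M) [MonObj C] [MonObj T] [IsCommMonObj C] [IsCommMonObj T] :
    mulG G ι (C ⊗ T) = δ (powG M G ι) C T ≫ (mulG G ι C ⊗ₘ mulG G ι T) ≫ μ (triv G) C T :=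
  Action.hom_ext _ _ (by
    rw [Action.comp_hom, Action.comp_hom, FAct.lift_δ_hom]
    exact (bigMul_tensor ι C T).trans (congrArg (_ ≫ ·) (Category.comp_id _).symm))

/-- the power of a product -/
noncomputable def powTen {X X₀ P P' : M} (i : X ≅ X₀ ⊗ P)
    (θ : (powG M G ι).obj P ≅ (triv G).obj P') :
    (powG M G ι).obj X ≅ (powG M G ι).obj X₀ ⊗ (triv G).obj P' :=
  (powG M G ι).mapIso i ≪≫ (Functor.Monoidal.μIso (powG M G ι) X₀ P).symm ≪≫ whiskerLeftIso _ θ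

theorem powTen_mul {X X₀ P P' C T : M} [MonObj C] [MonObj T] [IsCommMonObj C] [IsCommMonObj T]
    (i : X ≅ X₀ ⊗ P) (θ : (powG M G ι).obj P ≅ (triv G).obj P') {t : P ⟶ T} {t' : P' ⟶ T}
    (h : (powG M G ι).map t ≫ mulG G ι T = θ.hom ≫ (triv G).map t') (x : X₀ ⟶ C) :
    (powG M G ι).map (i.hom ≫ (x ⊗ₘ t)) ≫ mulG G ι (C ⊗ T) = (powTen i θ).hom ≫
      (((powG M G ι).map x ≫ mulG G ι C) ⊗ₘ (triv G).map t') ≫ μ (triv G) C T := by
  change _ = ((powG M G ι).map i.hom ≫ δ (powG M G ι) X₀ P ≫ _ ◁ θ.hom) ≫ _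
  rw [mulG_tensor, Functor.map_comp, Category.assoc, Category.assoc, Category.assoc,
    ← δ_natural_assoc, tensorHom_comp_tensorHom_assoc, h, ← id_tensorHom,
    tensorHom_comp_tensorHom_assoc, Category.id_comp]

theorem exists_powIso {P P' T : M} [MonObj T] [IsCommMonObj T] {t : P ⟶ T} {t' : P' ⟶ T} [Mono t']
    (θ : (big fun _ : ι => P) ≅ P') (h : bigMap (fun _ : ι => t) ≫ bigMul ι T = θ.hom ≫ t') :
    ∃ θ : (powG M G ι).obj P ≅ (triv G).obj P',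
      (powG M G ι).map t ≫ mulG G ι T = θ.hom ≫ (triv G).map t' :=
  ⟨Action.mkIso θ fun g => (cancel_mono t').1 (by
    have k := E.act_comm ((powG M G ι).map t ≫ mulG G ι T) g
    rw [show ((powG M G ι).map t ≫ mulG G ι T).hom = θ.hom ≫ t' from h] at k
    exact (Category.assoc _ _ _).trans (k.trans ((Category.comp_id _).trans
      (congrArg (· ≫ t') (Category.comp_id _).symm)))), Action.hom_ext _ _ h⟩

/-- moving a factor past two others -/
def sw₂ (Y P R : M) : ((Y ⊗ P) ⊗ R) ⊗ R ≅ ((Y ⊗ R) ⊗ R) ⊗ P :=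
  whiskerRightIso (sw Y P R) R ≪≫ sw (Y ⊗ R) P R

theorem am_am_sw₂ {R : M} (e : 𝟙_ M ⟶ R) (Y P : M) :
    (am e (Y ⊗ P) ≫ am e _) ≫ (sw₂ Y P R).hom = (am e Y ≫ am e _) ▷ P := by
  rw [comp_whiskerRight, am_whiskerRight, am_whiskerRight, Category.assoc, Category.assoc,
    am_nat_assoc e (sw Y P R).hom]
  rfl

end alg

section core

variable {M : Type u} [Category.{v} M] [MonoidalCategory M] [SymmetricCategory M]
  [MonoidalClosed M] [HasZeroMorphisms M] [HasColimitsOfSize.{0, 0} M] [StabInput M]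
  {G : Type} [Group G] (D : Stab M) {U : Action M G} (a : U ⟶ 𝟙_ _) (ha : Rot a)
  [IsIso ((st D).map a.hom)] {R : Action M G} (e : 𝟙_ _ ⟶ R) {C T : CommMon M}
  {Y Y' : Action M G} {P : M} (κ : Y' ≅ Y ⊗ (triv G).obj P)

/-- the underlying isomorphism -/
def isoV {A B : Action M G} (κ : A ≅ B ⊗ (triv G).obj P) : A.V ≅ B.V ⊗ P :=
  (Action.forget M G).mapIso κ

/-- the comparison of the targets of the Thom classes -/
noncomputable def thT : ((triv G).obj Y.V ⊗ (triv G).obj C.X) ⊗ (triv G).obj P ⟶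
    (triv G).obj Y'.V ⊗ (triv G).obj C.X :=
  (sw _ _ _).inv ≫ (μ (triv G) Y.V P ≫ (triv G).map (isoV κ).inv) ▷ _

/-- the Thom class of a product with an object with trivial action -/
noncomputable def thP
    (u : (st (DX D a ha)).obj Y ⟶ (st _).obj ((triv G).obj Y.V ⊗ (triv G).obj C.X)) :
    (st (DX D a ha)).obj Y' ⟶ (st _).obj ((triv G).obj Y'.V ⊗ (triv G).obj C.X) :=
  (st _).map κ.hom ≫ u ▷ (st _).obj ((triv G).obj P) ≫ (st _).map (thT κ)

theorem thT_hom : (thT (C := C) κ).hom = (sw Y.V P C.X).inv ≫ (isoV κ).inv ▷ C.X := by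
  simp [thT, sw]

variable {u : (st (DX D a ha)).obj Y ⟶ (st _).obj ((triv G).obj Y.V ⊗ (triv G).obj C.X)}

theorem res_thP
    (hu : ((rsA D a ha).map u).hom = (st D).map ((ρ_ Y.V).inv ≫ Y.V ◁ MonObj.one)) :
    ((rsA D a ha).map (thP D a ha κ u)).hom = (st D).map ((ρ_ Y'.V).inv ≫ Y'.V ◁ MonObj.one) := by
  have k : (isoV κ).hom ≫ am (MonObj.one : _ ⟶ C.X) Y.V ▷ P ≫ (thT κ).hom =
      am (MonObj.one : _ ⟶ C.X) Y'.V := by
    rw [thT_hom, am_whiskerRight, Category.assoc, Iso.hom_inv_id_assoc, ← am_nat,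
      Iso.hom_inv_id_assoc]
  rw [thP, Functor.map_comp, Functor.map_comp, Action.comp_hom, Action.comp_hom, E.rsA_st_hom,
    E.rsA_st_hom, E.rsA_whiskerRight_hom, hu]
  refine Eq.trans ?_ (congrArg (st D).map k)
  rw [(st D).map_comp (isoV κ).hom, (st D).map_comp (_ ▷ P), SC.st_whiskerRight]
  rfl

variable {t : P ⟶ T.X} {r : T.X ⟶ P} (hr : t ≫ r = 𝟙 P) (N : Y ⟶ (triv G).obj C.X)

/-- the projection -/
noncomputable def prT (r : T.X ⟶ P) :
    (triv G).obj (C.X ⊗ T.X) ⟶ (triv G).obj C.X ⊗ (triv G).obj P :=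
  (triv G).map (C.X ◁ r) ≫ δ (triv G) _ _

include hr in
theorem ten_prT : ((N ⊗ₘ (triv G).map t) ≫ μ (triv G) C.X T.X) ≫ prT r = N ▷ (triv G).obj P :=
  Action.hom_ext _ _ (by
    change ((N.hom ⊗ₘ t) ≫ 𝟙 _) ≫ C.X ◁ r ≫ 𝟙 _ = (N ▷ (triv G).obj P).hom
    rw [Category.comp_id, Category.comp_id, ← id_tensorHom, tensorHom_comp_tensorHom, hr,
      Category.comp_id, tensorHom_id, Action.whiskerRight_hom])

include hr in
theorem thT_prT : thT κ ≫ (((triv G).map (κ.hom ≫ (N ⊗ₘ (triv G).map t) ≫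
      μ (triv G) C.X T.X).hom ⊗ₘ (triv G).map (ah (cinl C T))) ≫ mulT G (cten C T).X) ≫ prT r =
    ((triv G).map N.hom ▷ (triv G).obj C.X ≫ mulT G C.X) ▷ (triv G).obj P :=
  Action.hom_ext _ _ (by
    rw [Action.comp_hom, thT_hom, Action.whiskerRight_hom, Action.comp_hom (_ ▷ _),
      Action.whiskerRight_hom]
    change _ ≫ ((((isoV κ).hom ≫ (N.hom ⊗ₘ t) ≫ 𝟙 _) ⊗ₘ ((ρ_ C.X).inv ≫ C.X ◁ MonObj.one)) ≫
      𝟙 _ ≫ MonObj.mul) ≫ C.X ◁ r ≫ 𝟙 _ = (N.hom ▷ C.X ≫ 𝟙 _ ≫ MonObj.mul) ▷ P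
    simp only [Category.comp_id, Category.id_comp, Category.assoc]
    rw [← tensorHom_id (isoV κ).inv, tensorHom_comp_tensorHom_assoc, Iso.inv_hom_id_assoc,
      Category.id_comp, reassoc_of% sw_mul, ← id_tensorHom, tensorHom_comp_tensorHom, hr,
      Category.comp_id, tensorHom_id])

/-- the comparison of the sources of the quotients -/
noncomputable def srcIso (R : Action M G) : (Y' ⊗ R) ⊗ R ≅ ((Y ⊗ R) ⊗ R) ⊗ (triv G).obj P :=
  whiskerRightIso (whiskerRightIso κ R) R ≪≫ sw₂ Y _ R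

theorem am_am_srcIso : (am e Y' ≫ am e _) ≫ (srcIso κ R).hom =
    κ.hom ≫ (am e Y ≫ am e _) ▷ (triv G).obj P := by
  rw [← am_am_sw₂, Category.assoc, Category.assoc, am_nat_assoc e κ.hom,
    am_nat_assoc e (κ.hom ▷ R)]
  rfl

include hr in
/-- The quotient for a product comes from a quotient for the first factor. -/
theorem exists_quot [IsInv ((st (DX D a ha)).obj ((triv G).obj P))]
    (h : (st (DX D a ha)).obj ((Y' ⊗ R) ⊗ R) ⟶ (st _).obj ((triv G).obj (cten C T).X))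
    (hh : (st _).map (am e Y' ≫ am e _) ≫ h =
      (st _).map (κ.hom ≫ (N ⊗ₘ (triv G).map t) ≫ μ (triv G) C.X T.X) - thP D a ha κ u ≫
        (st _).map (((triv G).map (κ.hom ≫ (N ⊗ₘ (triv G).map t) ≫ μ (triv G) C.X T.X).hom ⊗ₘ
          (triv G).map (ah (cinl C T))) ≫ mulT G (cten C T).X)) :
    ∃ h₀ : (st (DX D a ha)).obj ((Y ⊗ R) ⊗ R) ⟶ (st _).obj ((triv G).obj C.X),
      (st _).map (am e Y ≫ am e _) ≫ h₀ = (st _).map N -
        u ≫ (st _).map ((triv G).map N.hom ▷ (triv G).obj C.X ≫ mulT G C.X) ∧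
      ((rsA D a ha).map h).hom ≫ (st D).map (C.X ◁ r) =
        (st D).map (isoV (srcIso κ R)).hom ≫ ((rsA D a ha).map h₀).hom ▷ (st D).obj P := by
  obtain ⟨h₀, k⟩ := (whiskerRight_bijective ((st (DX D a ha)).obj ((triv G).obj P))
    ((st _).obj ((Y ⊗ R) ⊗ R)) ((st _).obj ((triv G).obj C.X))).2
    ((st _).map (srcIso κ R).inv ≫ h ≫ (st _).map (prT r))
  have k' : h ≫ (st _).map (prT r) =
      (st _).map (srcIso κ R).hom ≫ h₀ ▷ (st _).obj ((triv G).obj P) :=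
    (((st _).mapIso (srcIso κ R)).inv_comp_eq).1 k.symm
  refine ⟨h₀, (whiskerRight_bijective ((st (DX D a ha)).obj ((triv G).obj P)) _ _).1 ?_, ?_⟩
  · have k1 := congrArg (· ≫ (st _).map (prT r)) hh
    beta_reduce at k1 ⊢
    rw [Category.assoc, k', ← Functor.map_comp_assoc, am_am_srcIso, Preadditive.sub_comp,
      ← Functor.map_comp, Category.assoc κ.hom, ten_prT hr, thP, Category.assoc, Category.assoc,
      Category.assoc, ← Functor.map_comp, ← Functor.map_comp, thT_prT κ hr, Functor.map_comp,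
      Functor.map_comp, Category.assoc, ← Preadditive.comp_sub, cancel_epi, SC.st_whiskerRight,
      SC.st_whiskerRight, SC.st_whiskerRight] at k1
    rw [comp_whiskerRight, k1, ← comp_whiskerRight]
    exact ((tensorRight _).map_sub).symm
  · have k1 := congrArg (fun x => ((rsA D a ha).map x).hom) k'
    beta_reduce at k1
    rw [Functor.map_comp, Functor.map_comp, Action.comp_hom, Action.comp_hom, E.rsA_st_hom,
      E.rsA_st_hom, E.rsA_whiskerRight_hom] at k1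
    exact (congrArg (fun x => _ ≫ (st D).map x) (Category.comp_id _).symm).trans k1

end core

section per

open C D.EF L

theorem _root_.Vale.Agent.P257.M.NF.split {X : MM} {g : Gam} {k : ℤ} (h : NF X g k) :
    ∃ X₀, NF X₀ 0 k ∧ Nonempty (X ≅ X₀ ⊗ rp g) := by
  obtain ⟨c, n, hc, hn, ⟨i⟩⟩ := h
  exact ⟨_, ⟨c, n, hc, hn, ⟨Iso.refl _⟩⟩, ⟨i ≪≫ whiskerRightIso
    (repTensor (⟨c, 0⟩ : JG) ⟨𝟙_ O, g⟩ ≪≫ repIso (Gr.isoMk (ρ_ c) (zero_add g))).symm _ ≪≫
      sw _ _ _⟩⟩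

theorem exists_retr (a : Lam) : ∃ r : T0.X ⟶ rp (a, 0), un a ≫ r = 𝟙 _ := by
  classical
  exact ⟨isColimitUn.desc (Cofan.mk (rp (a, 0)) fun b => if h : b = a then
    eqToHom (congrArg (fun c => rp (c, 0)) h) else 0), (isColimitUn.fac _ ⟨a⟩).trans (dif_pos rfl)⟩

instance (a : Lam) : Mono (un a) :=
  have ⟨r, h⟩ := exists_retr a
  (SplitMono.mk r h).mono

theorem exists_evL_un {ι : Type} (a : Lam) : ∀ (l : List ι) (c : Lam), l.length • a = c →
    ∃ θ : evL (fun _ : ι => rp (a, 0)) l ≅ rp (c, 0),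
      mapL (fun _ => un a) l ≫ A.mulL T0.X l = θ.hom ≫ un c
  | [], c, h => by
    obtain rfl : 0 = c := (zero_smul ℕ a).symm.trans h
    exact ⟨Iso.refl _, congrArg (_ ≫ ·) un_zero.symm⟩
  | i :: l, c, h => by
    obtain ⟨θ, k⟩ := exists_evL_un a l _ rfl
    have e : a + l.length • a = c := (succ_nsmul' a _).symm.trans h
    refine ⟨whiskerLeftIso _ θ ≪≫ rpAdd (by simp [e]), ?_⟩
    change (un a ⊗ₘ mapL (fun _ => un a) l) ≫ T0.X ◁ A.mulL T0.X l ≫ MonObj.mul =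
      (rp (a, 0) ◁ θ.hom ≫ _) ≫ _
    rw [Category.assoc, ← un_mul e, ← id_tensorHom, ← id_tensorHom, tensorHom_comp_tensorHom_assoc,
      tensorHom_comp_tensorHom_assoc, k, Category.comp_id, Category.id_comp]

theorem length_enum (ι : Type) [Finite ι] : (enum ι).length = Nat.card ι := by
  rw [enum, Finset.length_toList, @Nat.card_eq_fintype_card ι (Fintype.ofFinite ι)]
  rfl

/-- the power of a unit -/
theorem exists_powUn (G ι : Type) [Group G] [Finite ι] [MulAction G ι] {a c : Lam}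
    (h : Nat.card ι • a = c) : ∃ θ : (powG MM G ι).obj (rp (a, 0)) ≅ (triv G).obj (rp (c, 0)),
      (powG MM G ι).map (un a) ≫ mulG G ι T0.X = θ.hom ≫ (triv G).map (un c) := by
  obtain ⟨θ, k⟩ := exists_evL_un a (enum ι) c (by rw [length_enum, h])
  exact exists_powIso θ k

variable {X X₀ Y : MM} {a : Lam}

theorem exists_eq_un (hX : Deg X {g : Gam | g.1 = a}) (hY : Supp Y {g : Gam | g.1 = 0})
    (i : X ≅ X₀ ⊗ rp (a, 0)) (x : X ⟶ Y ⊗ T0.X) : ∃ x₀ : X₀ ⟶ Y, x = i.hom ≫ (x₀ ⊗ₘ un a) := by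
  obtain ⟨y, rfl⟩ := (hX.coloc _ (degIso_whiskerLeft_un hY a)).2 x
  have : IsInv (rp (a, 0)) := F.isInv_cell rpCells _
  obtain ⟨x₀, k⟩ := (whiskerRight_bijective (rp (a, 0)) X₀ Y).2 (i.inv ≫ y)
  refine ⟨x₀, ?_⟩
  beta_reduce at k ⊢
  rw [MonoidalCategory.tensorHom_def, k, Category.assoc, i.hom_inv_id_assoc]

variable {p : ℕ} {A₀ : Type*} [CommRing A₀] {G : RegSeq p A₀} {m : ℕ}

theorem IsVP.isV {R P Z : EE p} [MonObj R] {Q : Coef (SC.sph (De p)) R G}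
    (i : Z ≅ P ⊗ (sE p).obj (rp (a, 0))) {x : P ⟶ R}
    (h : IsVP Q m a (i.hom ≫ (x ⊗ₘ (sE p).map (un a)))) : Q.IsV m x := by
  obtain ⟨P', e, y, hy, k⟩ := h
  obtain ⟨r, hr⟩ := exists_retr a
  obtain ⟨f, hf⟩ := exists_iso_whiskerRight (i.symm ≪≫ e)
  have k1 := congrArg (fun z => i.inv ≫ z ≫ R ◁ (sE p).map r) k
  simp only [Category.assoc, Iso.inv_hom_id_assoc, ← id_tensorHom, tensorHom_comp_tensorHom,
    ← Functor.map_comp, hr, CategoryTheory.Functor.map_id, Category.comp_id, tensorHom_id] at k1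
  have k2 : x = f.hom ≫ y := (whiskerRight_bijective ((sE p).obj (rp (a, 0))) _ _).1 (by
    beta_reduce
    rw [comp_whiskerRight, ← hf, k1]
    exact (Category.assoc _ _ _).symm)
  exact k2 ▸ hy.iso f

theorem IsVP.of_retr {C : MM} [MonObj ((sE p).obj C)] {Q : Coef (SC.sph (De p)) ((sE p).obj C) G}
    (hX : Deg X {g : Gam | g.1 = a}) (hC : Supp C {g : Gam | g.1 = 0}) {r : T0.X ⟶ rp (a, 0)}
    (hr : un a ≫ r = 𝟙 _) {P : EE p} (e : (sE p).obj X ≅ P ⊗ (sE p).obj (rp (a, 0)))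
    {x : (sE p).obj X ⟶ (sE p).obj (C ⊗ T0.X)} {y : P ⟶ (sE p).obj C} (hy : Q.IsV m y)
    (h : x ≫ (sE p).map (C ◁ r) = e.hom ≫ y ▷ _) : IsVP Q m a x := by
  obtain ⟨z, rfl⟩ := (bij_of_deg (p := p) hX (degIso_whiskerLeft_un hC a)).2 x
  beta_reduce at h ⊢
  rw [Category.assoc, ← Functor.map_comp, ← MonoidalCategory.whiskerLeft_comp, hr,
    MonoidalCategory.whiskerLeft_id, CategoryTheory.Functor.map_id, Category.comp_id] at h
  refine ⟨P, e, y, hy, ?_⟩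
  rw [h, MonoidalCategory.tensorHom_def, SC.st_whiskerLeft]
  exact Category.assoc _ _ _

variable [Fact p.Prime] {ι : Type} [Finite ι] [Nonempty ι] [Fact (Nat.card ι = p)]

theorem detK_of_detAt {C : CommMon MM} [MonObj ((sE p).obj C.X)]
    {Q : Coef (SC.sph (De p)) ((sE p).obj C.X) G} (hC : Supp C.X {g : Gam | g.1 = 0}) {k : ℤ}
    (hX : NF0 X (a, 0) k) (i : X ≅ X₀ ⊗ rp (a, 0)) {m' : ℕ}
    (h : DetAt iG p ι C (Q.IsV m) (Q.IsV m') X₀) :
    DetK p ι (cinl C T0) (IsVP Q m a) (IsVP Q m' (p • a)) X := by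
  obtain ⟨u, hu, H⟩ := h
  have hp : Nat.card ι = p := Fact.out
  obtain ⟨θ, hθ⟩ := exists_powUn (Perm ι) ι (a := a) (c := p • a) (by rw [hp])
  obtain ⟨r, hr⟩ := exists_retr (p • a)
  refine ⟨thP _ _ _ (powTen i θ) u, res_thP _ _ _ (powTen i θ) hu, fun x h hx hh => ?_⟩
  obtain ⟨x₀, rfl⟩ := exists_eq_un (hX.deg.mono (by rintro _ rfl; rfl)) hC i x
  have e : nrmG (B := cten C T0) ι (i.hom ≫ (x₀ ⊗ₘ un a)) = _ := powTen_mul i θ hθ x₀
  have e' : pwK ι (cinl C T0) (i.hom ≫ (x₀ ⊗ₘ un a)) = ((triv _).map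
      (nrmG (B := cten C T0) ι (i.hom ≫ (x₀ ⊗ₘ un a))).hom ⊗ₘ (triv _).map (ah (cinl C T0))) ≫
      mulT (Perm ι) (cten C T0).X := rfl
  rw [e', e] at hh
  have := F.isInv_triv_rp (D := Dh iG p ι) (p • a, 0)
  obtain ⟨h₀, k1, k2⟩ := exists_quot _ _ _ _ (powTen i θ) hr _ h hh
  have hx₀ : Q.IsV m ((sE p).map x₀) := IsVP.isV ((sE p).mapIso i) (by
    rwa [Functor.map_comp, SC.st_tensorHom] at hx)
  have hd := (((nf0_pw ι hX).tensor (nf0_RM ι)).tensor (nf0_RM ι)).deg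
  exact IsVP.of_retr (hd.mono (by rintro _ rfl; simp [hp])) hC hr
    ((sE p).mapIso (isoV (srcIso (powTen i θ) _))) (H x₀ h₀ hx₀ k1) k2

/-- **DETP** -/
theorem detP [MonObj ((sE p).obj MG.X)] {Q : Coef (SC.sph (De p)) ((sE p).obj MG.X) G}
    (hM : DetM p fun m => Q.IsV m) (m : ℕ) (a : Lam) (X : MM)
    (hX : NF X (a, 0) (2 * ((p : ℤ) ^ m - 1))) :
    DetK p (Fin p) (cinl MG T0) (IsVP Q m a) (IsVP Q (m + 1) (p • a)) X := by
  obtain ⟨X₀, h₀, ⟨i⟩⟩ := hX.split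
  have : Nonempty (Fin p) := ⟨⟨0, (Fact.out : p.Prime).pos⟩⟩
  exact detK_of_detAt wt_MG hX.nf0 i (hM m X₀ h₀)

end per

end Vale.Agent.P257.W
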