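import Vale.Agent.P257.W.MG
import Vale.Agent.P257.E.Dh

/-!
# P257, part W: fully faithful functors between stable categories

* `Ov F lam lam'`: `F lam` is isomorphic to `lam'` over the unit;
* `lGA G = mapA lG G`, `sGH p ι = lGA ⋙ st Dh` is the stabilization of `Action (EF O) G`;
* `lE p`, `lH p ι`: the induced fully faithful braided additive functors of stable categories.
-/

open CategoryTheory MonoidalCategory Limits Functor.LaxMonoidal Functor.OplaxMonoidal OnePoint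

namespace Vale.Agent.P257.W

open Vale.Agent.P251.H (StabInput)
open Vale.Agent.P251.H.StabInput (MHtpy S J)
open Vale.Agent.P251.G (LC)
open K M D D.EF C A T
open E (tt Tk IsLoc n0 DE mapA triv JA lift lift_st isLoc lamV lamQ repA sphQ sphA permRep
  thQ aP lamT Dh Rh τh theta ptS gaug Ctr gsp)
open Vale.Agent.P257.D.O (V)
open Equiv (Perm)

universe v u v' u' v'' u''

section ov

variable {M : Type u} [Category.{v} M] [MonoidalCategory M] {N : Type u'} [Category.{v'} N]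
  [MonoidalCategory N] (F : M ⥤ N) [F.Monoidal] {U W A A' : M} {U' W' : N}

/-- `F a` is isomorphic to `a'` over the unit -/
def Ov (a : U ⟶ 𝟙_ M) (a' : U' ⟶ 𝟙_ N) : Prop :=
  ∃ e : U' ≅ F.obj U, e.hom ≫ F.map a ≫ η F = a'

variable {F} {a : U ⟶ 𝟙_ M} {a' : U' ⟶ 𝟙_ N} {b : W ⟶ 𝟙_ M} {b' : W' ⟶ 𝟙_ N}

theorem Ov.of_iso (h : Ov F a a') (i : W ≅ U) (i' : W' ≅ U') :
    Ov F (i.hom ≫ a) (i'.hom ≫ a') := by
  obtain ⟨e, h⟩ := h
  exact ⟨i' ≪≫ e ≪≫ F.mapIso i.symm, by simp [← h]⟩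

theorem Ov.tensor (h : Ov F a a') (k : Ov F b b') : Ov F (tt a W ≫ b) (tt a' W' ≫ b') := by
  obtain ⟨e, h⟩ := h
  obtain ⟨e', k⟩ := k
  refine ⟨whiskerLeftIso U' e' ≪≫ whiskerRightIso e _ ≪≫ Functor.Monoidal.μIso F U W, ?_⟩
  rw [Iso.trans_hom, Iso.trans_hom, whiskerLeftIso_hom, whiskerRightIso_hom,
    Functor.Monoidal.μIso_hom, F.map_comp, Category.assoc, Category.assoc, Category.assoc,
    reassoc_of% map_tt F e h W, E.tt_nat_assoc, k]

end ov

section loc

variable {M : Type u} [Category.{v} M] [MonoidalCategory M] [SymmetricCategory M]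
  [MonoidalClosed M] [HasZeroMorphisms M] [HasColimitsOfSize.{0, 0} M] [StabInput M]
  {N : Type u'} [Category.{v'} N] [MonoidalCategory N] [SymmetricCategory N]
  [MonoidalClosed N] [HasZeroMorphisms N] [HasColimitsOfSize.{0, 0} N] [StabInput N]
  {C : Type u''} [Category.{v''} C]

theorem full_lift {D : Stab M} {Φ : M ⥤ C} (k : IsLoc D.lam Φ) : (lift Φ k.toInv).Full where
  map_surjective {X Y} y := by
    obtain ⟨A', t, f, ht, e⟩ := k.surj y
    have := (isLoc D).isIso ht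
    have := k.isIso ht
    refine ⟨inv ((st D).map t) ≫ (st D).map f, ?_⟩
    rw [← cancel_epi (Φ.map t), e, ← lift_st k.toInv t, ← Functor.map_comp,
      IsIso.hom_inv_id_assoc, lift_st]

theorem faithful_lift {D : Stab M} {Φ : M ⥤ C} (k : IsLoc D.lam Φ) :
    (lift Φ k.toInv).Faithful where
  map_injective {X Y x y} e := by
    obtain ⟨A', t, f, g, ht, e1, e2⟩ := (isLoc D).surj₂ (A := X.obj) x y
    have := (isLoc D).isIso ht
    rw [← cancel_epi ((st D).map t), e1, e2]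
    refine k.map_eq (isLoc D).toInv ?_
    rw [← lift_st k.toInv, ← lift_st k.toInv, ← e1, ← e2, Functor.map_comp, Functor.map_comp, e]

variable {F : M ⥤ N} {G : Type} [Group G]

noncomputable instance [Ten F] : Ten (mapA F G) where
  iso X K := Action.mkIso (ten F X.V K) fun g => by
    change (F.map (E.act X g) ⊗ₘ 𝟙 _) ≫ _ = _ ≫ F.map (E.act X g ⊗ₘ 𝟙 _)
    rw [tensorHom_id, tensorHom_id]
    exact T.ten_natL F _ K
  natL f K := Action.hom_ext _ _ (T.ten_natL F f.hom K)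
  natR X _ _ f := Action.hom_ext _ _ (T.ten_natR F X.V f)
  unit X := Action.hom_ext _ _ (by
    have h := T.ten_unit F X.V
    simp at h ⊢
    exact h)
  assoc X K K' := Action.hom_ext _ _ (by
    have h := T.ten_assoc F X.V K K'
    simp at h ⊢
    exact h)

variable [F.Monoidal]

theorem Ov.isLoc [Ten F] [F.Full] [F.Faithful] {U : M} {U' : N} {a : U ⟶ 𝟙_ M} {a' : U' ⟶ 𝟙_ N}
    {Φ : N ⥤ C} (h : Ov F a a') (k : IsLoc a' Φ) : IsLoc a (F ⋙ Φ) := by
  obtain ⟨e, h⟩ := h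
  exact isLoc_comp F e h k

theorem Ov.lamT {D : Stab M} {D' : Stab N} (h : Ov F D.lam D'.lam) :
    Ov (mapA F G) (lamT G D) (lamT G D') := by
  obtain ⟨e, h⟩ := h
  refine ⟨Action.mkIso e fun g => ?_, Action.hom_ext _ _ ?_⟩
  · change (𝟙 _ ⊗ₘ 𝟙 _) ≫ e.hom = e.hom ≫ F.map (𝟙 _ ⊗ₘ 𝟙 _)
    simp
  · rw [E.lamT_hom, ← h, ← E.lamT_hom (G := G) D]
    rfl

theorem Ov.dx {D : Stab M} {D' : Stab N} (h : Ov F D.lam D'.lam) {U : Action M G}
    {U' : Action N G} {a : U ⟶ 𝟙_ _} {a' : U' ⟶ 𝟙_ _} (ha : E.Rot a) (ha' : E.Rot a')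
    (k : Ov (mapA F G) a a') : Ov (mapA F G) (E.DX D a ha).lam (E.DX D' a' ha').lam :=
  (k.tensor h.lamT).of_iso (α_ _ _ _) (α_ _ _ _)

variable (M) in
theorem theta_eq {T X : Type} [MulAction G T] [Finite T] [NormedAddCommGroup X] [NormedSpace ℝ X]
    [DistribMulAction G X] [SMulCommClass G ℝ X] [FiniteDimensional ℝ X] [ContinuousConstSMul G X]
    {c : T → X} (hc : Ctr G c) :
    theta M hc = (JA G M).map (ptS hc ≫ gaug G T ▷ _ ≫ (λ_ _).hom) := by
  rw [E.theta, E.pt, E.fold, E.faug, Functor.map_comp, Functor.map_comp,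
    Functor.Monoidal.map_whiskerRight, Functor.Monoidal.map_leftUnitor, comp_whiskerRight]
  simp only [Category.assoc, Functor.Monoidal.μ_δ_assoc]

end loc

section pow

variable {M : Type u} [Category.{v} M] [MonoidalCategory M] [SymmetricCategory M]
  {N : Type u'} [Category.{v'} N] [MonoidalCategory N] [SymmetricCategory N] (F : M ⥤ N)
  [F.LaxBraided] (G : Type) [Group G] (ι : Type) [Finite ι] [MulAction G ι]

@[reassoc]
theorem powLax_nat {X Y : M} (f : X ⟶ Y) : (powG N G ι).map (F.map f) ≫ powLax G ι F Y =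
    powLax G ι F X ≫ (mapA F G).map ((powG M G ι).map f) :=
  Action.hom_ext _ _ (bigMap_laxBig F fun _ : ι => f)

@[reassoc]
theorem powLax_mulG (B : CommMon M) :
    powLax G ι F B.X ≫ (mapA F G).map (mulG G ι B.X) ≫ (E.mapATriv G F B.X).hom =
      mulG G ι (F.mapCommMon.obj B).X :=
  Action.hom_ext _ _ ((congrArg (_ ≫ ·) (Category.comp_id _)).trans (pwLax_bigMul F B.X))

omit [MonoidalCategory M] [SymmetricCategory M] [MonoidalCategory N] [SymmetricCategory N]
  [F.LaxBraided] in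
@[reassoc]
theorem mapATriv_nat {X Y : M} (f : X ⟶ Y) :
    (mapA F G).map ((triv G).map f) ≫ (E.mapATriv G F Y).hom =
      (E.mapATriv G F X).hom ≫ (triv G).map (F.map f) :=
  Action.hom_ext _ _ ((Category.comp_id _).trans (Category.id_comp _).symm)

end pow

variable (G : Type) [Group G]

/-- ungraded objects with an action in degree zero -/
noncomputable abbrev lGA : Action (EF O) G ⥤ Action MM G := mapA lG G

/-- spaces with an action -/
noncomputable def lGJA (K : Action LC G) : (lGA G).obj ((JA G (EF O)).obj K) ≅ (JA G MM).obj K :=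
  Action.mkIso (lGJ K.V) fun g => lan_map_lanJIso iG (E.act K g)

theorem lGJA_hom_hom (K : Action LC G) : (lGJA G K).hom.hom = (lGJ K.V).hom := rfl

@[reassoc]
theorem lGJA_nat {K L : Action LC G} (f : K ⟶ L) :
    (lGA G).map ((JA G (EF O)).map f) ≫ (lGJA G L).hom = (lGJA G K).hom ≫ (JA G MM).map f :=
  Action.hom_ext _ _ (lan_map_lanJIso iG f.hom)

@[reassoc]
theorem lGJA_unit : ε (lGA G) ≫ (lGA G).map (ε (JA G (EF O))) ≫ (lGJA G _).hom = ε (JA G MM) :=
  Action.hom_ext _ _ (lanEps_lanJIso iG)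

@[reassoc]
theorem lGJA_tensor (K L : Action LC G) :
    μ (lGA G) _ _ ≫ (lGA G).map (μ (JA G (EF O)) K L) ≫ (lGJA G (K ⊗ L)).hom =
      ((lGJA G K).hom ⊗ₘ (lGJA G L).hom) ≫ μ (JA G MM) K L :=
  Action.hom_ext _ _ (lanMu_lanJIso iG K.V L.V)

/-- representables -/
noncomputable def lGRep (Q : Action O G) : (lGA G).obj (repA (𝟭 O) Q) ≅ repA iG Q :=
  Action.mkIso (lanRep iG Q.V) fun g => lan_map_repMap iG (E.act Q g⁻¹)

theorem lGRep_hom_hom (Q : Action O G) : (lGRep G Q).hom.hom = (lanRep iG Q.V).hom := rfl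

theorem μ_lamV (a : O) : μ lG (rep a) ((jC O).obj (V a)) ≫ lG.map (lamV (𝟭 O) a) ≫ η lG =
    ((lanRep iG a).hom ⊗ₘ (lanJIso iG (V a)).hom) ≫ lamV iG a := by
  refine lan_tensor_ext fun b c x y => ?_
  obtain ⟨x, rfl⟩ := pr_surjective x
  obtain ⟨r, y, rfl⟩ := jm_surjective y
  refine Eq.trans ?_ (fn_comp _ _ _).symm
  rw [fn_comp, fn_comp, lan_μ, fn_lanMu, fn_act, fn_act, fn_lan_map, tensorHom_tm,
    fn_lanRep_hom, fn_lanJIso_hom]
  refine Eq.trans ?_ (E.lamV_tm iG (iG.map x) r _).symm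
  refine (congrArg (fun z => (𝟙_ MM).act _ (fn (η lG) (li iG z)))
    (E.lamV_tm (𝟭 O) x r y)).trans ?_
  refine (congrArg _ (fn_lanEta iG _)).trans ((rep_act _ _).trans (congrArg pr (Gr.hom_ext ?_)))
  exact (Category.comp_id _).trans ((Category.id_comp _).trans (congrArg₂ smp rfl
    (Category.id_comp _).symm))

@[reassoc]
theorem μ_lamQ (Q : Action O G) :
    μ (lGA G) (repA (𝟭 O) Q) (sphQ O Q) ≫ (lGA G).map (lamQ (𝟭 O) Q) ≫ η (lGA G) =
      ((lGRep G Q).hom ⊗ₘ (lGJA G ((sphA G).obj Q)).hom) ≫ lamQ iG Q :=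
  Action.hom_ext _ _ (μ_lamV Q.V)

variable {G}

theorem ov_lamQ (Q : Action O G) {K : Action LC G} (k : K ⟶ (sphA G).obj Q) :
    Ov (lGA G) (repA (𝟭 O) Q ◁ (JA G (EF O)).map k ≫ lamQ (𝟭 O) Q)
      (repA iG Q ◁ (JA G MM).map k ≫ lamQ iG Q) := by
  refine ⟨((lGRep G Q).symm ⊗ᵢ (lGJA G K).symm) ≪≫ Functor.Monoidal.μIso (lGA G) _ _, ?_⟩
  rw [Iso.trans_hom, Functor.Monoidal.μIso_hom, Functor.map_comp, Category.assoc, Category.assoc,
    ← μ_natural_right_assoc, μ_lamQ, tensorIso_hom, ← id_tensorHom, ← id_tensorHom,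
    tensorHom_comp_tensorHom_assoc, tensorHom_comp_tensorHom_assoc, Category.assoc,
    Category.assoc, lGJA_nat, Iso.symm_hom, Iso.symm_hom, Iso.inv_hom_id_assoc, Category.id_comp,
    Iso.inv_hom_id, id_tensorHom]

theorem ov_aP [Finite G] (P : Subgroup G) : Ov (lGA G) (aP (𝟭 O) P) (aP iG P) := by
  have h := ov_lamQ (permRep G G) ((E.sphGF G G).hom ≫
    (ptS (E.ctr_quot P) ≫ gaug G _ ▷ _ ≫ (λ_ _).hom) ≫ (E.sphGF G G).inv)
  rw [Functor.map_comp, Functor.map_comp, Functor.map_comp (JA G MM), Functor.map_comp (JA G MM),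
    ← theta_eq, ← theta_eq] at h
  exact h

variable (p : ℕ) (ι : Type) [Finite ι]

/-- the stabilization of ungraded equivariant spectra in the graded stable category -/
noncomputable abbrev sGH : Action (EF O) (Perm ι) ⥤ SC (Dh iG p ι) :=
  lGA (Perm ι) ⋙ st (Dh iG p ι)

theorem ov_Dh : Ov (lGA (Perm ι)) (Dh (𝟭 O) p ι).lam (Dh iG p ι).lam :=
  Ov.dx ⟨lGU, lGU_DE _⟩ _ _ (ov_aP _)

theorem isLoc_sGH : IsLoc (Dh (𝟭 O) p ι).lam (sGH p ι) := (ov_Dh p ι).isLoc (isLoc _)

/-- the fully faithful functor of non-equivariant stable categories -/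
noncomputable abbrev lE : SC (E.De O p) ⥤ EE p := lift (D := E.De O p) (sG p) (isLoc_sG p).toInv

/-- the fully faithful functor of equivariant stable categories -/
noncomputable abbrev lH : SC (Dh (𝟭 O) p ι) ⥤ SC (Dh iG p ι) :=
  lift (sGH p ι) (isLoc_sGH p ι).toInv

instance : (lE p).Full := full_lift (isLoc_sG p)

instance : (lE p).Faithful := faithful_lift (isLoc_sG p)

instance : (lH p ι).Full := full_lift (isLoc_sGH p ι)

instance : (lH p ι).Faithful := faithful_lift (isLoc_sGH p ι)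

instance : (lE p).Additive := E.lift_additive _ fun A =>
  ((IsSum.sigma fun _ : Bool => A).map lG).st _

theorem lE_st {A B : EF O} (f : A ⟶ B) :
    (lE p).map ((st _).map f) = (sE p).map (lG.map f) := lift_st _ f

theorem lH_st {A B : Action (EF O) (Perm ι)} (f : A ⟶ B) :
    (lH p ι).map ((st _).map f) = (st _).map ((lGA _).map f) := lift_st _ f

instance : (lH p ι).Additive := E.lift_additive _ fun A =>
  (E.isSum_of_hom (i := fun b => (lGA _).map (Sigma.ι (fun _ : Bool => A) b))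
    (((IsSum.sigma fun _ : Bool => A).map (Action.forget _ _)).map lG)).st _

theorem lH_τh {X Y : SC (E.De O p)} (y : X ⟶ Y) :
    (lH p ι).map ((τh (𝟭 O) p ι).map y) ≫ (st _).map (E.mapATriv (Perm ι) lG Y.obj).hom =
      (st _).map (E.mapATriv (Perm ι) lG X.obj).hom ≫ (τh iG p ι).map ((lE p).map y) :=
  SC.nat_of_st (τh (𝟭 O) p ι ⋙ lH p ι) (lE p ⋙ τh iG p ι)
    (fun X => (st _).map (E.mapATriv (Perm ι) lG X.obj).hom) (fun f => by
      rw [Functor.comp_map, Functor.comp_map, E.tau_st, lH_st, lE_st, E.tau_st,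
        ← Functor.map_comp, ← Functor.map_comp]
      exact congrArg _ (Action.hom_ext _ _
        ((Category.comp_id _).trans (Category.id_comp _).symm))) y

variable [Fact p.Prime] [Fact (Nat.card ι = p)]

theorem Rh_lH {X Y : SC (Dh (𝟭 O) p ι)} (x : X ⟶ Y) :
    ((Rh iG p ι).map ((lH p ι).map x)).hom = (lE p).map ((Rh (𝟭 O) p ι).map x).hom := by
  have h := SC.nat_of_st (lH p ι ⋙ Rh iG p ι ⋙ Action.forget _ _)
    (Rh (𝟭 O) p ι ⋙ Action.forget _ _ ⋙ lE p) (fun X => 𝟙 _)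
    (fun f => (Category.comp_id _).trans (Eq.trans (by
      change ((Rh iG p ι).map ((lH p ι).map ((st _).map f))).hom =
        (lE p).map ((Rh (𝟭 O) p ι).map ((st _).map f)).hom
      rw [lH_st, E.rsA_st_hom, E.rsA_st_hom, lE_st]
      rfl) (Category.id_comp _).symm)) x
  exact (Category.comp_id _).symm.trans (h.trans (Category.id_comp _))

end Vale.Agent.P257.W
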