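import Vale.Agent.P257.W.DetX
import Vale.Agent.P257.W.GDef2
import Vale.Agent.P257.W.MUD

/-!
# P257, part W: algebra of norms and powers

`nrmG_ah`, `pwK_ah`, `res_nrmG`, `mt_pwK`, `res_mt`, `tf_T0`.
-/

set_option linter.unusedSectionVars false

open CategoryTheory MonoidalCategory Limits Functor.LaxMonoidal Functor.OplaxMonoidal

namespace Vale.Agent.P257.W

open Vale.Agent.P251.H Vale.Agent.P251.H.StabInput
open K M D D.EF C A T L N
open Vale.Agent.P257.E (triv JA)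
open Vale.Agent.P257.F (DH sH RH)
open Equiv (Perm)

universe w

variable {p lam m : ℕ}

section kil

variable {B : CommMon MM} {X Z : MM} {w r : ℕ}

variable (p) in
/-- classes which are killed by `t ^ r` -/
def Kil (r : ℕ) (y : X ⟶ B.X) : Prop := (sE p).map (tX X r ≫ y) = 0

theorem Kil.pre {y : X ⟶ B.X} (h : Kil p r y) (f : Z ⟶ X) : Kil p r (f ≫ y) := by
  rw [Kil, ← Category.assoc, ← W.tX_nat, Category.assoc, Functor.map_comp, h, comp_zero]

theorem Kil.mono {y : X ⟶ B.X} (h : Kil p w y) (hr : w ≤ r) : Kil p r y := by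
  have e : t1 r = M.tm (g := (0, (w : ℤ))) (g' := (0, (r : ℤ))) ⟨le_rfl, Int.ofNat_le.2 hr⟩ ≫
      t1 w :=
    (congrArg repMap (Gr.hom_ext (Category.id_comp _).symm)).trans (repMap_comp _ _)
  rw [Kil, tX, e, MonoidalCategory.whiskerLeft_comp, Category.assoc, Category.assoc,
    Functor.map_comp, ← Category.assoc (X ◁ t1 w)]
  exact (congrArg (_ ≫ ·) h).trans comp_zero

theorem Kil.mulR {y : X ⟶ B.X} (h : Kil p r y) (g : Z ⟶ B.X) :
    Kil p r ((g ⊗ₘ y) ≫ MonObj.mul) := by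
  rw [Kil, ← cancel_epi ((sE p).map (α_ _ _ _).inv), ← Functor.map_comp, ← Category.assoc,
    ← whiskerLeft_tX, ← id_tensorHom, tensorHom_comp_tensorHom_assoc, Functor.map_comp,
    SC.st_tensorHom, h, MonoidalCategory.tensorHom_def, MonoidalPreadditive.whiskerLeft_zero,
    comp_zero, zero_comp, comp_zero]

theorem Kil.mulL {y : X ⟶ B.X} (h : Kil p r y) (g : Z ⟶ B.X) :
    Kil p r ((y ⊗ₘ g) ≫ MonObj.mul) := by
  have h1 := (h.mulR g).pre (β_ X Z).hom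
  rwa [← BraidedCategory.braiding_naturality_assoc, IsCommMonObj.mul_comm] at h1

theorem Kil.pow {y : X ⟶ B.X} (h : Kil p r y) (ι : Type) [Finite ι] [Nonempty ι] :
    Kil p r (bigMap (fun _ : ι => y) ≫ bigMul ι B.X) := by
  classical
  let e := Equiv.optionSubtypeNe (Classical.arbitrary ι)
  have h1 := (h.mulL (pwM _ y ≫ bigMul _ B.X)).pre (inv (pwO _ X ≫ pwE X e))
  have h2 : (pwO _ X ≫ pwE X e) ≫ pwM ι y ≫ bigMul ι B.X =
      (y ⊗ₘ (pwM _ y ≫ bigMul _ B.X)) ≫ MonObj.mul := by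
    rw [Category.assoc, ← pwM_pwE_assoc, pwE_bigMul, pwO_pwM_assoc, pwO_bigMul, ← id_tensorHom,
      tensorHom_comp_tensorHom_assoc, Category.comp_id]
  rwa [← h2, IsIso.inv_hom_id_assoc] at h1

end kil

section alg

variable {ι : Type} [Finite ι] [DecidableEq ι] [Nontrivial ι] [Fact p.Prime] [Fact (Nat.card ι = p)]
  {C A B : CommMon MM} {X : MM}

theorem nrmG_hom (x : X ⟶ A.X) : (nrmG ι x).hom = bigMap (fun _ : ι => x) ≫ bigMul ι A.X := rfl

theorem pwK_hom (κ : C ⟶ A) (x : X ⟶ A.X) : (pwK ι κ x).hom =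
    ((bigMap (fun _ : ι => x) ≫ bigMul ι A.X) ⊗ₘ ah κ) ≫ MonObj.mul :=
  congrArg (_ ≫ ·) (Category.id_comp _)

theorem nrmG_ah (x : X ⟶ A.X) (σ : A ⟶ B) :
    nrmG ι x ≫ (triv _).map (ah σ) = nrmG ι (x ≫ ah σ) := by
  rw [nrmG, nrmG, Category.assoc, ← powG_map_mulG, Functor.map_comp, Category.assoc]

theorem pwK_ah (κ : C ⟶ A) (x : X ⟶ A.X) (σ : A ⟶ B) :
    pwK ι κ x ≫ (triv _).map (ah σ) = pwK ι (κ ≫ σ) (x ≫ ah σ) := by
  refine Action.hom_ext _ _ ?_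
  rw [Action.comp_hom, pwK_hom, pwK_hom, E.triv_map_hom, Category.assoc, IsMonHom.mul_hom,
    tensorHom_comp_tensorHom_assoc, Category.assoc, ← bigMap_bigMul, ah_comp, ← Category.assoc,
    ← bigMap_comp]

theorem res_nrmG (κ : C ⟶ A) (x : X ⟶ A.X) {u : (sH ι p).obj ((powG MM (Perm ι) ι).obj X) ⟶
      (sH ι p).obj ((triv _).obj (big fun _ : ι => X) ⊗ (triv _).obj C.X)}
    (hu : ((RH ι p).map u).hom = (sE p).map ((ρ_ _).inv ≫ _ ◁ MonObj.one)) :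
    ((RH ι p).map ((sH ι p).map (nrmG ι x))).hom =
      ((RH ι p).map (u ≫ (sH ι p).map (pwK ι κ x))).hom := by
  rw [Functor.map_comp, Action.comp_hom, hu, E.rsA_st_hom, E.rsA_st_hom, nrmG_hom, pwK_hom]
  refine Eq.trans (congrArg (sE p).map ?_) ((sE p).map_comp _ _)
  generalize bigMap (fun _ : ι => x) ≫ bigMul ι A.X = z
  change z = ((ρ_ (big fun _ : ι => X)).inv ≫ (big fun _ : ι => X) ◁ MonObj.one) ≫
    (z ⊗ₘ ah κ) ≫ MonObj.mul
  rw [Category.assoc, ← id_tensorHom, tensorHom_comp_tensorHom_assoc, IsMonHom.one_hom,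
    Category.id_comp, MonoidalCategory.tensorHom_def, Category.assoc, MonObj.mul_one,
    rightUnitor_naturality, Iso.inv_hom_id_assoc]

theorem sH_mt_eq_zero {P Q : MM} {g : P ⊗ Q ⟶ B.X} {r : ℕ} (h : Kil p r g)
    (g' : (triv (Perm ι)).obj P ⊗ (triv _).obj Q ⟶ (triv _).obj B.X) (e : g'.hom = g) :
    P257.Z.mt ((sH ι p).map g') (tR ι p r) = 0 := by
  have h1 : P257.Z.mt ((sH ι p).map g') (tR ι p r) = (sH ι p).map
      ((μ (triv (Perm ι)) P Q ▷ _ ≫ μ (triv _) _ _) ≫ (triv _).map (tX (P ⊗ Q) r ≫ g)) := by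
    rw [P257.Z.mt, tR, ← SC.st_tensorHom, ← SC.st_rightUnitor_hom, ← Functor.map_comp]
    refine congrArg (sH ι p).map (Action.hom_ext _ _ ?_)
    subst e
    simp [tX, tensorHom_def']
  rw [h1, Functor.map_comp, ← E.tau_st, h, Functor.map_zero, comp_zero]

theorem mt_pwK (κ : C ⟶ A) (x : X ⟶ A.X) (σ : A ⟶ B) {w r : ℕ} (hr : w ≤ r)
    (h : (sE p).map (tX X w ≫ x ≫ ah σ) = 0) {Y : SC (DH ι p)}
    (u : Y ⟶ (sH ι p).obj ((triv _).obj (big fun _ : ι => X) ⊗ (triv _).obj C.X)) :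
    P257.Z.mt (u ≫ (sH ι p).map (pwK ι κ x)) (tR ι p r) ≫
      (sH ι p).map ((triv _).map (ah σ)) = 0 := by
  rw [P257.Z.mt_comp, Category.assoc, ← Functor.map_comp, pwK_ah, ← P257.Z.whiskerRight_mt,
    sH_mt_eq_zero (((Kil.mono h hr).pow ι).mulL (ah (κ ≫ σ))) _ (pwK_hom _ _), comp_zero]

theorem res_mt {Y : SC (DH ι p)} (h : Y ⟶ (sH ι p).obj ((triv _).obj A.X)) (r : ℕ) :
    ∃ e : ((RH ι p).obj (Y ⊗ (sH ι p).obj ((triv _).obj (rp (0, (r : ℤ)))))).V ≅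
        ((RH ι p).obj Y).V ⊗ (sE p).obj (rp (0, (r : ℤ))),
      ((RH ι p).map (P257.Z.mt h (tR ι p r))).hom = e.hom ≫ ((RH ι p).obj Y).V ◁ (sE p).map (t1 r) ≫
        (ρ_ _).hom ≫ ((RH ι p).map h).hom := by
  refine ⟨Iso.refl _, Eq.trans ?_ (Category.id_comp _).symm⟩
  rw [P257.Z.mt_eq, Functor.map_comp, Functor.map_comp, Action.comp_hom, Action.comp_hom,
    E.rsA_whiskerLeft_hom, tR, E.rsA_st_hom]
  refine congrArg₂ (· ≫ ·) (congrArg (fun f => _ ◁ (sE p).map f) (Category.comp_id _))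
    (congrArg (· ≫ _) ?_)
  exact (E.rsA_st_hom _ _ _ (ρ_ Y.obj).hom).trans
    (congrArg (sE p).map (Action.rightUnitor_hom_hom _))

theorem tf_T0 [MonObj ((sE p).obj C.X)] {A₀ : Type w} [CommRing A₀] {G : RegSeq p A₀}
    (Q : Coef (SC.sph (De p)) ((sE p).obj C.X) G) (h1 : Supp C.X {g : Gam | g.1 = 0})
    (h0 : Le0 C.X) {l : ℤ} (hl : Even l) (a : Lam)
    (x : (cE p).obj (l, (a, 0)) ⟶ (sE p).obj (cten C T0).X ⊗ (cE p).obj (1, 0))
    (hx : p • x = 0) : x = 0 :=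
  tf_susp (R := (sE p).obj C.X) (r := 0) Q h0 h1 hl x hx

end alg

end Vale.Agent.P257.W
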