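import Vale.Agent.P257.Z.Tw0

/-!
# P257, part W: comparison of two divisions by the Euler class

* `UQ SH R c Z e d` : uniqueness of the division by the Euler class;
* `Ctx.glue` : the quotient in a universal example is computed by a quotient in the coefficients.
-/

open CategoryTheory MonoidalCategory Limits

namespace Vale.Agent.P257.Z

open Vale.Agent.P257.E Vale.Agent.P257.C Vale.Agent.P257.W
open Vale.Agent.P251.G (LC)
open Vale.Agent.P251.G.LC (RR)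
open Vale.Agent.P251.M (IsInv)
open Equiv (Perm)

universe v u v' u'

set_option linter.unusedSectionVars false

variable {ι : Type} [Finite ι] [DecidableEq ι] {H : Type u} [Category.{v} H] [Preadditive H]
  [MonoidalCategory H] [SymmetricCategory H] [MonoidalPreadditive H] {E : Type u'}
  [Category.{v'} E] [Preadditive E] [MonoidalCategory E] [SymmetricCategory E]
  [MonoidalPreadditive E] {Γ : Type} [AddCommGroup Γ]

/-- multiplication by a map to the unit -/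
def mt {A B P : H} (x : A ⟶ B) (t : P ⟶ 𝟙_ H) : A ⊗ P ⟶ B := (x ⊗ₘ t) ≫ (ρ_ B).hom

section mt

variable {A A' B B' P Q : H} (x : A ⟶ B) (t : P ⟶ 𝟙_ H)

@[reassoc]
theorem mt_comp (f : B ⟶ B') : mt x t ≫ f = mt (x ≫ f) t := by
  rw [mt, mt, Category.assoc, ← rightUnitor_naturality, ← tensorHom_id,
    tensorHom_comp_tensorHom_assoc, Category.comp_id]

@[reassoc]
theorem whiskerRight_mt (f : A' ⟶ A) : f ▷ P ≫ mt x t = mt (f ≫ x) t := by
  rw [mt, mt, ← tensorHom_id, tensorHom_comp_tensorHom_assoc, Category.id_comp]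

theorem mt_eq : mt x t = A ◁ t ≫ (ρ_ A).hom ≫ x := by
  rw [mt, tensorHom_def', Category.assoc, rightUnitor_naturality]

theorem mt_sub (y : A ⟶ B) : mt (x - y) t = mt x t - mt y t := by
  simp only [mt_eq, Preadditive.comp_sub]

end mt

variable (SH : Action LC (Perm ι) ⥤ H) [SH.Braided] {TE : LC ⥤ E} [TE.Braided]
  (R : H ⥤ Action E (Perm ι)) [R.Braided] (c : Cells E (ℤ × Γ))

/-- uniqueness of the division by the Euler class -/
def UQ (Z : H) (e : ℤˣ) (d : ℤ × Γ) : Prop := ∀ V : H, GC R c e d V →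
  Function.Injective fun y : V ⊗ SH.obj (RA ι) ⟶ Z => am (eul SH) V ≫ y

/-- existence of the division by the Euler class -/
def EQ (Z : H) (e : ℤˣ) (d : ℤ × Γ) : Prop := ∀ V : H, GC R c e d V →
  Function.Surjective fun y : V ⊗ SH.obj (RA ι) ⟶ Z => am (eul SH) V ≫ y

variable {SH R c} (C : Ctx SH TE R) (s : TE.obj RR ≅ c.obj (1, 0)) [Nontrivial ι]
  [IsInv (TE.obj RR)] {V W Z : H} {e : ℤˣ} {l L : ℤ} {g : Γ} {n : ℕ} {f : V ⟶ W}
include C s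

theorem Ctx.eu_aux {L : ℤ} (hl : l + n * ((Nat.card ι : ℤ) - 1) ≤ L) {j : ℕ} (hj : j < 0 + (n + 1)) :
    l + j * ((Nat.card ι : ℤ) - 1) ≤ L := by
  have : 0 < Nat.card ι := Nat.card_pos
  have h2 : (j : ℤ) ≤ n := by omega
  have h3 : (0 : ℤ) ≤ (Nat.card ι : ℤ) - 1 := by omega
  nlinarith

theorem Ctx.gc_step {i : ℕ} (h : GC R c (e * (-1) ^ i) (l + i * ((Nat.card ι : ℤ) - 1), g) V) :
    GC R c (e * (-1) ^ (i + 1)) (l + (i + 1 : ℕ) * ((Nat.card ι : ℤ) - 1), g)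
      (V ⊗ SH.obj (RA ι)) := by
  refine (C.gc_eu s (Eu.one _ V) h).cast (by rw [pow_one, pow_succ, mul_assoc]) ?_
  congr 1
  push_cast
  ring

/-- uniqueness of the division by a power of the Euler class -/
theorem Ctx.eu_inj (hf : Eu (eul SH) (n + 1) f) (hV : GC R c e (l, g) V)
    (hl : l + n * ((Nat.card ι : ℤ) - 1) ≤ L) (U : ∀ e' l', l' ≤ L → UQ SH R c Z e' (l', g)) :
    Function.Injective fun y : W ⟶ Z => f ≫ y :=
  hf.inj (i := 0) (P := fun i V => GC R c (e * (-1) ^ i) (l + i * ((Nat.card ι : ℤ) - 1), g) V)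
    (fun _ _ _ j k => k.of_iso j) (fun _ _ k => C.gc_step s k) (by simpa using hV)
    fun _ _ hj V k => U _ _ (C.eu_aux s hl hj) V k

variable [R.Additive] [IsInv (sS SH)] [IsInv (SH.obj (VA ι))] (h3 : 3 ≤ Nat.card ι)
include h3

/-- **The comparison of the quotients.** -/
theorem Ctx.glue {Y P F₁ F₂ Z₁ Z₂ : H} {g₁ g₂ : Γ} (hY : GC R c 1 (L, g₁) Y)
    (hP : GC R c 1 (0, g₂) P) (hg : g₁ + g₂ = g) (t : P ⟶ 𝟙_ H) (h₁ : Sg 1 (R.obj F₁))
    (h₂ : Sg 1 (R.obj F₂)) {γ₁ : F₁ ⟶ Z₁} {γ₂ : F₂ ⟶ Z₂} {σ : F₁ ⟶ F₂} {z : Z₁ ⟶ Z₂}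
    (w : γ₁ ≫ z = σ ≫ γ₂) {N D : Y ⟶ F₁} (hD : (R.map N).hom = (R.map D).hom)
    (h0 : mt D t ≫ γ₁ = 0) {d : V ⟶ Y ⊗ P} (hd : Eu (eul SH) n d) (hV : GC R c e (l, g) V)
    (hl : l + n * ((Nat.card ι : ℤ) - 1) ≤ L) (hf : Eu (eul SH) (n + 2) f) {q : W ⟶ Z₁}
    (hq : f ≫ q = d ≫ mt N t ≫ γ₁) (U₁ : ∀ e' l', l' ≤ L → UQ SH R c Z₁ e' (l', g))
    (U₂ : UQ SH R c Z₂ (-1) (L + ((Nat.card ι : ℤ) - 1), g))
    (tf : ∀ x : c.obj (L + 2 * ((Nat.card ι : ℤ) - 1), g₁) ⟶ (R.obj F₂).V ⊗ c.obj (1, 0),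
      Nat.card ι • x = 0 → x = 0) :
    ∃ (h : (Y ⊗ SH.obj (RA ι)) ⊗ SH.obj (RA ι) ⟶ F₂)
      (ε : W ≅ ((Y ⊗ SH.obj (RA ι)) ⊗ SH.obj (RA ι)) ⊗ P),
      am (eul SH) Y ≫ am (eul SH) _ ≫ h = (N - D) ≫ σ ∧ q ≫ z = ε.hom ≫ mt h t ≫ γ₂ := by
  obtain ⟨h', hh'⟩ := C.exists_div_one h3 hY.sg h₁ (x := N - D) (by
    rw [R.map_sub, Action.sub_hom, hD, sub_self])
  have k1 := C.gc_eu s (Eu.one _ Y) hY
  have k2 := (C.gc_eu s (Eu.one _ _) k1).cast rfl (d' := (L + 2 * ((Nat.card ι : ℤ) - 1), g₁))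
    (Prod.ext (by push_cast; ring) rfl)
  obtain ⟨h, hh⟩ := C.tw0 h3 (e := -1) (by simpa using k1.sg) (by simpa using h₂) (fun x hx => by
    obtain ⟨i⟩ := k2.cell
    obtain ⟨j⟩ := (C.gc_S s).cell
    have j' : (R.obj (F₂ ⊗ sS SH)).V ≅ (R.obj F₂).V ⊗ c.obj (1, 0) := ((Action.forget _ _).mapIso
      (Functor.Monoidal.μIso R F₂ (sS SH))).symm ≪≫ whiskerLeftIso _ j
    have := tf (i.inv ≫ x ≫ j'.hom) (by
      rw [← Preadditive.comp_nsmul, ← Preadditive.nsmul_comp, hx, zero_comp, comp_zero])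
    rwa [Preadditive.IsIso.comp_left_eq_zero, Preadditive.IsIso.comp_right_eq_zero] at this)
    (h' ≫ σ)
  have e1 : Eu (eul SH) (n + 1) (d ≫ am (eul SH) Y ▷ P) := hd.comp ((Eu.one _ Y).whiskerRight P)
  obtain ⟨f', hf', rfl⟩ := e1.cancel (l := 1) hf
  have e2 : f' ≫ q = mt h' t ≫ γ₁ := C.eu_inj s e1 hV hl U₁ (by
    beta_reduce
    rw [← Category.assoc, hq, Category.assoc, whiskerRight_mt_assoc, hh', mt_sub,
      Preadditive.sub_comp, h0, sub_zero])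
  obtain ⟨ε, hε⟩ := hf'.uniq ((Eu.one (eul SH) (Y ⊗ SH.obj (RA ι))).whiskerRight P)
  refine ⟨h, ε, by rw [hh, reassoc_of% hh'], ?_⟩
  refine (Eu.inj (i := 0) (P := fun i V => i = 0 → GC R c (-1) (L + ((Nat.card ι : ℤ) - 1), g) V)
    (fun _ _ _ j k l => (k l).of_iso j) (fun _ _ _ l => absurd l (Nat.succ_ne_zero _)) hf'
    (fun _ => (k1.tensor hP).cast (by simp) (by simp [hg]))
    fun j _ hj V k => U₂ V (k (by omega))) ?_
  beta_reduce
  rw [reassoc_of% e2, w, reassoc_of% hε, whiskerRight_mt_assoc, hh, mt_comp_assoc]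

end Vale.Agent.P257.Z
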