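import Vale.Agent.P257.W.GDef2

/-!
# P257, part W: classes of `N` are determined by their images in `Z`
-/

open CategoryTheory MonoidalCategory Limits

namespace Vale.Agent.P257.W

open K M A T N
open Vale.Agent.P257.E (triv)
open Vale.Agent.P257.F (DH sH RH)
open Equiv (Perm)

set_option linter.unusedSectionVars false

variable {p : ℕ} {ι : Type} [Finite ι] [DecidableEq ι] [Nontrivial ι] [Fact p.Prime]
  [Fact (Nat.card ι = p)] {B B' : CommMon MM} {a : NZ (SM ι) B} {g : Gam} {l : ℤ}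

theorem kφ_β (b : NZ (SM ι) B) : (kT ι p).map ((sE p).map (ah b.β)) ≫ kφ p b.φ =
    (Kl.ks _).map ((sH ι p).map (ahL b.γ)) := by
  refine (kf_map _ _ _ _ _).symm.trans (Kl.hom_ext ?_)
  rw [b.β_φ, un_kf, Functor.map_comp, Kl.un_ks]
  exact congrArg (· ≫ _) (st_ee _ _ _)

/-- **(e)** -/
theorem kl2 (C : CX ι p) (h3 : 3 ≤ Nat.card ι) {b : NZ (SM ι) B'} {σ : B ⟶ B'} (k : NZ.Hom σ a b)
    (h : NIso p b g) {P : EE p} (c : P ≅ (cE p).obj (l, g)) {W : SC (DH ι p)}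
    {y : P ⟶ (sE p).obj a.N.X} {q : W ⟶ (sH ι p).obj a.Z.X}
    (t : (kT ι p).obj P ≅ (Kl.ks _).obj W)
    (ht : (kT ι p).map y ≫ kφ p a.φ = t.hom ≫ (Kl.ks _).map q)
    {x : W ⟶ (sH ι p).obj ((triv _).obj B'.X)}
    (hx : q ≫ (sH ι p).map (ah k.z) = x ≫ (sH ι p).map (ahL b.γ)) :
    ∃ ε : P ≅ ((RH ι p).obj W).V,
      y ≫ (sE p).map (ah k.n) = ε.hom ≫ ((RH ι p).map x).hom ≫ (sE p).map (ah b.β) := by
  obtain ⟨i⟩ : Nonempty ι := inferInstance
  let ε : P ≅ ((RH ι p).obj W).V := (vx C i).lift.mapIso t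
  have e0 := (vx_lift_tau C i (A := P) (B := (sE p).obj B'.X) (ε.hom ≫ ((RH ι p).map x).hom)).symm
  have e1 : t.hom ≫ (Kl.ks _).map x = (kT ι p).map (ε.hom ≫ ((RH ι p).map x).hom) :=
    (bij_lift C i h3 (sg_tH P) (sg_tH ((sE p).obj B'.X))).1
      ((Functor.map_comp _ _ _).trans ((congrArg (_ ≫ ·) (vx_lift_ks C i x)).trans e0))
  refine ⟨ε, (h.fb c).inj ?_⟩
  have e2 : (kT ι p).map ((sE p).map (ah k.n)) ≫ kφ p b.φ =
      kφ p a.φ ≫ (Kl.ks _).map ((sH ι p).map (ah k.z)) :=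
    (kf_map _ _ _ _ _).symm.trans ((congrArg _ k.φ_z.symm).trans (kf_comp _ _ _ _ _))
  rw [← Category.assoc ε.hom, Functor.map_comp, Functor.map_comp (kT ι p) (_ ≫ _), Category.assoc,
    Category.assoc, e2, kφ_β, ← e1]
  refine (Category.assoc _ _ _).symm.trans ((congrArg (· ≫ _) ht).trans ?_)
  refine (Category.assoc _ _ _).trans (Eq.trans ?_ (Category.assoc _ _ _).symm)
  exact congrArg (t.hom ≫ ·) (((Kl.ks _).map_comp _ _).symm.trans
    ((congrArg _ hx).trans ((Kl.ks _).map_comp _ _)))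

end Vale.Agent.P257.W
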