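import Vale.Agent.P257.W.GAlg
import Vale.Agent.P257.W.Kl2

/-!
# P257, part W: the comparison of the quotients in the levels

* `glue2` : the quotient of the Frobenius is computed by the quotient of `N ξ - ξ ^ p u`;
* `glue3` : the same for the corresponding class of `N`.
-/

open CategoryTheory MonoidalCategory Limits Functor.LaxMonoidal Functor.OplaxMonoidal

namespace Vale.Agent.P257.W

open Vale.Agent.P251.H Vale.Agent.P251.H.StabInput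
open K M D D.EF C A T L N
open Vale.Agent.P257.E (triv JA)
open Vale.Agent.P257.F (DH sH RH)
open Vale.Agent.P257.Z (mt UQ)
open Equiv (Perm)

set_option linter.unusedSectionVars false

variable {p : ℕ} {ι : Type} [Finite ι] [DecidableEq ι] [Nontrivial ι] [Fact p.Prime]
  [hι : Fact (Nat.card ι = p)] {C A₁ B₁ B₂ : CommMon MM} (Cx : CX ι p) (h3 : 3 ≤ Nat.card ι)
  {a₁ : NZ (SM ι) B₁} {a₂ : NZ (SM ι) B₂} {g : Gam}
include Cx h3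

theorem uq_tw (h : NTw p a₁ g) (l : ℤ) :
    UQ (JA _ MM ⋙ sH ι p) (RH ι p) (cE p) ((sH ι p).obj a₁.Z.X) (-1) (l, g) := fun V hV => by
  rw [← aH_eq_eul]
  exact div_injective Cx h3 hV (.inl ⟨rfl, h⟩)

theorem uq_of (h : NIso p a₁ g) (h' : NTw p a₁ g) {l : ℤ}
    (hv : (cE p).Van ((sE p).obj a₁.N.X) (l + 1, g)) (e : ℤˣ) :
    UQ (JA _ MM ⋙ sH ι p) (RH ι p) (cE p) ((sH ι p).obj a₁.Z.X) e (l, g) := fun V hV => by
  rw [← aH_eq_eul]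
  exact div_injective Cx h3 hV ((Int.units_eq_one_or e).elim (fun k => .inr ⟨k, h, hv⟩)
    fun k => .inl ⟨k, h'⟩)

omit Cx h3 in
theorem ahL_trivMap (j : A₁ ⟶ B₁) {Z : CommMon (Action MM (Perm ι))} (γ : trivC _ B₁ ⟶ Z) :
    ahL (trivMap (Perm ι) j ≫ γ) = (triv _).map (ah j) ≫ ahL γ := rfl

omit Cx h3 in
theorem ahL_comp {Z Z' : CommMon (Action MM (Perm ι))} (γ : trivC _ B₁ ⟶ Z) (z : Z ⟶ Z') :
    ahL (γ ≫ z) = ahL γ ≫ ah z := rfl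

omit Cx h3 in
theorem sg_triv (X : MM) : Z.Sg 1 ((RH ι p).obj ((sH ι p).obj ((triv (Perm ι)).obj X))) :=
  sg_tH ((sE p).obj X)

omit Cx h3 in
theorem st_am (X : Action MM (Perm ι)) : (sH ι p).map (am (Z.unt ι (Z.pd ι) MM) X) =
    am (aH ι (DH ι p)) ((sH ι p).obj X) := by
  rw [am, am, Functor.map_comp, SC.st_whiskerLeft]
  rfl

omit Cx h3 in
theorem kφ_push {σ : B₁ ⟶ B₂} (k : NZ.Hom σ a₁ a₂) {X : EE p} {W : SC (DH ι p)}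
    {y : X ⟶ (sE p).obj a₁.N.X} {q : W ⟶ (sH ι p).obj a₁.Z.X}
    {t : (kT ι p).obj X ⟶ (Kl.ks _).obj W}
    (ht : (kT ι p).map y ≫ kφ p a₁.φ = t ≫ (Kl.ks _).map q) :
    (kT ι p).map (y ≫ (sE p).map (ah k.n)) ≫ kφ p a₂.φ =
      t ≫ (Kl.ks _).map (q ≫ (sH ι p).map (ah k.z)) := by
  have e : (kT ι p).map ((sE p).map (ah k.n)) ≫ kφ p a₂.φ =
      kφ p a₁.φ ≫ (Kl.ks _).map ((sH ι p).map (ah k.z)) :=
    (kf_map _ _ _ _ _).symm.trans ((congrArg _ k.φ_z.symm).trans (kf_comp _ _ _ _ _))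
  rw [Functor.map_comp, Category.assoc, e, Functor.map_comp]
  exact (Category.assoc _ _ _).symm.trans ((congrArg (· ≫ _) ht).trans (Category.assoc _ _ _))

/-- steps (a) - (d) -/
theorem glue2 {κ : C ⟶ A₁} {σ₀ : A₁ ⟶ cten C T0} (hκ : κ ≫ σ₀ = cinl C T0) {j : A₁ ⟶ B₁}
    {σ : B₁ ⟶ B₂} {φ : cten C T0 ⟶ B₂} (hφ : j ≫ σ = σ₀ ≫ φ) (k : NZ.Hom σ a₁ a₂)
    {V V' : ∀ {P : EE p}, (P ⟶ (sE p).obj (cten C T0).X) → Prop} {X : MM} {a : Lam} {l : ℤ}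
    (hX : NF X (a, 0) l) (hl : Even l) (hd : DetK p ι (cinl C T0) V V' X) {ξ : X ⟶ A₁.X}
    (hξ : V ((sE p).map (ξ ≫ ah σ₀))) {w r n : ℕ} (hr : w ≤ r)
    (h0 : (sE p).map (tX X w ≫ ξ ≫ ah j) = 0) {U W : SC (DH ι p)} {e : ℤˣ}
    {d : U ⟶ (sH ι p).obj ((powG MM (Perm ι) ι).obj X) ⊗
      (sH ι p).obj ((triv _).obj (rp (0, (r : ℤ))))} (ed : Eu (aH ι (DH ι p)) n d)
    (hU : GH p e (p * l - n * ((p : ℤ) - 1), (p • a, (r : ℤ))) U) {f : U ⟶ W}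
    (ef : Eu (aH ι (DH ι p)) (n + 2) f) {q : W ⟶ (sH ι p).obj a₁.Z.X}
    (hq : f ≫ q = d ≫ mt ((sH ι p).map (nrmG ι ξ)) (tR ι p r) ≫
      (sH ι p).map (ahL (trivMap _ j ≫ a₁.γ)))
    (i₁ : NIso p a₁ (p • a, (r : ℤ))) (t₁ : NTw p a₁ (p • a, (r : ℤ)))
    (v₁ : ∀ l' ≤ p * l + 1, (cE p).Van ((sE p).obj a₁.N.X) (l', (p • a, (r : ℤ))))
    (t₂ : NTw p a₂ (p • a, (r : ℤ)))
    (tf : ∀ l', Even l' → ∀ x : (cE p).obj (l', (p • a, 0)) ⟶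
      (sE p).obj (cten C T0).X ⊗ (cE p).obj (1, 0), p • x = 0 → x = 0) :
    ∃ (Y : SC (DH ι p)) (h : Y ⟶ (sH ι p).obj ((triv _).obj (cten C T0).X))
      (ε : W ≅ Y ⊗ (sH ι p).obj ((triv _).obj (rp (0, (r : ℤ))))), V' ((RH ι p).map h).hom ∧
      q ≫ (sH ι p).map (ah k.z) = (ε.hom ≫ mt h (tR ι p r) ≫ (sH ι p).map ((triv _).map (ah φ))) ≫
        (sH ι p).map (ahL a₂.γ) := by
  obtain ⟨u, hu, hd⟩ := hd
  have hp : (Nat.card ι : ℤ) = p := congrArg _ hι.out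
  have hY : GH p 1 (p * l, (p • a, 0)) ((sH ι p).obj ((powG MM (Perm ι) ι).obj X)) :=
    (gh_powG hX.nf0).cast (Int.negOnePow_even _ hl) (by simp)
  have w₁ : (sH ι p).map (ahL (trivMap _ j ≫ a₁.γ)) ≫ (sH ι p).map (ah k.z) =
      (sH ι p).map ((triv _).map (ah σ₀)) ≫ (sH ι p).map ((triv _).map (ah φ)) ≫
        (sH ι p).map (ahL a₂.γ) := by
    rw [← Functor.map_comp, ← Functor.map_comp, ← Functor.map_comp, ← ahL_trivMap, ← ahL_trivMap,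
      ← ahL_comp, Category.assoc, k.hγ, ← Category.assoc, ← trivMap_comp, hφ, trivMap_comp,
      Category.assoc]
  rw [aH_eq_eul] at ed ef
  have z₀ : mt (u ≫ (sH ι p).map (pwK ι κ ξ)) (tR ι p r) ≫
      (sH ι p).map (ahL (trivMap _ j ≫ a₁.γ)) = 0 := by
    rw [ahL_trivMap, Functor.map_comp, ← Category.assoc, mt_pwK κ ξ j hr h0, zero_comp]
  have hg : ((p • a, 0) : Gam) + (0, (r : ℤ)) = (p • a, (r : ℤ)) := by simp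
  have hl' : p * l - n * ((p : ℤ) - 1) + n * ((Nat.card ι : ℤ) - 1) ≤ p * l := by
    rw [hp, sub_add_cancel]
  have tf' : ∀ x : (cE p).obj (p * l + 2 * ((Nat.card ι : ℤ) - 1), (p • a, 0)) ⟶
      ((RH ι p).obj ((sH ι p).obj ((triv _).obj (cten C T0).X))).V ⊗ (cE p).obj (1, 0),
      Nat.card ι • x = 0 → x = 0 := fun x hx =>
    tf _ ((hl.mul_left _).add (even_two_mul _)) x ((congrArg (· • x) hι.out.symm).trans hx)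
  have key := Cx.glue (SIso p) h3 hY (gh_triv (NF0.rp (0, (r : ℤ)))) hg
    (tR ι p r) (sg_triv A₁.X) (sg_triv (cten C T0).X) w₁ (res_nrmG κ ξ hu) z₀
    ed hU hl' ef hq (fun e' l' k' => uq_of Cx h3 i₁ t₁ (v₁ _ (by omega)) e') (uq_tw Cx h3 t₂ _) tf'
  obtain ⟨h, ε, h1, h2⟩ := key
  refine ⟨_, h, ε, hd (ξ ≫ ah σ₀) h hξ ?_, h2.trans (by simp only [Category.assoc])⟩
  rw [Preadditive.sub_comp, Category.assoc, ← Functor.map_comp, ← Functor.map_comp, nrmG_ah,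
    pwK_ah, hκ, ← aH_eq_eul] at h1
  refine Eq.trans ?_ h1
  rw [Functor.map_comp, Category.assoc, st_am, st_am]
  rfl

/-- steps (a) - (e) -/
theorem glue3 {κ : C ⟶ A₁} {σ₀ : A₁ ⟶ cten C T0} (hκ : κ ≫ σ₀ = cinl C T0) {j : A₁ ⟶ B₁}
    {σ : B₁ ⟶ B₂} {φ : cten C T0 ⟶ B₂} (hφ : j ≫ σ = σ₀ ≫ φ) (k : NZ.Hom σ a₁ a₂)
    {V V' : ∀ {P : EE p}, (P ⟶ (sE p).obj (cten C T0).X) → Prop} {X : MM} {a : Lam} {l : ℤ}
    (hX : NF X (a, 0) l) (hl : Even l) (hd : DetK p ι (cinl C T0) V V' X) {ξ : X ⟶ A₁.X}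
    (hξ : V ((sE p).map (ξ ≫ ah σ₀))) {w r n : ℕ} (hr : w ≤ r)
    (h0 : (sE p).map (tX X w ≫ ξ ≫ ah j) = 0) {U W : SC (DH ι p)} {e : ℤˣ}
    {d : U ⟶ (sH ι p).obj ((powG MM (Perm ι) ι).obj X) ⊗
      (sH ι p).obj ((triv _).obj (rp (0, (r : ℤ))))} (ed : Eu (aH ι (DH ι p)) n d)
    (hU : GH p e (p * l - n * ((p : ℤ) - 1), (p • a, (r : ℤ))) U) {f : U ⟶ W}
    (ef : Eu (aH ι (DH ι p)) (n + 2) f) {q : W ⟶ (sH ι p).obj a₁.Z.X}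
    (hq : f ≫ q = d ≫ mt ((sH ι p).map (nrmG ι ξ)) (tR ι p r) ≫
      (sH ι p).map (ahL (trivMap _ j ≫ a₁.γ)))
    (i₁ : NIso p a₁ (p • a, (r : ℤ))) (t₁ : NTw p a₁ (p • a, (r : ℤ)))
    (v₁ : ∀ l' ≤ p * l + 1, (cE p).Van ((sE p).obj a₁.N.X) (l', (p • a, (r : ℤ))))
    (i₂ : NIso p a₂ (p • a, (r : ℤ))) (t₂ : NTw p a₂ (p • a, (r : ℤ)))
    (tf : ∀ l', Even l' → ∀ x : (cE p).obj (l', (p • a, 0)) ⟶
      (sE p).obj (cten C T0).X ⊗ (cE p).obj (1, 0), p • x = 0 → x = 0)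
    {P : EE p} {l' : ℤ} (c : P ≅ (cE p).obj (l', (p • a, (r : ℤ)))) {y : P ⟶ (sE p).obj a₁.N.X}
    (t : (kT ι p).obj P ≅ (Kl.ks _).obj W)
    (ht : (kT ι p).map y ≫ kφ p a₁.φ = t.hom ≫ (Kl.ks _).map q) :
    ∃ (Y : EE p) (x : Y ⟶ (sE p).obj (cten C T0).X) (ε : P ≅ Y ⊗ (sE p).obj (rp (0, (r : ℤ)))),
      V' x ∧ y ≫ (sE p).map (ah k.n) = (ε.hom ≫ Y ◁ (sE p).map (t1 r) ≫ (ρ_ Y).hom ≫ x ≫
        (sE p).map (ah φ)) ≫ (sE p).map (ah a₂.β) := by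
  obtain ⟨Y, h, ε, h1, h2⟩ := glue2 Cx h3 hκ hφ k hX hl hd hξ hr h0 ed hU ef hq i₁ t₁ v₁ t₂ tf
  obtain ⟨ε', h3⟩ := kl2 Cx h3 k i₂ c t ht h2
  obtain ⟨ε'', h4⟩ := res_mt h r
  refine ⟨_, _, ε' ≪≫ (RH ι p ⋙ Action.forget _ _).mapIso ε ≪≫ ε'', h1, h3.trans ?_⟩
  rw [Functor.map_comp, Functor.map_comp, Action.comp_hom, Action.comp_hom, h4]
  simp only [Category.assoc, Iso.trans_hom]
  have h5 : ((RH ι p).map ((sH ι p).map ((triv (Perm ι)).map (ah φ)))).hom = (sE p).map (ah φ) :=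
    E.rsA_st_hom _ _ _ _
  rw [h5]
  exact congrArg (ε'.hom ≫ ·) (Category.assoc _ _ _).symm

end Vale.Agent.P257.W
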