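import Vale.Agent.P257.W.PerX
import Vale.Agent.P257.P.MU2

/-!
# P257, part W: ungraded spectra in degree zero, and `MU` in `MM`

* `isLoc_comp`: transfer of `IsLoc` along a fully faithful monoidal functor;
* `lG : EF O ⥤ MM` (fully faithful, braided), `sG p = lG ⋙ sE p` is the stabilization of `EF O`;
* `MG : CommMon MM`, its supports and its profile.
-/

open CategoryTheory MonoidalCategory Limits OnePoint Functor.LaxMonoidal Functor.OplaxMonoidal

namespace Vale.Agent.P257.W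

open Vale.Agent.P251.H (PQ StabInput)
open Vale.Agent.P251.H.StabInput (MHtpy S J inc)
open Vale.Agent.P251.G (LC)
open K M D D.EF C A T
open scoped Pointwise
open E (tt Tk IsLoc n0 DE)

universe v u v' u' v'' u''

section transfer

variable {N : Type u} [Category.{v} N] [MonoidalCategory N] [SymmetricCategory N]
  [MonoidalClosed N] [HasZeroMorphisms N] [HasColimitsOfSize.{0, 0} N] [StabInput N]
  {N' : Type u'} [Category.{v'} N'] [MonoidalCategory N'] [SymmetricCategory N']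
  [MonoidalClosed N'] [HasZeroMorphisms N'] [HasColimitsOfSize.{0, 0} N'] [StabInput N']
  {C : Type u''} [Category.{v''} C] (F : N ⥤ N')

theorem mHtpy_of_map [Ten F] [F.Full] [F.Faithful] {X Y : N} {f g : X ⟶ Y}
    (h : MHtpy (F.map f) (F.map g)) : MHtpy f g := by
  obtain ⟨H, h0, h1⟩ := h
  exact ⟨F.preimage ((ten F X LC.II).inv ≫ H),
    F.map_injective (by rw [F.map_comp, F.map_preimage, map_inc_ten_inv_assoc, h0]),
    F.map_injective (by rw [F.map_comp, F.map_preimage, map_inc_ten_inv_assoc, h1])⟩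

variable [F.Monoidal] {U : N} {lam : U ⟶ 𝟙_ N} {U' : N'} {lam' : U' ⟶ 𝟙_ N'}
  (e : U' ≅ F.obj U) (he : e.hom ≫ F.map lam ≫ η F = lam')

omit [SymmetricCategory N] [MonoidalClosed N] [HasZeroMorphisms N] [HasColimitsOfSize.{0, 0} N]
  [StabInput N] [SymmetricCategory N'] [MonoidalClosed N'] [HasZeroMorphisms N']
  [HasColimitsOfSize.{0, 0} N'] [StabInput N'] in
include he in
theorem map_tt (A : N) : e.hom ▷ F.obj A ≫ μ F U A ≫ F.map (tt lam A) = tt lam' (F.obj A) := by
  rw [tt, tt, ← he, F.map_comp, ← μ_natural_left_assoc, comp_whiskerRight, comp_whiskerRight,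
    Category.assoc, Category.assoc, Functor.Monoidal.map_leftUnitor, Functor.Monoidal.μ_δ_assoc]

omit [SymmetricCategory N] [MonoidalClosed N] [HasZeroMorphisms N] [HasColimitsOfSize.{0, 0} N]
  [StabInput N] [SymmetricCategory N'] [MonoidalClosed N'] [HasZeroMorphisms N']
  [HasColimitsOfSize.{0, 0} N'] [StabInput N'] in
include he in
theorem exists_tk_map {A : N} {A'' : N'} {t' : A'' ⟶ F.obj A} (h : Tk lam' (F.obj A) t') :
    ∃ (A' : N) (t : A' ⟶ A) (i : A'' ≅ F.obj A'), Tk lam A t ∧ i.hom ≫ F.map t = t' := by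
  induction h with
  | id => exact ⟨A, 𝟙 A, Iso.refl _, Tk.id, by simp⟩
  | succ _ ih =>
    obtain ⟨A', t, i, ht, rfl⟩ := ih
    refine ⟨U ⊗ A', tt lam A' ≫ t, (e ⊗ᵢ i) ≪≫ Functor.Monoidal.μIso F U A', ht.succ, ?_⟩
    rw [Iso.trans_hom, tensorIso_hom, tensorHom_def', F.map_comp, Category.assoc, Category.assoc,
      Functor.Monoidal.μIso_hom, reassoc_of% map_tt F e he, E.tt_nat_assoc]

include he in
theorem inv_comp [Ten F] {G : N' ⥤ C} (h : E.Inv lam' G) : E.Inv lam (F ⋙ G) where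
  htpy k := h.htpy (mHtpy_map F k)
  iso A := by
    have := h.iso (F.obj A)
    rw [← map_tt F e he, ← Category.assoc, G.map_comp] at this
    exact IsIso.of_isIso_comp_left (G.map (e.hom ▷ F.obj A ≫ μ F U A)) (G.map (F.map (tt lam A)))

include he in
/-- transfer of stabilizations along fully faithful functors -/
theorem isLoc_comp [Ten F] [F.Full] [F.Faithful] {G : N' ⥤ C} (h : IsLoc lam' G) :
    IsLoc lam (F ⋙ G) where
  toInv := inv_comp F e he h.toInv
  surj x := by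
    obtain ⟨A'', t', f', ht, k⟩ := h.surj x
    obtain ⟨A', t, i, ht', rfl⟩ := exists_tk_map F e he ht
    refine ⟨A', t, F.preimage (i.inv ≫ f'), ht', ?_⟩
    rw [Functor.comp_map, Functor.comp_map, F.map_preimage, G.map_comp, ← k, ← G.map_comp_assoc,
      i.inv_hom_id_assoc]
  inj k := by
    obtain ⟨A'', t', ht, k⟩ := h.inj k
    obtain ⟨A', t, i, ht', rfl⟩ := exists_tk_map F e he ht
    refine ⟨A', t, ht', mHtpy_of_map F ?_⟩
    simpa only [Category.assoc, Iso.inv_hom_id_assoc, F.map_comp] using k.comp_left i.inv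

end transfer

theorem sphFun_of_iso {C : Type u} [Category.{v} C] [Preadditive C] {T T' : LC ⥤ C}
    (h : SphFun T) (e : T' ≅ T) : SphFun T' where
  htpy {X Y f g} k := by
    rw [← cancel_mono (e.hom.app Y), e.hom.naturality, e.hom.naturality, h.htpy k]
  zero X Y := by
    rw [← cancel_mono (e.hom.app Y), e.hom.naturality, h.zero, comp_zero, zero_comp]
  ext {X Y Z} f h1 h2 := by
    rw [← cancel_epi (e.inv.app _), comp_zero]
    exact h.ext _ (by rw [e.inv.naturality_assoc, h1, comp_zero])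
      (by rw [e.inv.naturality_assoc, h2, comp_zero])

theorem isIso_of_app {J : Type} [Idx J] {X Y : EF J} (f : X ⟶ Y) (h : ∀ a, IsIso (f.app a)) :
    IsIso f :=
  (EF.isoMk (fun a => @asIso _ _ _ _ (f.app a) (h a)) f.naturality).isIso_hom

section lG

/-- the inclusion in degree zero -/
noncomputable abbrev iG : O ⥤ JG := Gr.inc O (0 : Gam)

/-- ungraded spectra in degree zero -/
noncomputable abbrev lG : EF O ⥤ MM := lan iG

variable {X Y : EF O}

/-- the comparison with the constant object -/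
noncomputable def lGc (X : EF O) : lG.obj X ⟶ (res (Gr.proj O Gam)).obj X :=
  lanDesc (Z := (res (Gr.proj O Gam)).obj X) ⟨fun _ => 𝟙 _, fun _ =>
    (Category.comp_id _).trans (Category.id_comp _).symm⟩

theorem fn_lGc {a : O} (x : OnePoint (X.obj a)) :
    fn (lGc X) (li iG x) = ri (Gr.proj O Gam) (a := iG.obj a) x := fn_lanDesc _ _

theorem degIso_lGc (X : EF O) : DegIso O (Set.Ici 0) (lGc X) := fun x hx => by
  let w : iG.obj x.ob ⟶ x := Gr.homMk (𝟙 _) hx
  refine ⟨(lanUnit iG X).app x.ob ≫ (lG.obj X).map w, PQ.hom_ext' fun z => ?_,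
    PQ.hom_ext' fun z => ?_⟩
  · obtain ⟨a, v, y, rfl⟩ := exists_li z
    change (lG.obj X).act w (li iG (unri (fn (lGc X) ((lG.obj X).act v (li iG y))))) =
      (lG.obj X).act v (li iG y)
    rw [fn_act, fn_lGc]
    refine (congrArg ((lG.obj X).act w) (act_li (Φ := iG) (a := a) (b := x.ob) v.hom y).symm).trans ?_
    rw [← act_comp]
    exact congrArg (fun w => (lG.obj X).act w _) (Gr.hom_ext (Category.comp_id _))
  · change fn (lGc X) ((lG.obj X).act w (li iG (a := x.ob) z)) = z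
    rw [fn_act]
    exact (congrArg _ (fn_lGc (a := x.ob) z)).trans (X.act_id _)

instance (X : EF O) : IsIso ((lanAdj iG).unit.app X) := isIso_of_app _ fun a => by
  have h := degIso_lGc X (iG.obj a) (Set.mem_Ici.2 le_rfl)
  have e : (lanUnit iG X).app a ≫ (lGc X).app (iG.obj a) = 𝟙 _ :=
    PQ.hom_ext' fun z => fn_lGc z
  have : IsIso ((lanUnit iG X).app a ≫ (lGc X).app (iG.obj a)) := by
    rw [e]
    exact IsIso.id _
  exact @IsIso.of_isIso_comp_right _ _ _ _ _ _ ((lGc X).app (iG.obj a)) h this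

instance : IsIso (lanAdj iG).unit := NatIso.isIso_of_isIso_app _

instance : lG.Full := (lanAdj iG).fullyFaithfulLOfIsIsoUnit.full

instance : lG.Faithful := (lanAdj iG).fullyFaithfulLOfIsIsoUnit.faithful

theorem supp_lG (X : EF O) : Supp (lG.obj X) (Set.Ici 0) := fun x hx => isZero_PQ.2 fun z => by
  obtain ⟨a, w, y, rfl⟩ := exists_li z
  rw [Gr.eq_zero_of_not_le hx w, act_zero]

theorem wt_lG (X : EF O) : Supp (lG.obj X) {g : Gam | g.1 = 0} :=
  (supp_lG X).mono fun _ h => Eq.symm h.1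

theorem posT_lG (X : EF O) : PosT (lG.obj X) 0 := (supp_lG X).mono fun _ h => h.2

theorem posL_lG (X : EF O) : PosL (lG.obj X) := (wt_lG X).mono fun g h => by
  change 0 ≤ ell g.1
  rw [show g.1 = 0 from h, _root_.map_zero]

theorem coloc_lG (X : EF O) : (DegIso O {(0 : Gam)}).isColocal (lG.obj X) := fun _ _ f hf => by
  have : IsIso ((res iG).map f) := isIso_of_app _ fun a => hf (iG.obj a) rfl
  exact (bijective_adj_iff (lanAdj iG) X f).2 ((isIso_iff_yoneda_map_bijective _).1 this X)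

theorem deg_lG (X : EF O) : Deg (lG.obj X) {0} := fun x A =>
  ObjectProperty.prop_of_iso _ (β_ _ _)
    (add_comm ({x.deg} : Set Gam) {0} ▸ (Deg.smul x A).coloc_tensor (coloc_lG X))

theorem le0_lG (X : EF O) : Le0 (lG.obj X) :=
  Le0.of_deg (deg_lG X) (by rintro _ rfl; exact le_rfl)

/-- the inverse of the circle -/
noncomputable def lGL : lG.obj StabInput.L ≅ StabInput.L := lanRep iG O.pt

/-- spaces -/
noncomputable def lGJ (K : LC) : lG.obj ((J (EF O)).obj K) ≅ (J MM).obj K := lanJIso iG K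

/-- the source of the structure map -/
noncomputable def lGU : (StabInput.L : MM) ⊗ S MM ≅ lG.obj (StabInput.L ⊗ S (EF O)) :=
  (lGL.symm ⊗ᵢ (lGJ LC.RR).symm) ≪≫ Functor.Monoidal.μIso lG _ _

theorem lGU_lam : lGU.hom ≫ lG.map StabInput.lam ≫ η lG = StabInput.lam := by
  have h : μ lG (rep O.pt) ((jC O).obj LC.RR) ≫ lG.map (lamC O) ≫ η lG =
      ((lanRep iG O.pt).hom ⊗ₘ (lanJIso iG LC.RR).hom) ≫ lamC JG := by
    refine lan_tensor_ext fun a b x y => ?_
    obtain ⟨x, rfl⟩ := pr_surjective x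
    obtain ⟨r, y, rfl⟩ := jm_surjective y
    refine Eq.trans ?_ (fn_comp _ _ _).symm
    rw [fn_comp, fn_comp, lan_μ, fn_lanMu, fn_act, fn_act, fn_lan_map, tensorHom_tm,
      fn_lanRep_hom, fn_lanJIso_hom]
    refine Eq.trans ?_ (lamC_tm (J := JG) (iG.map x) r _).symm
    refine (congrArg (fun z => (𝟙_ MM).act _ (fn (η lG) (li iG z))) (lamC_tm (J := O) x r y)).trans ?_
    refine (congrArg _ (fn_lanEta iG _)).trans ((rep_act _ _).trans (congrArg pr (Gr.hom_ext ?_)))
    exact (Category.comp_id _).trans ((Category.id_comp _).trans (congrArg₂ smp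
      (congrArg (· ≫ x) (Gr.sphIdx_pt_hom (Λ := Gam) r).symm) (Category.id_comp _).symm))
  change ((lGL.inv ⊗ₘ (lGJ LC.RR).inv) ≫ μ lG (rep O.pt) ((jC O).obj LC.RR)) ≫
    lG.map (lamC O) ≫ η lG = lamC JG
  rw [Category.assoc, h]
  exact (lanRep iG O.pt ⊗ᵢ lanJIso iG LC.RR).inv_hom_id_assoc _

@[reassoc]
theorem lGU_nat (f : LC.RR ⟶ LC.RR) :
    lGU.hom ≫ lG.map (StabInput.L ◁ (J (EF O)).map f) = StabInput.L ◁ (J MM).map f ≫ lGU.hom := by
  have h : (lGJ LC.RR).inv ≫ lG.map ((J (EF O)).map f) = (J MM).map f ≫ (lGJ LC.RR).inv := by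
    rw [Iso.inv_comp_eq, ← Category.assoc, Iso.eq_comp_inv]
    exact lan_map_lanJIso iG f
  change ((lGL.inv ⊗ₘ (lGJ LC.RR).inv) ≫ μ lG _ _) ≫ _ = _ ≫ (lGL.inv ⊗ₘ (lGJ LC.RR).inv) ≫ μ lG _ _
  rw [Category.assoc, ← μ_natural_right, ← id_tensorHom, ← id_tensorHom,
    tensorHom_comp_tensorHom_assoc, tensorHom_comp_tensorHom_assoc, h, Category.id_comp,
    Category.comp_id]

theorem lGU_DE (n : ℕ) : lGU.hom ≫ lG.map (DE (EF O) n).lam ≫ η lG = (DE MM n).lam := by
  change lGU.hom ≫ lG.map (StabInput.L ◁ (J (EF O)).map (LC.mfold n) ≫ StabInput.lam) ≫ η lG =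
    StabInput.L ◁ (J MM).map (LC.mfold n) ≫ StabInput.lam
  rw [lG.map_comp, Category.assoc, lGU_nat_assoc, lGU_lam]

variable (p : ℕ)

/-- the stabilization of ungraded spectra in `EE p` -/
noncomputable abbrev sG : EF O ⥤ EE p := lG ⋙ sE p

theorem isLoc_sG : IsLoc (DE (EF O) (n0 p)).lam (sG p) :=
  isLoc_comp lG lGU (lGU_DE _) (E.isLoc (De p))

theorem sphFun_sG : SphFun (jC O ⋙ sG p) :=
  sphFun_of_iso (SC.sphFun (De p)) (Functor.isoWhiskerRight (lanJ iG) (sE p))

theorem zero_sG (A B : EF O) : (sG p).map (0 : A ⟶ B) = 0 := Functor.map_zero _ A B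

/-- the circle -/
noncomputable def sGOne : (SC.sph (De p)).obj 1 ≅ (sG p).obj (S (EF O)) :=
  SC.sphOne (De p) ≪≫ (sE p).mapIso (lGJ LC.RR).symm

variable {p}

theorem van_of_le0 {X : MM} (h : Le0 X) {l T : ℤ} {a : Lam} (hT : 0 ≤ T)
    (k : (cE p).Van ((sE p).obj X) (l, (a, 0))) : (cE p).Van ((sE p).obj X) (l, (a, T)) := by
  obtain ⟨f, rfl⟩ := Int.eq_ofNat_of_zero_le hT
  refine V.Surj.van (f := (sE p).map (tX X f)) (bij_tX h le_rfl a l).2 ?_
  refine (((tE p).van_R_iff f).2 ?_).of_iso (Functor.Monoidal.μIso (sE p) _ _)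
  rwa [sub_self]

/-- The profile of a connective spectrum. -/
theorem prof_lG (X : EF O) (hX : ∀ l : ℤ, l < 0 → (cE p).Van ((sG p).obj X) (l, 0)) (P Lm : ℕ)
    (hp : 0 < p) : V.Prof (tE p) (V.par p P Lm hp) ((sG p).obj X) 0 0 := by
  intro a _
  by_cases ha : a = 0
  · subst ha
    refine ⟨fun l T hT => van_of_posT (posT_lG X) hT l, stab_of_le0 (le0_lG X) _ _,
      fun l hl => van_of_le0 (le0_lG X) (Int.natCast_nonneg _) (hX l ?_)⟩
    rw [_root_.map_zero, mul_zero, sub_zero] at hl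
    exact neg_of_mul_neg_right hl (Int.natCast_nonneg p)
  · exact V.ProfAt.of_van fun l T _ => van_of_supp (wt_lG X) ha l

theorem prof_lG' (X : EF O)
    (hX : ∀ l : ℤ, l < 0 → ∀ x : (SC.sph (De p)).obj l ⟶ (sG p).obj X, x = 0) (P Lm : ℕ)
    (hp : 0 < p) : V.Prof (tE p) (V.par p P Lm hp) ((sG p).obj X) 0 0 :=
  prof_lG X (fun l hl x => by
    rw [← cancel_epi (sphIso p l).hom, hX l hl (_ ≫ x), comp_zero]) P Lm hp

end lG

/-- `MU` in degree zero -/
noncomputable def MG : CommMon MM := lG.mapCommMon.obj P.MUc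

theorem MG_X : MG.X = lG.obj P.MUo := rfl

theorem MG_one : MonObj.one (X := MG.X) = ε lG ≫ lG.map (MonObj.one (X := P.MUo)) := rfl

theorem MG_mul :
    MonObj.mul (X := MG.X) = μ lG P.MUo P.MUo ≫ lG.map (MonObj.mul (X := P.MUo)) := rfl

theorem supp_MG : Supp MG.X (Set.Ici 0) := supp_lG _

theorem wt_MG : Supp MG.X {g : Gam | g.1 = 0} := wt_lG _

theorem posT_MG : PosT MG.X 0 := posT_lG _

theorem posL_MG : PosL MG.X := posL_lG _

theorem deg_MG : Deg MG.X {0} := deg_lG _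

theorem le0_MG : Le0 MG.X := le0_lG _

theorem prof_MG {p : ℕ}
    (h : ∀ l : ℤ, l < 0 → ∀ x : (SC.sph (De p)).obj l ⟶ (sG p).obj P.MUo, x = 0) (P Lm : ℕ)
    (hp : 0 < p) : V.Prof (tE p) (V.par p P Lm hp) ((sE p).obj MG.X) 0 0 := prof_lG' _ h P Lm hp

end Vale.Agent.P257.W
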