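import Vale.Agent.P257.T.Per
import Vale.Agent.P257.W.TC

/-!
# P257, part W: complements on periodicity

* `isColimitUn`: `T0.X` is the wedge of the `rp (a, 0)`; `degIso_un`, `degIso_whiskerLeft_un`;
* `degIso_tX`: objects generated in filtration degrees `≤ 0` are `t`-stable from degree `0` on.
-/

open CategoryTheory MonoidalCategory Limits OnePoint

namespace Vale.Agent.P257.W

open Vale.Agent.P251.H (PQ)
open K M D D.EF C A T

universe v u

section wedge

variable {C : Type u} [Category.{v} C] [HasZeroMorphisms C] {κ : Type} {F : Discrete κ ⥤ C}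
  {c : Cocone F} {i : Discrete κ}

theorem isIso_of_wedge (hc : IsColimit c) (h : ∀ j, j ≠ i → IsZero (F.obj j)) :
    IsIso (c.ι.app i) := by
  classical
  let s : Cocone F := ⟨F.obj i, Discrete.natTrans fun j =>
    if e : j = i then F.map (eqToHom e) else 0⟩
  have k : c.ι.app i ≫ hc.desc s = 𝟙 _ := (hc.fac s i).trans (by simp [s])
  refine ⟨hc.desc s, k, hc.hom_ext fun j => ?_⟩
  by_cases e : j = i
  · subst e
    rw [reassoc_of% k]
    exact (Category.comp_id _).symm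
  · exact (h j e).eq_of_src _ _

/-- a wedge with one nonzero summand -/
noncomputable def isColimitWedge (hi : IsIso (c.ι.app i)) (h : ∀ j, j ≠ i → IsZero (F.obj j)) :
    IsColimit c where
  desc s := inv (c.ι.app i) ≫ s.ι.app i
  fac s j := by
    by_cases e : j = i
    · subst e
      exact IsIso.hom_inv_id_assoc _ _
    · exact (h j e).eq_of_src _ _
  uniq s m hm := by
    rw [← hm i]
    exact (IsIso.inv_hom_id_assoc _ _).symm

end wedge

section per

theorem degIso_un (a : Lam) : DegIso O {g : Gam | g.1 = a} (un a) := fun x hx => by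
  have hx : x.deg.1 = a := hx
  by_cases h : 0 ≤ x.deg.2
  · have h1 : (⟨𝟙_ O, (a, 0)⟩ : JG).deg ≤ x.deg := ⟨hx.symm, h⟩
    have h2 : (𝟙_ JG).deg ≤ (wJ.obj x).deg := ⟨le_rfl, h⟩
    have e : (un a).app x = (Gr.homIso h1 ≪≫ (Gr.homIso h2).symm).hom := by
      apply PQ.hom_ext'
      intro u
      obtain ⟨u, rfl⟩ := pr_surjective u
      refine (fn_unG (g := (a, 0)) le_rfl u).trans (Eq.trans ?_ (PQ.app_comp _ _ _).symm)
      refine Eq.trans ?_ (congrArg _ (Gr.app_homIso_hom h1 u)).symm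
      refine Eq.trans ?_ (Gr.app_homIso_inv h2 u.hom).symm
      exact tp_congr (Category.id_comp _)
    rw [e]
    exact Iso.isIso_hom _
  · exact (Supp.rep (⟨𝟙_ O, (a, 0)⟩ : JG) x fun k =>
      h (show ((a, 0) : Gam) ≤ x.deg from k).2).isIso (posT_T0 x h) _

theorem supp_rp (g : Gam) : Supp (rp g) {g' : Gam | g'.1 = g.1} :=
  (NF0.rp g).supp.mono fun _ h => h.1.symm

theorem supp_tensor_wt {X Y : MM} {a b : Lam} (hX : Supp X {g : Gam | g.1 = a})
    (hY : Supp Y {g : Gam | g.1 = b}) : Supp (X ⊗ Y) {g : Gam | g.1 = a + b} :=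
  hX.tensor' hY fun p hp q hq r hr =>
    (show p.1 + q.1 = r.1 from hr.1).symm.trans (congrArg₂ (· + ·) hp hq)

/-- `T0` is the wedge of the units. -/
noncomputable def isColimitUn : IsColimit (Cofan.mk T0.X un) :=
  isColimitOfEv _ fun x => isColimitWedge (i := ⟨x.deg.1⟩) (degIso_un _ x rfl)
    fun j hj => supp_rp (j.as, 0) x fun h => hj (Discrete.ext h.symm)

theorem deg_T0 : Deg T0.X {g : Gam | g.2 = 0} :=
  Deg.of_isColimit isColimitUn fun j => (NF0.rp (j.as, 0)).deg.mono (by rintro _ rfl; rfl)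

theorem T0_ext {Z : MM} {f g : T0.X ⟶ Z} (h : ∀ a, un a ≫ f = un a ≫ g) : f = g :=
  isColimitUn.hom_ext fun j => h j.as

/-- the weight `c + a` part of `Y ⊗ T0` for `Y` of weight `c` -/
theorem degIso_whiskerLeft_un' {Y : MM} {c : Lam} (hY : Supp Y {g : Gam | g.1 = c}) (a : Lam) :
    DegIso O {g : Gam | g.1 = c + a} (Y ◁ un a) := fun x hx =>
  isIso_of_wedge (i := ⟨a⟩) (isColimitOfPreserves (tensorLeft Y ⋙ ev x) isColimitUn) fun j hj =>
    supp_tensor_wt hY (supp_rp (j.as, 0)) x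
      fun h => hj (Discrete.ext (add_left_cancel (h.symm.trans hx)))

/-- the weight `a` part of `Y ⊗ T0` for `Y` of weight zero -/
theorem degIso_whiskerLeft_un {Y : MM} (hY : Supp Y {g : Gam | g.1 = 0}) (a : Lam) :
    DegIso O {g : Gam | g.1 = a} (Y ◁ un a) := by
  simpa only [zero_add] using degIso_whiskerLeft_un' hY a

end per

section stab

variable {X : MM}

theorem fn_tX (f : ℕ) {a : JG} (y : OnePoint (X.obj a)) :
    fn (tX X f) (EF.tm y (pr (𝟙 (⟨𝟙_ O, (0, (f : ℤ))⟩ : JG)))) =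
      X.act (Gr.homMk (y := a ⊗ ⟨𝟙_ O, (0, (f : ℤ))⟩) (ρ_ a.ob).inv
        (le_add_of_nonneg_right (show (0 : Gam) ≤ (0, (f : ℤ)) from
          ⟨le_rfl, Int.natCast_nonneg f⟩))) y := by
  refine (congrArg (fn (ρ_ X).hom) ((whiskerLeft_tm X (t1 f) y _).trans
    (congrArg (EF.tm y) (fn_repMap_pr _ _)))).trans ((rightUnitor_tm _ _).trans ?_)
  refine congrArg (fun w => X.act w y) (Gr.hom_ext ?_)
  erw [unpr_pr]
  change (ρ_ a.ob).inv ≫ a.ob ◁ (𝟙 (𝟙_ O) ≫ 𝟙 (𝟙_ O)) = (ρ_ a.ob).inv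
  rw [Category.comp_id, MonoidalCategory.whiskerLeft_id, Category.comp_id]

/-- Objects generated in degrees `≤ 0` are `t`-stable from degree zero on. -/
theorem degIso_tX (h : Le0 X) (f : ℕ) : DegIso O {g : Gam | (f : ℤ) ≤ g.2} (tX X f) := by
  intro x hx
  have hx : (f : ℤ) ≤ x.deg.2 := hx
  let r : JG := ⟨𝟙_ O, (0, (f : ℤ))⟩
  let w : trJ.obj x ⊗ r ⟶ x := Gr.homMk (ρ_ x.ob).hom ⟨add_zero _, by
    change min x.deg.2 0 + f ≤ x.deg.2
    omega⟩
  let s : X.obj x ⟶ (X ⊗ rp (0, (f : ℤ))).obj x :=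
    ⟨fun y => (X ⊗ rep r).act w (EF.tm (unri (fn h.sec y)) (pr (𝟙 r))), by
      rw [fn_infty, unri_infty, tm_infty_left, act_infty]
      rfl, fun K y hy =>
        act_plot' _ _ (tm_plot (unri_plot (fn_plot _ hy)) (((rep r).obj r).plot_const _ _))⟩
  refine ⟨s, PQ.hom_ext' fun z => ?_, PQ.hom_ext' fun y => ?_⟩
  · obtain ⟨a, b, v, y, u, rfl⟩ := exists_tm (X := X) (Y := rep r) z
    obtain ⟨u, rfl⟩ := pr_surjective u
    have e : (X ⊗ rep r).act v (EF.tm y (pr u)) =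
        (X ⊗ rep r).act (a ◁ u ≫ v) (EF.tm y (pr (𝟙 r))) := by
      rw [act_comp, act_tm_right, rep_act, Category.id_comp]
    rw [e]
    generalize a ◁ u ≫ v = v'
    change (X ⊗ rep r).act w (EF.tm (unri (fn h.sec (fn (tX X f) ((X ⊗ rep r).act v' _))))
      (pr (𝟙 r))) = (X ⊗ rep r).act v' _
    erw [fn_act (tX X f), fn_tX]
    rw [← act_comp, fn_act, unri_act, ← act_tm_left, ← act_comp]
    conv_rhs => rw [← h.act_sec y, ← act_tm_left, ← act_comp]
    refine congrArg (fun w => (X ⊗ rep r).act w _) (Gr.hom_ext ?_)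
    change ((ρ_ a.ob).inv ≫ v'.hom) ▷ 𝟙_ O ≫ (ρ_ x.ob).hom = 𝟙 a.ob ▷ 𝟙_ O ≫ v'.hom
    rw [rightUnitor_naturality, Iso.hom_inv_id_assoc, id_whiskerRight]
    exact (Category.id_comp _).symm
  · change fn (tX X f) ((X ⊗ rep r).act w (EF.tm (unri (fn h.sec y)) (pr (𝟙 r)))) = y
    erw [fn_act (tX X f), fn_tX]
    rw [← act_comp]
    refine Eq.trans (congrArg (fun w => X.act w _) (Gr.hom_ext ?_)) (h.act_sec y)
    exact (ρ_ x.ob).inv_hom_id

variable {p : ℕ}

theorem bij_tX (h : Le0 X) {f : ℕ} {T : ℤ} (hT : (f : ℤ) ≤ T) (a : Lam) (l : ℤ) :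
    Function.Bijective fun x : (cE p).obj (l, (a, T)) ⟶ (sE p).obj (X ⊗ rp (0, (f : ℤ))) =>
      x ≫ (sE p).map (tX X f) := bij_cell' (degIso_tX h f) hT l

theorem stab_of_le0 (h : Le0 X) (P : ℤ) (a : Lam) : V.Stab (tE p) P ((sE p).obj X) a 0 :=
  fun l _ f h1 _ => ((realE p).van_cone (bij_tX h (by simpa using h1) a) l).of_iso
    ((sE p).mapIso (V.coneTX X f ≪≫ β_ _ _) ≪≫ (Functor.Monoidal.μIso (sE p) _ _).symm)

theorem stab_tensor_of_le0 {Y : MM} (hY : Le0 Y) (h : Le0 X) (P : ℤ) (a : Lam) :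
    V.Stab (tE p) P ((sE p).obj Y ⊗ (sE p).obj X) a 0 :=
  (stab_of_le0 (hY.tensor h) P a).of_iso (Functor.Monoidal.μIso (sE p) _ _).symm

end stab

end Vale.Agent.P257.W
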