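import Vale.Agent.P257.W.GDef2

/-!
# P257, part W: the quotient of a Frobenius class by the Euler class
-/

open CategoryTheory MonoidalCategory Limits

namespace Vale.Agent.P257.W

open Vale.Agent.P251.H Vale.Agent.P251.H.StabInput
open K M D D.EF T N
open Vale.Agent.P257.F (DH sH RH)
open Equiv (Perm)

variable {p : ℕ} {ι : Type} [Finite ι] [DecidableEq ι] [Nontrivial ι] [Fact p.Prime]
  [hι : Fact (Nat.card ι = p)] {B : CommMon MM} {a : NZ (SM ι) B}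

/-- **The division.** -/
theorem exists_frq (C : CX ι p) (h3 : 3 ≤ Nat.card ι) {Y : MM} {c : O} {b : Lam} {lam w n : ℕ}
    {k : ℤ} (hc : Nonempty c.El) (hn : (n : ℤ) = Fintype.card c.El + k) (hk : Even k)
    (e : Y ≅ rep (⟨c, (b, (w : ℤ))⟩ : JG) ⊗ tpow (S MM) n)
    (hi : NIso p a (p • b, ((lam * w : ℕ) : ℤ))) (ht : NTw p a (p • b, ((lam * w : ℕ) : ℤ)))
    (hv : ∀ l ≤ p * k, (cE p).Van ((sE p).obj a.N.X) (l, (p • b, ((lam * w : ℕ) : ℤ))))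
    (x : (sH ι p).obj ((FrL (Perm ι) ι lam).obj Y) ⟶ (sH ι p).obj a.Z.X) :
    ∃ (Q : Action MM (Perm ι)) (f : (sH ι p).obj ((FrL (Perm ι) ι lam).obj Y) ⟶ (sH ι p).obj Q)
      (q : (sH ι p).obj Q ⟶ (sH ι p).obj a.Z.X) (X : MM) (y : X ⟶ a.N.X)
      (t : (kT ι p).obj ((sE p).obj X) ≅ (kP ι p).obj Q),
      Eu (aH ι (DH ι p)) (n + 2) f ∧ f ≫ q = x ∧ PosT Q.V (lam * w : ℕ) ∧
      NF X (p • b, ((lam * w : ℕ) : ℤ)) (p * k + 2 * ((p : ℤ) - 1)) ∧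
      (kT ι p).map ((sE p).map y) ≫ kφ p a.φ = t.hom ≫ (Kl.ks _).map q := by
  have hg : scD p lam (b, (w : ℤ)) = (p • b, ((lam * w : ℕ) : ℤ)) := by simp
  have h1 := (gh_FrL (ι := ι) (p := p) (lam := lam) hc e).cast rfl (congrArg (Prod.mk _) hg)
  have ef := eu_st (Eu.of_tpow (aR ι) ((FrL (Perm ι) ι lam).obj Y) (n + 2)) (DH ι p)
  have hp : (1 : ℤ) ≤ p := Int.ofNat_le.2 (Fact.out : p.Prime).one_le
  have ev : Even (Fintype.card c.El + n) := by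
    obtain ⟨k', rfl⟩ := hk
    exact (Int.even_coe_nat _).1 ⟨Fintype.card c.El + k', by push_cast; rw [hn]; ring⟩
  obtain ⟨q, hq⟩ := eu_surj C h3 ef h1 hi ht (fun j hj h => hv _ (by
    have : j ≠ n + 1 := fun k => by
      rw [k, ← pow_add, ← add_assoc, pow_succ, ev.neg_one_pow] at h
      exact absurd h (by decide)
    have h2 : (j : ℤ) ≤ n := by omega
    rw [hn] at h2 ⊢
    nlinarith)) x
  have h2 := (GH.eu C ef h1).cast (e' := 1) (by
    rw [← pow_add, ← add_assoc, (ev.add even_two).neg_one_pow]) (d' := (p * k + 2 * ((p : ℤ) - 1),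
      (p • b, ((lam * w : ℕ) : ℤ)))) (Prod.ext (by push_cast; rw [hn]; ring) rfl)
  obtain ⟨X, y, t, hX, hy⟩ := exists_sigma C h3 hi h2 q
  refine ⟨F.FW ι lam Y (n + 2), _, q, X, y, t, ef, hq, ?_, hX, hy⟩
  exact (F.nf_FW hc e (n + 2)).posT (by simp)

end Vale.Agent.P257.W
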